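import Vale.Agent.P182.H96.RedV

/-!
# Two-dimensional kernels: movable elements, richness of the reduction
-/

namespace Vale.Agent.P182.H96

open Module Matrix Vale.Agent.P182.H533

section lin

variable {L X : Type*} [Field L] [AddCommGroup X] [Module L X]

theorem exists_coord {K : Submodule L X} (h : finrank L K = 2) {x y : X} (hx : x ∈ K) (hy : y ∈ K)
    (hx0 : x ≠ 0) (hyx : ∀ c : L, y ≠ c • x) : ∀ z ∈ K, ∃ α β : L, z = α • x + β • y := by
  have hfin : FiniteDimensional L K := FiniteDimensional.of_finrank_pos (by omega)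
  have hli : LinearIndependent L ![x, y] := by
    rw [LinearIndependent.pair_iff]
    intro s t hst
    have ht : t = 0 := by
      by_contra ht
      apply hyx (-(t⁻¹ * s))
      have h1 : t • y = -(s • x) := eq_neg_of_add_eq_zero_right hst
      rw [neg_smul, mul_smul, ← smul_neg, ← h1, smul_smul, inv_mul_cancel₀ ht, one_smul]
    subst ht
    rw [zero_smul, add_zero] at hst
    exact ⟨(smul_eq_zero.mp hst).resolve_right hx0, rfl⟩
  have h1 : Submodule.span L (Set.range ![x, y]) ≤ K := by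
    rw [Submodule.span_le]
    rintro _ ⟨i, rfl⟩
    fin_cases i
    · exact hx
    · exact hy
  have h2 : finrank L (Submodule.span L (Set.range ![x, y])) = 2 := by
    rw [finrank_span_eq_card hli]; rfl
  have h3 : Submodule.span L (Set.range ![x, y]) = K :=
    Submodule.eq_of_le_of_finrank_eq h1 (by rw [h2, h])
  intro z hz
  rw [← h3, Matrix.range_cons, Matrix.range_cons, Matrix.range_empty, Set.union_empty,
    Set.singleton_union, Submodule.mem_span_pair] at hz
  obtain ⟨α, β, h4⟩ := hz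
  exact ⟨α, β, h4.symm⟩

theorem exists_compl {K : Submodule L X} (h : finrank L K = 2) {x : X} :
    ∃ y ∈ K, ∀ c : L, y ≠ c • x := by
  by_contra hcon
  push Not at hcon
  have h1 : K ≤ Submodule.span L {x} := by
    intro y hy
    obtain ⟨c, hc⟩ := hcon y hy
    rw [hc]
    exact Submodule.smul_mem _ _ (Submodule.mem_span_singleton_self x)
  have h2 := Submodule.finrank_mono h1
  have h3 : finrank L (Submodule.span L {x}) ≤ 1 := by
    have := finrank_span_le_card (R := L) ({x} : Set X)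
    simpa using this
  omega

end lin

section zero

variable {L V : Type*} [Field L] [AddCommGroup V] [Module L V]

/-- the zero connection -/
def zeroConn (q : V →ₗ[L] V →ₗ[L] L) : Conn q where
  d := 0
  δ := 0
  leib := fun a b => by simp
  smul := fun a v => by simp
  metric := fun u v => by simp

end zero

namespace Cf

section two

variable {L V J ι : Type*} [Field L] [AddCommGroup V] [Module L V]
  {a : Cf L V J ι}

theorem isD0_zero : a.IsD0 (zeroConn a.q) :=
  ⟨fun s i _ _ => (a.F s i).zero_mem, fun _ _ => rfl⟩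

theorem IsD0.comb {c c' : Conn a.q} (h : a.IsD0 c) (h' : a.IsD0 c') (b : L) :
    a.IsD0 (comb c c' b) := by
  refine ⟨fun s i v hv => ?_, fun l k => ?_⟩
  · rw [comb_δ]
    exact (a.F s i).sub_mem (h.1 s i v hv) ((a.F s i).smul_mem _ (h'.1 s i v hv))
  · rw [comb_d, h.2, h'.2, mul_zero, sub_zero]

variable [Fintype J]

/-- connections of `D0` preserve the kernel -/
theorem Good.D0_K (h : a.Good) {c : Conn a.q} (hc : a.IsD0 c) {x : J → V} (hx : x ∈ a.K) :
    (fun l => c.δ (x l)) ∈ a.K := by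
  refine mem_K'.mpr ⟨fun l => hc.1 _ _ _ ((mem_K'.mp hx).1 l), fun w hw => ?_⟩
  have h1 := h.M_der (Y := fun _ => 0) hx hw (fun s u v => by simp) c
    (fun s i v hv => by simpa using hc.1 s i v hv)
  simp only [LinearMap.zero_apply, sub_zero, hc.2, zero_mul, Finset.sum_const_zero] at h1
  rw [h1, Tt]
  simp

/-- the family of connections can be chosen to fix the line of `x` -/
theorem Good.rich_fix (h : a.Good) (hRi : a.Rich) (hK : finrank L a.K = 2) {x : J → V}
    (hx : x ∈ a.K) (hx0 : x ≠ 0) (m : ℕ) :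
    ∃ (c : Fin m → Conn a.q) (τ : Fin m → L), (∀ i, a.IsD0 (c i)) ∧
      (∀ i j, (c i).d (τ j) = if i = j then 1 else 0) ∧
      ∀ i, ∃ μ : L, ∀ l, (c i).δ (x l) = μ • x l := by
  obtain ⟨c, τ, h1, h2⟩ := hRi (m + 1)
  obtain ⟨y, hy, hyx⟩ := exists_compl hK (x := x)
  choose α β hαβ using fun i => exists_coord hK hx hy hx0 hyx _ (h.D0_K (h1 i) hx)
  have hαβ' : ∀ i l, (c i).δ (x l) = α i • x l + β i • y l := fun i l => congrFun (hαβ i) l
  obtain ⟨i0, hi0⟩ : ∃ i0, (∀ i, β i = 0) ∨ β i0 ≠ 0 := by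
    by_cases hall : ∀ i, β i = 0
    · exact ⟨0, Or.inl hall⟩
    · push Not at hall
      obtain ⟨i, hi⟩ := hall
      exact ⟨i, Or.inr hi⟩
  refine ⟨fun j => comb (c (i0.succAbove j)) (c i0) (β (i0.succAbove j) / β i0),
    fun j => τ (i0.succAbove j), fun j => (h1 _).comb (h1 _) _, fun i j => ?_, fun i => ?_⟩
  · rw [comb_d, h2, h2, if_neg (Fin.succAbove_ne i0 j).symm, mul_zero, sub_zero]
    by_cases hij : i = j
    · rw [if_pos hij, if_pos (by rw [hij])]
    · rw [if_neg hij, if_neg (fun h => hij (Fin.succAbove_right_injective h))]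
  · refine ⟨α (i0.succAbove i) - β (i0.succAbove i) / β i0 * α i0, fun l => ?_⟩
    rw [comb_δ, hαβ', hαβ']
    rcases hi0 with hi0 | hi0
    · rw [hi0, hi0, zero_div]
      module
    · have e1 : (β (i0.succAbove i) / β i0) • (α i0 • x l + β i0 • y l) =
          (β (i0.succAbove i) / β i0 * α i0) • x l + β (i0.succAbove i) • y l := by
        rw [smul_add, smul_smul, smul_smul, div_mul_cancel₀ _ hi0]
      rw [e1]
      module

/-- there are movable elements -/
theorem exists_movable (hRi : a.Rich) (hK : finrank L a.K = 2) :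
    ∃ x ∈ a.K, ∃ c : Conn a.q, a.IsD0 c ∧ ∀ μ : L, (fun l => c.δ (x l)) ≠ μ • x := by
  by_contra hcon
  push Not at hcon
  obtain ⟨c, τ, h1, h2⟩ := hRi 1
  have hfin : FiniteDimensional L a.K := FiniteDimensional.of_finrank_pos (by omega)
  obtain ⟨x, hx, hx0⟩ : ∃ x ∈ a.K, x ≠ 0 := by
    by_contra hall
    push Not at hall
    have : a.K = ⊥ := (Submodule.eq_bot_iff _).mpr hall
    rw [this, finrank_bot] at hK
    omega
  obtain ⟨y, hy, hyx⟩ := exists_compl hK (x := x)
  obtain ⟨α, hα⟩ := hcon x hx (c 0) (h1 0)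
  obtain ⟨β, hβ⟩ := hcon y hy (c 0) (h1 0)
  obtain ⟨γ, hγ⟩ := hcon (x + y) (a.K.add_mem hx hy) (c 0) (h1 0)
  obtain ⟨ε, hε⟩ := hcon (x + τ 0 • y) (a.K.add_mem hx (a.K.smul_mem _ hy)) (c 0) (h1 0)
  have hα' : ∀ l, (c 0).δ (x l) = α • x l := congrFun hα
  have hβ' : ∀ l, (c 0).δ (y l) = β • y l := congrFun hβ
  have hind : ∀ s t : L, s • x + t • y = 0 → s = 0 ∧ t = 0 := by
    intro s t hst
    have ht : t = 0 := by
      by_contra ht
      apply hyx (-(t⁻¹ * s))
      have h1 : t • y = -(s • x) := eq_neg_of_add_eq_zero_right hst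
      rw [neg_smul, mul_smul, ← smul_neg, ← h1, smul_smul, inv_mul_cancel₀ ht, one_smul]
    subst ht
    rw [zero_smul, add_zero] at hst
    exact ⟨(smul_eq_zero.mp hst).resolve_right hx0, rfl⟩
  have e1 := hind (α - γ) (β - γ) (by
    funext l
    have h3 := congrFun hγ l
    simp only [Pi.add_apply, Pi.smul_apply, map_add, hα', hβ'] at h3
    simp only [Pi.add_apply, Pi.smul_apply, Pi.zero_apply]
    rw [sub_smul, sub_smul, sub_add_sub_comm, h3, smul_add, sub_self])
  have e2 := hind (α - ε) (τ 0 * β + 1 - ε * τ 0) (by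
    funext l
    have h3 := congrFun hε l
    simp only [Pi.add_apply, Pi.smul_apply, map_add, hα', hβ', (c 0).smul, h2, if_true] at h3
    simp only [Pi.add_apply, Pi.smul_apply, Pi.zero_apply]
    rw [← sub_eq_zero] at h3
    rw [← h3]
    module)
  have e3 : β = ε := by rw [← sub_eq_zero.mp e2.1, sub_eq_zero.mp e1.1, sub_eq_zero.mp e1.2]
  have e4 := e2.2
  rw [e3, mul_comm] at e4
  have : (1 : L) = 0 := by linear_combination e4
  exact one_ne_zero this

/-- movable elements satisfy the hypothesis of `versal_red` -/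
theorem hmov_of_movable (hK : finrank L a.K = 2) {x : J → V} (hx : x ∈ a.K) (hx0 : x ≠ 0)
    (hD : ∀ c : Conn a.q, a.IsD0 c → (fun l => c.δ (x l)) ∈ a.K) {c : Conn a.q} (hc : a.IsD0 c)
    (hcx : ∀ μ : L, (fun l => c.δ (x l)) ≠ μ • x) {R : Submodule L V} (hxR : ∀ l, x l ∈ R) :
    ∀ y ∈ a.K, ∃ c : Conn a.q, a.IsD0 c ∧ ∀ l, c.δ (x l) - y l ∈ R := by
  intro y hy
  obtain ⟨α, β, hαβ⟩ := exists_coord hK hx (hD c hc) hx0 hcx y hy
  refine ⟨comb (zeroConn a.q) c (-β), isD0_zero.comb hc _, fun l => ?_⟩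
  have h1 : y l = α • x l + β • c.δ (x l) := congrFun hαβ l
  rw [comb_δ, h1]
  have h2 : (zeroConn a.q).δ (x l) - -β • c.δ (x l) - (α • x l + β • c.δ (x l)) =
      (-α) • x l := by
    have : (zeroConn a.q).δ (x l) = 0 := rfl
    rw [this]
    module
  rw [h2]
  exact R.smul_mem _ (hxR l)

/-- richness of the reduction -/
theorem Good.rich_red (h : a.Good) (hRi : a.Rich) (hK : finrank L a.K = 2) {x : J → V}
    (hx : x ∈ a.K) (hx0 : x ≠ 0) {R : Submodule L V}
    (hRx : R = Submodule.span L (Set.range x)) (D : Rd a.q R) : (a.red D).Rich := by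
  have hxR : ∀ l, x l ∈ R := fun l => by rw [hRx]; exact Submodule.subset_span ⟨l, rfl⟩
  intro m
  obtain ⟨c, τ, h1, h2, h3⟩ := h.rich_fix hRi hK hx hx0 m
  refine ⟨fun i => D.conn h.form (c i), τ, fun i => h.isD0_red D (h1 i)
    (conn_span hRx fun l => ?_), fun i j => h2 i j⟩
  obtain ⟨μ, hμ⟩ := h3 i
  rw [hμ]
  exact R.smul_mem _ (hxR l)

end two

end Cf

end Vale.Agent.P182.H96
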