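import Vale.Agent.P182.H96.Deg
import Vale.Agent.P182.H96.Two

/-!
# The reduction by a non-isotropic element of the kernel
-/

namespace Vale.Agent.P182.H96

open Module Matrix Vale.Agent.P182.H533

section rd

variable {L V : Type*} [Field L] [AddCommGroup V] [Module L V]

theorem exists_rd' [FiniteDimensional L V] {q : V →ₗ[L] V →ₗ[L] L} (hq : IsForm q)
    (R : Submodule L V) : Nonempty (Rd q R) := by
  obtain ⟨P, h1, h2⟩ := IsModularLattice.exists_disjoint_and_sup_eq
    (inf_le_right : R ⊓ pp q R ≤ pp q R)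
  have hP : P ≤ pp q R := h2 ▸ le_sup_right
  have hdisj : ∀ v ∈ P, v ∈ R → v = 0 := fun v h3 h4 => by
    have := disjoint_iff.mp h1
    exact (Submodule.mem_bot L).mp (this ▸ ⟨⟨h4, hP h3⟩, h3⟩)
  let qP : P →ₗ[L] P →ₗ[L] L := q.domRestrict₁₂ P P
  have hqP : IsForm qP := by
    refine ⟨fun u v => hq.symm _ _, fun u hu => ?_⟩
    apply Subtype.ext
    apply hdisj _ u.2
    rw [← pp_pp hq R]
    intro v hv
    rw [← h2] at hv
    obtain ⟨r, hr, p, hp, rfl⟩ := Submodule.mem_sup.mp hv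
    rw [map_add, LinearMap.add_apply, hP u.2 r hr.1, zero_add, hq.symm]
    exact hu ⟨p, hp⟩
  let f : V →ₗ[L] Dual L P :=
    { toFun := fun v => q v ∘ₗ P.subtype
      map_add' := fun u v => by ext p; simp
      map_smul' := fun c v => by ext p; simp }
  let π : V →ₗ[L] P := hqP.eqv.symm.toLinearMap ∘ₗ f
  have hπ : ∀ (v : V) (p : P), q (π v : V) p = q v p := fun v p => hqP.eqv_symm_apply (f v) p
  have hπP : ∀ p : P, π (p : V) = p := fun p => hqP.ext fun w => hπ p w
  have hπR : ∀ r ∈ R, π r = 0 := fun r hr => hqP.ext fun w => by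
    rw [map_zero, LinearMap.zero_apply]
    exact (hπ r w).trans (hP w.2 r hr)
  refine ⟨⟨P, hP, hdisj, π, hπ, hπP, hπR, fun v hv => ?_⟩⟩
  rw [← h2] at hv
  obtain ⟨r, hr, p, hp, rfl⟩ := Submodule.mem_sup.mp hv
  rw [map_add, hπR r hr.1, zero_add, hπP ⟨p, hp⟩]
  simpa using hr.1

end rd

namespace Cf

section lemZ'

variable {L V J ι : Type*} [Field L] [AddCommGroup V] [Module L V] [Fintype J]
  {a : Cf L V J ι}

theorem om_mem_R {x : J → V} {R : Submodule L V} (hxR : ∀ l, x l ∈ R) (l : J) :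
    om a.Ω x l ∈ R := om_mem hxR l

/-- the pairing of operators of `R` with the pair `z, x` -/
def Tr (a : Cf L V J ι) {R : Submodule L V} (x : J → V) (hxR : ∀ l, x l ∈ R) (z : J → V)
    (ρ : ι → End L R) : L :=
  ∑ l, (a.q (om a.Ω z l) (ρ (a.arm l) ⟨x l, hxR l⟩) +
    a.q (z l) (ρ (a.arm l) ⟨om a.Ω x l, om_mem_R hxR l⟩))

variable [DecidableEq J] [DecidableEq ι] [FiniteDimensional L V]

/-- **Lemma Z'.** -/
theorem Good.lemmaZ' (h : a.Good) (h2 : (2 : L) ≠ 0) {x : J → V} (hx : x ∈ a.K)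
    {R : Submodule L V} (hxR : ∀ l, x l ∈ R) {z : J → V} (hz : ∀ l, z l ∈ a.C l)
    (hzR : ∀ t ∈ a.E R, a.M t z = 0) {d : L →+ L} (hd : ∀ a b, d (a * b) = d a * b + a * d b)
    (hT : ∀ ρ : ι → End L R, (∀ s, ∀ u v : R, a.q (ρ s u) v = - a.q u (ρ s v)) →
      a.Tr x hxR z ρ = 0) : ∑ l, ∑ k, d (a.Ω l k) * a.q (z l) (x k) = 0 := by
  have hx' := mem_K.mp hx
  let b : R →ₗ[L] R →ₗ[L] L := a.q.domRestrict₁₂ R R
  have hb : ∀ u v, b u v = b v u := fun u v => h.form.symm _ _
  have hmix : ∀ l k, a.arm l = a.arm k → a.C l ≤ pp a.q (a.C k) := by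
    intro l k hlk
    rcases h.chain l k hlk with h3 | h3
    · exact h3.trans (h.iso k)
    · exact (h.iso l).trans (pp_anti h3)
  let A : J ⊕ J → Submodule L R := Sum.elim (fun l => (a.C l).comap R.subtype)
    fun l => (pp a.q (a.C l)).comap R.subtype
  have key : ∀ s : ι, ∃ δ : R →+ R, IsConn d δ ∧
      (∀ l, a.arm l = s → Pres δ ((a.C l).comap R.subtype) ∧
        Pres δ ((pp a.q (a.C l)).comap R.subtype)) ∧
      ∀ u v, d (b u v) = b (δ u) v + b u (δ v) := by
    intro s
    let S : Finset J := Finset.univ.filter fun l => a.arm l = s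
    have hS : ∀ {l}, l ∈ S ↔ a.arm l = s := fun {l} => by simp [S]
    obtain ⟨δ, g1, g2, g3⟩ := exists_metric_deg hb h2 hd A (S.disjSum S) (by
      rintro (i | i) hi (j | j) hj
      · have hi' := hS.mp (Finset.inl_mem_disjSum.mp hi)
        have hj' := hS.mp (Finset.inl_mem_disjSum.mp hj)
        rcases h.chain i j (hi'.trans hj'.symm) with h3 | h3
        · exact Or.inl (Submodule.comap_mono h3)
        · exact Or.inr (Submodule.comap_mono h3)
      · have hi' := hS.mp (Finset.inl_mem_disjSum.mp hi)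
        have hj' := hS.mp (Finset.inr_mem_disjSum.mp hj)
        exact Or.inl (Submodule.comap_mono (hmix i j (hi'.trans hj'.symm)))
      · have hi' := hS.mp (Finset.inr_mem_disjSum.mp hi)
        have hj' := hS.mp (Finset.inl_mem_disjSum.mp hj)
        exact Or.inr (Submodule.comap_mono (hmix j i (hj'.trans hi'.symm)))
      · have hi' := hS.mp (Finset.inr_mem_disjSum.mp hi)
        have hj' := hS.mp (Finset.inr_mem_disjSum.mp hj)
        rcases h.chain i j (hi'.trans hj'.symm) with h3 | h3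
        · exact Or.inr (Submodule.comap_mono (pp_anti h3))
        · exact Or.inl (Submodule.comap_mono (pp_anti h3)))
    exact ⟨δ, g1, fun l hl => ⟨g2 (Sum.inl l) (Finset.inl_mem_disjSum.mpr (hS.mpr hl)),
      g2 (Sum.inr l) (Finset.inr_mem_disjSum.mpr (hS.mpr hl))⟩, g3⟩
  choose δ g1 g2 g3 using key
  obtain ⟨δ0, f1, -, f3⟩ := exists_metric_deg hb h2 hd A ∅
    (fun i hi => absurd hi (Finset.notMem_empty i))
  let B : ι → End L R := fun s =>
    { toFun := fun v => δ s v - δ0 v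
      map_add' := fun u v => by rw [map_add, map_add]; abel
      map_smul' := fun c v => by rw [g1 s, f1, RingHom.id_apply]; module }
  have hB : ∀ s v, B s v = δ s v - δ0 v := fun s v => rfl
  let X : J → R := fun l => ⟨x l, hxR l⟩
  let U : J → R := fun l => ⟨om a.Ω x l, om_mem_R hxR l⟩
  have hUX : ∀ l, U l = ∑ k, a.Ω l k • X k := fun l => by
    apply Subtype.ext
    rw [AddSubmonoidClass.coe_finsetSum]
    rfl
  have e1 := hT B fun s u v => by
    have h3 := g3 s u v
    have h4 := f3 u v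
    rw [h3] at h4
    have h5 : a.q (δ s u) v + a.q u (δ s v) = a.q (δ0 u) v + a.q u (δ0 v) := h4
    rw [hB, hB, Submodule.coe_sub, Submodule.coe_sub, map_sub, LinearMap.sub_apply, map_sub]
    linear_combination h5
  -- the connection of the arm
  have e2 : ∀ l, a.q (z l) (δ (a.arm l) (U l)) = 0 := fun l =>
    (g2 (a.arm l) l rfl).2 (U l) (fun w hw => hx'.2 l w hw) _ (hz l)
  have e3 : ∑ l, a.q (om a.Ω z l) (δ (a.arm l) (X l)) = 0 := by
    have h3 := hzR (fun l => (δ (a.arm l) (X l) : V)) (mem_E.mpr fun l =>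
      ⟨(g2 (a.arm l) l rfl).1 (X l) (hx'.1 l), (δ (a.arm l) (X l)).2⟩)
    rw [h.M_skew, neg_eq_zero, h.M_apply', neg_eq_zero] at h3
    exact h3
  have e4 : ∑ l, (a.q (om a.Ω z l) (δ0 (X l)) + a.q (z l) (δ0 (U l))) = 0 := by
    have h3 : a.Tr x hxR z B = ∑ l, (a.q (om a.Ω z l) (δ (a.arm l) (X l)) +
        a.q (z l) (δ (a.arm l) (U l))) -
        ∑ l, (a.q (om a.Ω z l) (δ0 (X l)) + a.q (z l) (δ0 (U l))) := by
      rw [Tr, ← Finset.sum_sub_distrib]
      refine Finset.sum_congr rfl fun l _ => ?_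
      rw [hB, hB, Submodule.coe_sub, Submodule.coe_sub, map_sub, map_sub]
      ring
    rw [e1, Finset.sum_add_distrib, e3, zero_add, Finset.sum_congr rfl fun l _ => e2 l,
      Finset.sum_const_zero, zero_sub] at h3
    exact neg_eq_zero.mp h3.symm
  have e5 : ∀ l, (δ0 (U l) : V) = ∑ k, (d (a.Ω l k) • x k + a.Ω l k • (δ0 (X k) : V)) := by
    intro l
    rw [hUX, map_sum, AddSubmonoidClass.coe_finsetSum]
    refine Finset.sum_congr rfl fun k _ => ?_
    rw [f1, Submodule.coe_add, Submodule.coe_smul, Submodule.coe_smul]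
  have e6 : ∑ l, a.q (z l) (δ0 (U l)) = ∑ l, ∑ k, d (a.Ω l k) * a.q (z l) (x k) +
      a.M z (fun k => (δ0 (X k) : V)) := by
    rw [M_eq, ← Finset.sum_add_distrib]
    refine Finset.sum_congr rfl fun l _ => ?_
    rw [e5, map_sum, ← Finset.sum_add_distrib]
    refine Finset.sum_congr rfl fun k _ => ?_
    rw [map_add, map_smul, map_smul, smul_eq_mul, smul_eq_mul]
  rw [Finset.sum_add_distrib, e6, h.M_apply'] at e4
  linear_combination e4

end lemZ'

section F5'

variable {L V J ι : Type*} [Field L] [AddCommGroup V] [Module L V] [Fintype J]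
  {a : Cf L V J ι}

/-- `Tr` as a bilinear map -/
def TrL (a : Cf L V J ι) {R : Submodule L V} (x : J → V) (hxR : ∀ l, x l ∈ R) :
    (ι → End L R) →ₗ[L] (J → V) →ₗ[L] L :=
  LinearMap.mk₂ L (fun ρ z => a.Tr x hxR z ρ)
    (fun ρ ρ' z => by
      simp only [Tr, Pi.add_apply, LinearMap.add_apply, Submodule.coe_add, map_add]
      rw [← Finset.sum_add_distrib]
      exact Finset.sum_congr rfl fun l _ => by ring)
    (fun c ρ z => by
      simp only [Tr, Pi.smul_apply, LinearMap.smul_apply, Submodule.coe_smul, map_smul,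
        smul_eq_mul]
      rw [Finset.mul_sum]
      exact Finset.sum_congr rfl fun l _ => by ring)
    (fun ρ z z' => by
      simp only [Tr, om_add, Pi.add_apply, LinearMap.add_apply, map_add]
      rw [← Finset.sum_add_distrib]
      exact Finset.sum_congr rfl fun l _ => by ring)
    (fun c ρ z => by
      simp only [Tr, om_smul, Pi.smul_apply, LinearMap.smul_apply, map_smul, smul_eq_mul]
      rw [Finset.mul_sum]
      exact Finset.sum_congr rfl fun l _ => by ring)

theorem TrL_apply {R : Submodule L V} (x : J → V) (hxR : ∀ l, x l ∈ R) (z : J → V)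
    (ρ : ι → End L R) : a.TrL x hxR ρ z = a.Tr x hxR z ρ := rfl

variable [DecidableEq J] [DecidableEq ι] [Fintype ι] [FiniteDimensional L V]

/-- **F5 for arbitrary elements.** -/
theorem Good.F5' (h : a.Good) (h2 : (2 : L) ≠ 0) (hV : a.Versal) {x : J → V}
    (hx : x ∈ a.K) {R : Submodule L V} (hxR : ∀ l, x l ∈ R) (D : Rd a.q R) {Y' : ι → End L D.P}
    (hY' : ∀ s, IsSk (a.red D).q (Y' s)) {η : J → J → L} (hη : ∀ l k, η l k = - η k l) :
    ∃ (c : Conn a.q) (Y : ι → End L V),
      (∀ s, ∀ v ∈ pp a.q R, D.π (Y s v) = Y' s (D.π v) ∧ Y s v ∈ pp a.q R) ∧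
      (∀ s i, ∀ v ∈ a.F s i, c.δ v - Y s v ∈ a.F s i) ∧ (∀ l k, c.d (a.Ω l k) = η l k) ∧
      ∃ y ∈ a.K, ∀ l, c.δ (x l) - y l ∈ R := by
  have hx' := mem_K.mp hx
  let 𝒵 : Submodule L (ι → End L R) :=
    { carrier := {Z | ∀ s, ∀ u v : R, a.q (Z s u) v = - a.q u (Z s v)}
      add_mem' := by
        intro Z Z' hZ hZ' s u v
        simp only [Pi.add_apply, LinearMap.add_apply, Submodule.coe_add, map_add, hZ s u v,
          hZ' s u v]
        ring
      zero_mem' := fun s u v => by simp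
      smul_mem' := by
        intro c Z hZ s u v
        simp only [Pi.smul_apply, LinearMap.smul_apply, Submodule.coe_smul, map_smul, hZ s u v,
          smul_eq_mul]
        ring }
  let Q : Submodule L (J → V) := a.perp (a.E R)
  let Λ : 𝒵 →ₗ[L] Dual L Q :=
    { toFun := fun Z => a.TrL x hxR Z ∘ₗ Q.subtype
      map_add' := fun Z Z' => by ext v; simp
      map_smul' := fun c Z => by ext v; simp }
  have hΛ : ∀ (Z : 𝒵) (v : Q), Λ Z v = a.Tr x hxR v Z := fun Z v => rfl
  let φ : Dual L Q :=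
    { toFun := fun v => ∑ l, ∑ k, η l k * a.q (v.1 l) (x k)
      map_add' := fun u v => by
        simp only [Submodule.coe_add, Pi.add_apply, map_add, LinearMap.add_apply, mul_add,
          Finset.sum_add_distrib]
      map_smul' := fun c v => by
        simp only [Submodule.coe_smul, Pi.smul_apply, map_smul, LinearMap.smul_apply, smul_eq_mul,
          RingHom.id_apply, Finset.mul_sum]
        exact Finset.sum_congr rfl fun l _ => Finset.sum_congr rfl fun k _ => by ring }
  obtain ⟨c0, -, hc02⟩ := hV (fun _ => 0) (fun s u v => by simp) η hη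
  have hφ : φ ∈ LinearMap.range Λ := by
    rw [← Subspace.dualCoannihilator_dualAnnihilator_eq (W := LinearMap.range Λ),
      Submodule.mem_dualAnnihilator]
    intro v hv
    rw [Submodule.mem_dualCoannihilator] at hv
    have hv1 := mem_perp.mp v.2
    have hZ := h.lemmaZ' h2 hx hxR hv1.1 hv1.2 c0.leib fun ρ hρ => hv (Λ ⟨ρ, hρ⟩) ⟨_, rfl⟩
    show ∑ l, ∑ k, η l k * a.q (v.1 l) (x k) = 0
    simp only [hc02] at hZ
    exact hZ
  obtain ⟨Z, hZ⟩ := hφ
  choose W hW1 hW2 using fun s => exists_skew_ext h.form (Z.2 s)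
  let m : ι → End L D.P := fun s => D.π ∘ₗ W s ∘ₗ D.P.subtype
  have hm : ∀ s p, m s p = D.π (W s p) := fun s p => rfl
  have hmsk : ∀ s, IsSk (a.red D).q (m s) := by
    intro s u v
    have e1 : a.q (D.π (W s u) : V) v = - a.q (u : V) (D.π (W s v) : V) := by
      rw [D.π_q, h.form.symm (u : V), D.π_q, hW1 s u v, h.form.symm (u : V)]
    exact e1
  let Y : ι → End L V := fun s => W s + D.P.subtype ∘ₗ (Y' s - m s) ∘ₗ D.π
  have hYa : ∀ s v, Y s v = W s v + ((Y' s (D.π v) - m s (D.π v) : D.P) : V) := fun s v => rfl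
  have hYsk : ∀ s, IsSk a.q (Y s) := by
    intro s u v
    have e1 : a.q ((Y' s (D.π u) - m s (D.π u) : D.P) : V) v =
        - a.q u ((Y' s (D.π v) - m s (D.π v) : D.P) : V) := by
      have e2 : a.q ((Y' s (D.π u) - m s (D.π u) : D.P) : V) (D.π v : V) =
          - a.q (D.π u : V) ((Y' s (D.π v) - m s (D.π v) : D.P) : V) := by
        have e4 := hY' s (D.π u) (D.π v)
        have e5 := hmsk s (D.π u) (D.π v)
        have e4' : a.q (Y' s (D.π u) : V) (D.π v : V) = - a.q (D.π u : V) (Y' s (D.π v) : V) := e4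
        have e5' : a.q (m s (D.π u) : V) (D.π v : V) = - a.q (D.π u : V) (m s (D.π v) : V) := e5
        rw [Submodule.coe_sub, Submodule.coe_sub, map_sub, LinearMap.sub_apply, map_sub, e4', e5']
        ring
      have e3 : a.q ((Y' s (D.π u) - m s (D.π u) : D.P) : V) v =
          a.q ((Y' s (D.π u) - m s (D.π u) : D.P) : V) (D.π v : V) := by
        rw [h.form.symm, h.form.symm _ (D.π v : V), D.π_q]
      rw [e3, e2, D.π_q]
    rw [hYa, hYa, map_add, LinearMap.add_apply, map_add, e1, hW1 s u v]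
    ring
  have hYR : ∀ s, ∀ r : R, Y s r = Z.1 s r := by
    intro s r
    rw [hYa, D.π_R r r.2, map_zero, map_zero, sub_zero, Submodule.coe_zero, add_zero, hW2]
  obtain ⟨c, hc1, hc2⟩ := hV Y hYsk η hη
  let xt : J → V := fun l => c.δ (x l) - Y (a.arm l) (x l)
  have hxt : ∀ l, xt l ∈ a.C l := fun l => hc1 _ _ _ (hx'.1 l)
  have hxt' : xt ∈ a.perp Q := by
    refine mem_perp.mpr ⟨hxt, fun v hv => ?_⟩
    have hv1 := mem_perp.mp hv
    have e1 := h.M_der hx hv1.1 hYsk c hc1
    have e2 : a.Tt v x Y = a.Tr x hxR v Z.1 := by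
      rw [Tt, Tr]
      refine Finset.sum_congr rfl fun l _ => ?_
      rw [← hYR (a.arm l) ⟨x l, hxR l⟩, ← hYR (a.arm l) ⟨om a.Ω x l, om_mem_R hxR l⟩]
    have e4 : a.Tr x hxR v Z.1 = ∑ l, ∑ k, η l k * a.q (v l) (x k) := by
      have e5 := LinearMap.congr_fun hZ ⟨v, hv⟩
      exact e5
    simp only [hc2] at e1
    rw [e2, e4, sub_self] at e1
    exact e1
  have hxt2 : xt ∈ a.E R ⊔ a.K := by
    have e1 := po_po (M := a.M) (E := a.E ⊤) h.M_skew (W := a.E R) (E_le_top R)
    exact e1.le hxt'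
  obtain ⟨e, he, y, hy, hey⟩ := Submodule.mem_sup.mp hxt2
  have he' := mem_E.mp he
  have hey' : ∀ l, e l + y l = c.δ (x l) - Y (a.arm l) (x l) := fun l => congrFun hey l
  have hcy : ∀ l, c.δ (x l) - y l ∈ R := by
    intro l
    have e1 : c.δ (x l) - y l = e l + Y (a.arm l) (x l) := by
      have := hey' l
      rw [eq_sub_iff_add_eq] at this
      rw [← this]
      abel
    rw [e1, hYR (a.arm l) ⟨x l, hxR l⟩]
    exact R.add_mem (he' l).2 (Z.1 (a.arm l) ⟨x l, hxR l⟩).2
  refine ⟨c, Y, fun s v hv => ⟨?_, ?_⟩, hc1, hc2, y, hy, hcy⟩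
  · have e1 : D.π (W s v) = m s (D.π v) := by
      have e2 : W s v = W s (D.π v) + W s (v - D.π v) := by rw [← map_add]; congr 1; abel
      have e3 : W s (v - D.π v) ∈ R := by
        have := hW2 s ⟨v - D.π v, D.π_sub v hv⟩
        rw [show ((⟨v - D.π v, D.π_sub v hv⟩ : R) : V) = v - D.π v from rfl] at this
        rw [this]
        exact (Z.1 s _).2
      rw [e2, map_add, D.π_R _ e3, add_zero, hm]
    rw [hYa, map_add, D.π_P, e1]
    abel
  · rw [hYa]
    refine (pp a.q R).add_mem ?_ (D.le (Y' s (D.π v) - m s (D.π v)).2)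
    intro r hr
    have e1 := hW1 s r v
    rw [hW2 s ⟨r, hr⟩, hv _ (Z.1 s ⟨r, hr⟩).2] at e1
    exact neg_eq_zero.mp e1.symm

end F5'

section move

variable {L V J ι : Type*} [Field L] [AddCommGroup V] [Module L V] [Fintype J]
  {a : Cf L V J ι} [DecidableEq J] [DecidableEq ι]

/-- **The reduction does not move.** -/
theorem Good.no_move (h : a.Good) (hV : a.Versal) (hN : a.N1sq) {x y : J → V} (hx : x ∈ a.K)
    (hy : y ∈ a.K) (hxy : ∀ l k, a.q (x l) (y k) = 0) {R : Submodule L V}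
    (hR : ∀ r ∈ R, ∀ k, a.q r (y k) = 0) (c : Conn a.q) {α : L} (hα : α ≠ 0)
    (hc : ∀ l, c.δ (x l) - α • y l ∈ R) (l k : J) : a.q (y l) (y k) = 0 := by
  have e1 : ∀ l k, a.q (y l) (y k) = - α⁻¹ * a.q (x l) (c.δ (y k)) := by
    intro l k
    have h1 := c.metric (x l) (y k)
    rw [hxy, map_zero] at h1
    have h2 := hR _ (hc l) k
    rw [map_sub, LinearMap.sub_apply, map_smul, LinearMap.smul_apply, smul_eq_mul] at h2
    have h3 : α * a.q (y l) (y k) = - a.q (x l) (c.δ (y k)) := by linear_combination -h2 - h1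
    rw [neg_mul, eq_neg_iff_add_eq_zero, ← mul_right_inj' hα, mul_add, mul_zero, ← mul_assoc,
      mul_inv_cancel₀ hα, one_mul, h3]
    ring
  have e2 : ∀ l k, a.q (om a.Ω y l) (y k) = - α⁻¹ * a.q (om a.Ω x l) (c.δ (y k)) := by
    intro l k
    rw [om, om, map_sum, map_sum, LinearMap.sum_apply, LinearMap.sum_apply, Finset.mul_sum]
    refine Finset.sum_congr rfl fun j _ => ?_
    rw [map_smul, map_smul, LinearMap.smul_apply, LinearMap.smul_apply, e1, smul_eq_mul,
      smul_eq_mul]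
    ring
  refine h.gram_zero hN hy (mem_K'.mp hy).1 (fun l k => h.form.symm _ _ |>.trans
    (by rw [h.form.symm, h.F1 hV hy hy])) (fun s i j => ?_) l k
  have h3 : a.tau s y y (y i) = - α⁻¹ • a.tau s y x (c.δ (y i)) := by
    rw [← h.F2 hV hx hy, tau, tau, Finset.smul_sum]
    refine Finset.sum_congr rfl fun l _ => ?_
    rw [e1, e2, smul_add, smul_smul, smul_smul]
  have h4 : a.q (y j) (a.tau s y x (c.δ (y i))) = 0 := by
    rw [tau, map_sum]
    refine Finset.sum_eq_zero fun l _ => ?_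
    rw [map_add, map_smul, map_smul, h.form.symm (y j) (x l), hxy, smul_zero, add_zero, om,
      map_sum]
    rw [Finset.sum_eq_zero fun k _ => by rw [map_smul, h.form.symm, hxy, smul_zero], smul_zero]
  have h5 := congrArg (a.q (y j)) h3
  rw [map_smul, h4, smul_zero, tau, map_sum] at h5
  rw [← h5]
  refine Finset.sum_congr rfl fun l _ => ?_
  rw [map_add, map_smul, map_smul, smul_eq_mul, smul_eq_mul, h.form.symm (y i) (y l),
    h.form.symm (y i) (om a.Ω y l)]

variable [Fintype ι] [FiniteDimensional L V]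

/-- **Versality of the reduction by a non-isotropic element.** -/
theorem Good.versal_red2 (h : a.Good) (h2 : (2 : L) ≠ 0) (hV : a.Versal) (hN : a.N1sq)
    {x y : J → V} (hx : x ∈ a.K) (hy : y ∈ a.K) (hxy : ∀ l k, a.q (x l) (y k) = 0)
    (hyy : ¬ ∀ l k, a.q (y l) (y k) = 0) (hK : ∀ z ∈ a.K, ∃ α β : L, z = α • x + β • y)
    {R : Submodule L V} (hRx : R = Submodule.span L (Set.range x)) (D : Rd a.q R) :
    (a.red D).Versal := by
  have hxR : ∀ l, x l ∈ R := fun l => by rw [hRx]; exact Submodule.subset_span ⟨l, rfl⟩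
  have hRy : ∀ r ∈ R, ∀ k, a.q r (y k) = 0 := by
    intro r hr k
    rw [hRx] at hr
    induction hr using Submodule.span_induction with
    | mem r hr =>
      obtain ⟨l, rfl⟩ := hr
      exact hxy l k
    | zero => rw [map_zero, LinearMap.zero_apply]
    | add u v _ _ hu hv => rw [map_add, LinearMap.add_apply, hu, hv, add_zero]
    | smul b u _ hu => rw [map_smul, LinearMap.smul_apply, hu, smul_zero]
  intro Y' hY' η hη
  obtain ⟨c, Y, hY, hc1, hc2, z, hz, hcz⟩ := h.F5' h2 hV hx hxR D hY' hη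
  have hcx : ∀ l, c.δ (x l) ∈ R := by
    obtain ⟨α, β, hzxy⟩ := hK z hz
    have h3 : ∀ l, c.δ (x l) - β • y l ∈ R := by
      intro l
      have h4 := R.add_mem (hcz l) (R.smul_mem α (hxR l))
      rw [hzxy] at h4
      convert h4 using 1
      rw [Pi.add_apply, Pi.smul_apply, Pi.smul_apply]
      abel
    by_cases hβ : β = 0
    · intro l
      have := h3 l
      rwa [hβ, zero_smul, sub_zero] at this
    · exact absurd (h.no_move hV hN hx hy hxy hRy c hβ h3) hyy
  have hc' : ∀ r ∈ R, c.δ r ∈ R := conn_span hRx hcx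
  refine ⟨D.conn h.form c, fun s i v hv => ?_, hc2⟩
  obtain ⟨u, ⟨hu1, hu2⟩, rfl⟩ := hv
  rw [D.conn_π h.form _ hc' hu2, ← (hY s u hu2).1, ← map_sub]
  exact ⟨_, ⟨hc1 s i u hu1, (pp a.q R).sub_mem (conn_pp hc' hu2) (hY s u hu2).2⟩, rfl⟩

omit [Fintype ι] [FiniteDimensional L V] in
/-- **Richness of the reduction by a non-isotropic element.** -/
theorem Good.rich_red2 (h : a.Good) (hV : a.Versal) (hRi : a.Rich) (hN : a.N1sq)
    {x y : J → V} (hx : x ∈ a.K) (hy : y ∈ a.K) (hxy : ∀ l k, a.q (x l) (y k) = 0)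
    (hyy : ¬ ∀ l k, a.q (y l) (y k) = 0) (hK : ∀ z ∈ a.K, ∃ α β : L, z = α • x + β • y)
    {R : Submodule L V} (hRx : R = Submodule.span L (Set.range x)) (D : Rd a.q R) :
    (a.red D).Rich := by
  have hxR : ∀ l, x l ∈ R := fun l => by rw [hRx]; exact Submodule.subset_span ⟨l, rfl⟩
  have hRy : ∀ r ∈ R, ∀ k, a.q r (y k) = 0 := by
    intro r hr k
    rw [hRx] at hr
    induction hr using Submodule.span_induction with
    | mem r hr =>
      obtain ⟨l, rfl⟩ := hr
      exact hxy l k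
    | zero => rw [map_zero, LinearMap.zero_apply]
    | add u v _ _ hu hv => rw [map_add, LinearMap.add_apply, hu, hv, add_zero]
    | smul b u _ hu => rw [map_smul, LinearMap.smul_apply, hu, smul_zero]
  intro m
  obtain ⟨c, τ, hc, hτ⟩ := hRi m
  have hcx : ∀ i l, (c i).δ (x l) ∈ R := by
    intro i
    obtain ⟨α, β, hzxy⟩ := hK _ (h.D0_K (hc i) hx)
    have h3 : ∀ l, (c i).δ (x l) - β • y l ∈ R := by
      intro l
      have h4 := congrFun hzxy l
      rw [Pi.add_apply, Pi.smul_apply, Pi.smul_apply] at h4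
      rw [h4, add_sub_cancel_right]
      exact R.smul_mem α (hxR l)
    by_cases hβ : β = 0
    · intro l
      have := h3 l
      rwa [hβ, zero_smul, sub_zero] at this
    · exact absurd (h.no_move hV hN hx hy hxy hRy (c i) hβ h3) hyy
  exact ⟨fun i => D.conn h.form (c i), τ, fun i =>
    h.isD0_red D (hc i) (conn_span hRx (hcx i)), hτ⟩

end move

end Cf

end Vale.Agent.P182.H96
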