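import Vale.Agent.P182.H96.Swap
import Vale.Agent.P182.H96.RedTwo
import Vale.Agent.P182.H664.Strong
import Vale.Agent.P182.H922.GenExt
import Vale.Agent.P182.H922.Crit2

/-!
# LEMMA TWO

In a critical configuration there are no two orthogonal nonzero elements of the kernel.
-/

namespace Vale.Agent.P182.H96

open Module Matrix Vale.Agent.P182.H533 Vale.Agent.P182.B1

universe u v w

section ext

variable {L : Type u} {V : Type v} {J : Type w} [Field L] [AddCommGroup V] [Module L V]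
  [FiniteDimensional L V]

/-- a maximal isotropic column is the top of its flag -/
theorem top_of_cross {𝒟 : Cfg L V J} (g : 𝒟.Good) {l : J}
    (hl : finrank L V ≤ 2 * finrank L (𝒟.C l) + 1) (i : ℕ) (hi : 𝒟.c l ≤ i) :
    𝒟.F (𝒟.arm l) i = 𝒟.F (𝒟.arm l) (𝒟.c l) := by
  symm
  apply Submodule.eq_of_le_of_finrank_le (g.mono _ hi)
  have h1 := Submodule.finrank_mono (g.iso (𝒟.arm l) i)
  have h2 := H887.finrank_perp g.form (𝒟.F (𝒟.arm l) i)
  have h3 : finrank L (𝒟.C l) = finrank L (𝒟.F (𝒟.arm l) (𝒟.c l)) := rfl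
  omega

/-- **Generic extension of the cross columns.** -/
theorem exists_ext [IsAlgClosed L] [CharZero L] {m : Cfg L V J} (g : m.Good) (hV : m.Versal)
    (hR : m.Rich) {σ : J → J} (h1 : ∀ l, σ (σ l) = l) (h2 : ∀ l, σ l ≠ l)
    (h3 : ∀ l, m.arm (σ l) = m.arm l → m.c (σ l) = m.c l)
    (h4 : ∀ l k, m.arm (σ l) ≠ m.arm l → m.arm (σ k) ≠ m.arm k → k = l ∨ k = σ l)
    (h5 : ∀ l, m.arm (σ l) ≠ m.arm l → ∀ i, m.c l ≤ i → m.F (m.arm l) i = m.F (m.arm l) (m.c l)) :
    ∃ (F' : Fin 3 → ℕ → Submodule L V) (c' : J → ℕ),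
      ({ m with F := F', c := c' } : Cfg L V J).Good ∧
      ({ m with F := F', c := c' } : Cfg L V J).Versal ∧
      ({ m with F := F', c := c' } : Cfg L V J).Rich ∧
      ({ m with F := F', c := c' } : Cfg L V J).Pairing σ ∧
      (∀ l, m.C l ≤ F' (m.arm l) (c' l)) ∧
      ∀ l, m.arm (σ l) = m.arm l → F' (m.arm l) (c' l) = m.C l := by
  classical
  by_cases hcr : ∃ l, m.arm (σ l) ≠ m.arm l
  · obtain ⟨p, hp⟩ := hcr
    obtain ⟨F1, n1, a1, a2, a3, a4, a5, a6, a7, a8⟩ := H922.gen_ext g hV hR (m.arm p) (m.c p)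
      (h5 p hp)
    have hp' : m.arm (σ (σ p)) ≠ m.arm (σ p) := by rw [h1]; exact Ne.symm hp
    obtain ⟨F2, n2, b1, b2, b3, b4, b5, b6, b7, b8⟩ := H922.gen_ext a6 a7 a8 (m.arm (σ p))
      (m.c (σ p)) (fun i hi => by
        show F1 (m.arm (σ p)) i = F1 (m.arm (σ p)) (m.c (σ p))
        rw [a2 _ hp]
        exact h5 _ hp' i hi)
    let c' : J → ℕ := fun l => if l = p then n1 else if l = σ p then n2 else
      if m.arm l = m.arm p then min (m.c l) (m.c p) else
      if m.arm l = m.arm (σ p) then min (m.c l) (m.c (σ p)) else m.c l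
    have hc1 : c' p = n1 := if_pos rfl
    have hc2 : c' (σ p) = n2 := by
      show (if σ p = p then n1 else if σ p = σ p then n2 else _) = _
      rw [if_neg (h2 p), if_pos rfl]
    have hc3 : ∀ l, l ≠ p → l ≠ σ p → c' l = if m.arm l = m.arm p then min (m.c l) (m.c p) else
      if m.arm l = m.arm (σ p) then min (m.c l) (m.c (σ p)) else m.c l := by
      intro l hl hl'
      show (if l = p then n1 else if l = σ p then n2 else _) = _
      rw [if_neg hl, if_neg hl']
    have hF1 : F2 (m.arm p) = F1 (m.arm p) := b2 _ (Ne.symm hp)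
    have hnc : ∀ l, m.arm (σ l) = m.arm l → l ≠ p ∧ l ≠ σ p := by
      intro l hl
      constructor
      · rintro rfl; exact hp hl
      · rintro rfl; exact hp' hl
    refine ⟨F2, c', b6.setc c', b7.setc c', b8.setc c', ⟨h1, h2, fun l hl => ?_, fun l hl => ?_, h4⟩,
      fun l => ?_, fun l hl => ?_⟩
    · have hl' : m.arm (σ l) = m.arm l := hl
      obtain ⟨e1, e2⟩ := hnc l hl'
      show c' (σ l) = c' l
      have e3 : m.arm (σ (σ l)) = m.arm (σ l) := by rw [h1]; exact hl'.symm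
      obtain ⟨e4, e5⟩ := hnc _ e3
      rw [hc3 _ e1 e2, hc3 _ e4 e5, hl', h3 l hl']
    · have hl' : m.arm (σ l) ≠ m.arm l := hl
      show finrank L V ≤ 2 * finrank L (F2 (m.arm l) (c' l)) + 1
      rcases h4 p l hp hl' with rfl | rfl
      · rw [hc1, hF1]; exact a5
      · rw [hc2]; exact b5
    · by_cases e1 : l = p
      · subst e1
        rw [hc1, hF1]
        have e2 : m.C l = F1 (m.arm l) (m.c l) := (a3 _ le_rfl).symm
        rw [e2]
        exact a6.mono _ a1
      by_cases e2 : l = σ p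
      · subst e2
        rw [hc2]
        have e3 : m.C (σ p) = F2 (m.arm (σ p)) (m.c (σ p)) := by
          rw [b3 _ le_rfl]
          show _ = F1 _ _
          rw [a2 _ hp]
          rfl
        rw [e3]
        exact b6.mono _ b1
      have e3 : m.arm (σ l) = m.arm l := by
        by_contra e3
        rcases h4 p l hp e3 with h | h
        · exact e1 h
        · exact e2 h
      rw [hc3 l e1 e2]
      split_ifs with e4 e5
      · rw [e4, hF1, a3 _ (min_le_right _ _)]
        rcases le_total (m.c l) (m.c p) with e6 | e6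
        · rw [min_eq_left e6, ← e4]; exact le_rfl
        · rw [min_eq_right e6, ← h5 p hp _ e6, ← e4]; exact le_rfl
      · rw [e5, b3 _ (min_le_right _ _)]
        show _ ≤ F1 (m.arm (σ p)) _
        rw [a2 _ hp]
        rcases le_total (m.c l) (m.c (σ p)) with e6 | e6
        · rw [min_eq_left e6, ← e5]; exact le_rfl
        · rw [min_eq_right e6, ← h5 _ hp' _ e6, ← e5]; exact le_rfl
      · rw [b2 _ e5]
        show _ ≤ F1 (m.arm l) _
        rw [a2 _ e4]
        exact le_rfl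
    · obtain ⟨e1, e2⟩ := hnc l hl
      rw [hc3 l e1 e2]
      split_ifs with e4 e5
      · rw [e4, hF1, a3 _ (min_le_right _ _)]
        rcases le_total (m.c l) (m.c p) with e6 | e6
        · rw [min_eq_left e6, ← e4]; rfl
        · rw [min_eq_right e6, ← h5 p hp _ e6, ← e4]; rfl
      · rw [e5, b3 _ (min_le_right _ _)]
        show F1 (m.arm (σ p)) _ = _
        rw [a2 _ hp]
        rcases le_total (m.c l) (m.c (σ p)) with e6 | e6
        · rw [min_eq_left e6, ← e5]; rfl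
        · rw [min_eq_right e6, ← h5 _ hp' _ e6, ← e5]; rfl
      · rw [b2 _ e5]
        show F1 (m.arm l) _ = _
        rw [a2 _ e4]
        rfl
  · push Not at hcr
    exact ⟨m.F, m.c, g, hV, hR, ⟨h1, h2, h3, fun l hl => absurd (hcr l) hl, h4⟩,
      fun l => le_rfl, fun l _ => rfl⟩

end ext

section main

variable {L : Type u} {V : Type v} {J : Type w} [Field L] [AddCommGroup V] [Module L V]
  [FiniteDimensional L V] [Fintype J] [DecidableEq J]

/-- the tight case of LEMMA TWO -/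
theorem two_tight [IsAlgClosed L] [CharZero L] {𝒟 : Cfg L V J} {σ : J → J}
    (hC : H922.CritD.{u, v, w} 𝒟 σ) {x y : J → V} (hx : x ∈ 𝒟.K) (hy : y ∈ 𝒟.K) (hx0 : x ≠ 0)
    (hxy : ∀ l k, 𝒟.q (x l) (y k) = 0) (hK : ∀ z ∈ 𝒟.K, ∃ α β : L, z = α • x + β • y)
    (hyy : ¬ ∀ l k, 𝒟.q (y l) (y k) = 0) (ht : Tight 𝒟 σ y) : False := by
  have h2 : (2 : L) ≠ 0 := two_ne_zero
  have g := hC.good
  have hP := hC.pairing
  obtain ⟨D⟩ := exists_rd' (q := (ofCfg 𝒟).q) g.form (Submodule.span L (Set.range x))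
  set R : Submodule L V := Submodule.span L (Set.range x) with hR
  have ga := good_ofCfg g
  have hxa : x ∈ (ofCfg 𝒟).K := by rw [K_ofCfg g]; exact hx
  have hya : y ∈ (ofCfg 𝒟).K := by rw [K_ofCfg g]; exact hy
  have hKa : ∀ z ∈ (ofCfg 𝒟).K, ∃ α β : L, z = α • x + β • y := by
    rw [K_ofCfg g]; exact hK
  have hN := n1sq_ofCfg h2 g hC.versal
  set m : Cfg L D.P J := toCfg ((ofCfg 𝒟).red D) with hm
  have gm : m.Good := good_toCfg (ga.red D)
  have hVm : m.Versal := versal_toCfg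
    (ga.versal_red2 h2 (versal_ofCfg hC.versal) hN hxa hya hxy hyy hKa hR D)
  have hRm : m.Rich := rich_toCfg
    (ga.rich_red2 (versal_ofCfg hC.versal) (rich_ofCfg hC.rich) hN hxa hya hxy hyy hKa hR D)
  obtain ⟨F', c', g', hV', hR', hP', hle, heq⟩ := exists_ext gm hVm hRm hP.invol hP.ne hP.same
    hP.one (fun l hl i hi => by
      show (𝒟.F (𝒟.arm l) i ⊓ pp 𝒟.q R).map D.π = (𝒟.F (𝒟.arm l) (𝒟.c l) ⊓ pp 𝒟.q R).map D.π
      rw [top_of_cross g (hP.cross l hl) i hi])
  -- the vectors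
  have hyR : ∀ l, y l ∈ pp 𝒟.q R := by
    intro l r hr
    rw [hR] at hr
    induction hr using Submodule.span_induction with
    | mem r hr =>
      obtain ⟨k, rfl⟩ := hr
      exact hxy k l
    | zero => rw [map_zero, LinearMap.zero_apply]
    | add u v _ _ hu hv => rw [map_add, LinearMap.add_apply, hu, hv, add_zero]
    | smul b u _ hu => rw [map_smul, LinearMap.smul_apply, hu, smul_zero]
  have hoR : ∀ l, 𝒟.om y l ∈ pp 𝒟.q R := fun l =>
    Submodule.sum_mem _ fun k _ => Submodule.smul_mem _ _ (hyR k)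
  let t : J → D.P := fun l => D.π (y l)
  have hom : ∀ l, m.om t l = D.π (𝒟.om y l) := fun l => (map_om D.π 𝒟.Ω y l).symm
  have htC : ∀ l, t l ∈ m.C l := fun l => ⟨y l, ⟨hy.1 l, hyR l⟩, rfl⟩
  have htK : t ∈ ({ m with F := F', c := c' } : Cfg L D.P J).K := by
    refine ⟨fun l => hle l (htC l), fun l => ?_⟩
    show m.om t l ∈ perp m.q (F' (m.arm l) (c' l))
    by_cases hl : m.arm (σ l) = m.arm l
    · rw [heq l hl]
      rintro _ ⟨u, ⟨hu1, hu2⟩, rfl⟩
      rw [hom]
      show (ofCfg 𝒟).q (D.π (𝒟.om y l) : V) (D.π u : V) = 0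
      rw [D.q_π ga.form (hoR l) hu2]
      exact hy.2 l u hu1
    · refine g'.iso _ _ (hle l ?_)
      rw [hom]
      exact ⟨𝒟.om y l, ⟨ht l hl, hoR l⟩, rfl⟩
  have hR0 : R ≠ ⊥ := by
    intro h
    apply hx0
    funext l
    have h1 : x l ∈ R := by rw [hR]; exact Submodule.subset_span ⟨l, rfl⟩
    rw [h] at h1
    exact h1
  obtain ⟨Z, hZ, hst⟩ := Cfg.strong_of_lt h2 hC.ih (finrank_red_lt hR0 D) g' hV' hR' ⟨σ, hP'⟩
  apply hyy
  intro l k
  have h1 : (ofCfg 𝒟).q (D.π (y l) : V) (D.π (y k) : V) = 0 :=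
    hZ (hst t htK l) _ (hst t htK k)
  rw [D.q_π ga.form (hyR l) (hyR k)] at h1
  exact h1

/-- **LEMMA TWO.** -/
theorem hypTwo (L : Type u) (J : Type w) [Field L] [Fintype J] [DecidableEq J] [IsAlgClosed L]
    [CharZero L] : H922.HypTwo.{u, v, w} L J := by
  intro V _ _ _ 𝒟 σ hC x hx y hy hxy
  by_contra hcon
  rw [not_or] at hcon
  obtain ⟨hx0, hy0⟩ := hcon
  have h2 : (2 : L) ≠ 0 := two_ne_zero
  have g := hC.good
  have hiso : ∀ w ∈ 𝒟.K, (∀ l k, 𝒟.q (w l) (w k) = 0) → w = 0 := fun w hw hww =>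
    iso_eq_zero h2 g hC.versal hC.rich hC.pairing hC.semi hC.ih hC.dim hw hww
  have hyy : ¬ ∀ l k, 𝒟.q (y l) (y k) = 0 := fun h => hy0 (hiso y hy h)
  have hxx : ¬ ∀ l k, 𝒟.q (x l) (x k) = 0 := fun h => hx0 (hiso x hx h)
  have hyx : ∀ c : L, y ≠ c • x := by
    rintro c rfl
    apply hyy
    intro l k
    rw [Pi.smul_apply, map_smul, LinearMap.smul_apply, hxy l k, smul_zero]
  have hK := exists_coord hC.dim hx hy hx0 hyx
  have hyx' : ∀ l k, 𝒟.q (y l) (x k) = 0 := fun l k => by rw [g.form.symm]; exact hxy k l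
  have hK' : ∀ z ∈ 𝒟.K, ∃ α β : L, z = α • y + β • x := fun z hz => by
    obtain ⟨α, β, h⟩ := hK z hz
    exact ⟨β, α, by rw [h, add_comm]⟩
  rcases tight_or_tight g hC.versal hC.pairing hx hy hx0 hxy hK with h | h
  · exact two_tight hC hy hx hy0 hyx' hK' hxx h
  · exact two_tight hC hx hy hx0 hxy hK hyy h

end main

end Vale.Agent.P182.H96
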