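import Vale.Agent.P182.H96.OffE0
import Vale.Agent.P182.H120.FRow

/-!
# (OFF): the tails between two blocks are exact

`offE`: for `e ∈ U i ⊓ I`, `f ∈ U j`, `d i ≠ d j` the family `(e ⊗ f) x_a` is in `WF^e` and the
family `(f ⊗ e) x_a` is in `WF`.
-/

namespace Vale.Agent.P182.H96.OE

open Module Matrix Vale.Agent.P182.H533 Vale.Agent.P182.H922 Vale.Agent.P182.B1
  Vale.Agent.P182.H578 Vale.Agent.P182.H588 Vale.Agent.P182.H181 Vale.Agent.P182.H983
  Vale.Agent.P182.H922.S2 Vale.Agent.P182.H96.Tl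

universe u v w

variable {L : Type u} {V : Type v} {J : Type w} [Field L] [AddCommGroup V] [Module L V]
  [Fintype J] [DecidableEq J] {𝒟 : Cfg L V J} {u : J → L} {t t' : J → V}
  {W I : Submodule L V} {n : ℕ} {U : Fin n → Submodule L V} {d : Fin n → L} {p : Fin 3 → ℕ}

/-- the families `r` which occur in `WF` -/
def RR (𝒟 : Cfg L V J) (u : J → L) (t : J → V) (W I : Submodule L V) : Submodule L (J → V) where
  carrier := {r | r ∈ Uu V u ∧ ∃ Γ, RelG 𝒟 W I t Γ r}
  zero_mem' := ⟨(Uu V u).zero_mem, 0, relG_zero⟩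
  add_mem' := by
    rintro r r' ⟨h1, Γ, h2⟩ ⟨h1', Γ', h2'⟩
    exact ⟨add_mem h1 h1', Γ + Γ', relG_add h2 h2'⟩
  smul_mem' := by
    rintro c r ⟨h1, Γ, h2⟩
    exact ⟨Submodule.smul_mem _ c h1, c • Γ, relG_smul h2 c⟩

variable [FiniteDimensional L V]

theorem bks_of_blk (hC : Ctx 𝒟 u) (B : Blk 𝒟 u t t' W I U d p) : Bks 𝒟 u t W I U where
  hG := hC.good
  hk := hC.krel
  ht := B.ht
  le := U_le B
  S k a v hv := Res_U B k a hv
  span k := (B.sumU k).ge
  orth k k' h v hv w hw := B.ortho k k' h v hv w hw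
  hI v := by rw [B.I_eq]; exact Iff.rfl

theorem bas_of_blk (hC : Ctx 𝒟 u) (B : Blk 𝒟 u t t' W I U d p) {x y : L}
    (hu : ∀ k, x + y * d k ≠ 0) : Bas 𝒟 u t W I U (tm t t' x y) (fun k => x + y * d k) where
  hτ := tm_mem B x y
  ev k w hw := funext fun l => star_tm B x y hw l
  ne := hu
  W a w hw := (sumW_tm B hC hu).le (Submodule.mem_iSup_of_mem a (Submodule.mem_map_of_mem hw))
  nil := by
    obtain ⟨N, hN⟩ := B.nil
    refine ⟨N, ?_⟩
    have hU : ∀ m k, wordsOn (Res 𝒟 t) (U k ⊓ I) m ≤ U k := by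
      intro m k
      induction m with
      | zero => exact inf_le_left
      | succ m ih =>
        refine iSup_le fun a => ?_
        rintro _ ⟨w, hw, rfl⟩
        exact Res_U B k a (ih hw)
    have h1 : ∀ m, itI (Res 𝒟 (tm t t' x y)) I m ≤ ⨆ k, wordsOn (Res 𝒟 t) (U k ⊓ I) m := by
      intro m
      induction m with
      | zero => exact B.supI.ge
      | succ m ih =>
        refine iSup_le fun a => ?_
        refine (Submodule.map_mono ih).trans ?_
        rw [Submodule.map_iSup]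
        refine iSup_mono fun k => ?_
        rintro _ ⟨w, hw, rfl⟩
        rw [Res_tm B hC x y a (hU m k hw)]
        exact Submodule.smul_mem _ _ (Submodule.mem_iSup_of_mem a (Submodule.mem_map_of_mem hw))
    have h2 : ∀ m k, wordsOn (Res 𝒟 t) (U k ⊓ I) m ≤ wordsOn (Res 𝒟 t) (perp 𝒟.q W) m := by
      intro m k
      induction m with
      | zero =>
        refine inf_le_right.trans ?_
        rw [B.I_eq]
        exact inf_le_right
      | succ m ih => exact iSup_mono fun a => Submodule.map_mono ih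
    exact le_bot_iff.1 ((h1 N).trans (iSup_le fun k => (h2 N k).trans hN.le))

theorem wt_of_blk (h2 : (2 : L) ≠ 0) (hC : Ctx 𝒟 u) (hM : MaxCoreU 𝒟 u t)
    (B : Blk 𝒟 u t t' W I U d p) {i j : Fin n} {T : ℕ → Fin 3 → End L V}
    {M : ℕ} (hc : FChain 𝒟.q (Res 𝒟 t) W I (U i) (U j) T M) {x y : L}
    (hu : ∀ k, x + y * d k ≠ 0) (hcen : Cen 𝒟 t t' W I x y) (hj : x + y * d j = 1) :
    Wt 𝒟 u t W I U (bks_of_blk hC B).hG.form (RR 𝒟 u t W I) i j T M (x + y * d i) := by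
  have hB := bks_of_blk hC B
  have hb := bas_of_blk hC B hu
  have hq := hC.good.form
  have hbase := hB.atBase hb (i := i) hj
  have hT : ∀ a, bt hq T M ((x + y * d i) ^ 2) a ∈ Ten 𝒟.q W W := fun a =>
    ⟨fun v => hc.bt_mem hq (hB.le i) (hB.le j) _ a v, fun v hv => hq.nondeg _ fun w => by
      rw [bt_SA hq]
      exact hv _ (hc.bt_mem hq (hB.le i) (hB.le j) _ a w)⟩
  obtain ⟨r, hr, hIn, f1, f2, Γ, Γ', c, -, h6, -, -, h8, -⟩ := S2.rowS_wit h2 B hC hM hu hcen hT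
    (fun a => bt_SA hq _ a) (fun a w hw => by
      have h := I.neg_mem (hc.bt_comm hq hbase (hB.le i) (hB.le j) hb.W hB.hI a hw)
      rwa [neg_sub] at h) (hc.bt_sum hq hbase)
  refine ⟨tm t t' x y, fun k => x + y * d k, r, fun k => (x + y * d k) * c k, hb, rfl, hj,
    ⟨hr, Γ', h6⟩, ⟨f1, f2⟩, hIn, fun k a v hv => ?_⟩
  have h9 := I.add_mem (h6.two a v (hB.le k hv)) (Res_I B hC.good a (h8 k v hv))
  rw [map_sub, map_smul] at h9
  convert h9 using 1
  abel

/-- the members of the tail of a chain are exact -/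
theorem WFe_of_fchain [Infinite L] (h2 : (2 : L) ≠ 0) (hC : Ctx 𝒟 u) (hM : MaxCoreU 𝒟 u t)
    (B : Blk 𝒟 u t t' W I U d p) {i j : Fin n} (hij : d i ≠ d j)
    {T : ℕ → Fin 3 → End L V} {M n0 : ℕ}
    (hT : H120.FChain 𝒟.q (Res 𝒟 t) W I (U i) (U j) (U i ⊓ I) T M n0) (m : ℕ) (hm : n0 ≤ m) :
    H983.fam 𝒟 t (T m) ∈ WFe 𝒟 t W I u U := by
  have hc : FChain 𝒟.q (Res 𝒟 t) W I (U i) (U j) T M := {
    mem := hT.range
    kill := fun n a v hv => hT.kill n a v fun w hw => hv w hw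
    top := hT.top
    zero := fun v => by
      have := LinearMap.congr_fun hT.zero v
      rwa [LinearMap.sum_apply] at this
    step := fun n v => by
      have := LinearMap.congr_fun (hT.step n) v
      rwa [LinearMap.sum_apply, LinearMap.sum_apply] at this
    comm0 := hT.comm0
    comm := hT.comm }
  by_cases hmM : m ≤ M
  · obtain ⟨F, hF, hF0, h⟩ := exists_rowS h2 B hC hM
    have hR := H120.infinite_good hF hF0 hij
    obtain ⟨r, hr, c, h1, h3⟩ := exact_tail (bks_of_blk hC B) (i := i) (j := j)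
      (fun h => hij (by rw [h])) hc (RR := RR 𝒟 u t W I) (fun r hr => hr.1) hR
      (fun ρ hρ => by
        obtain ⟨-, x, y, e1, e2, e3⟩ := hρ
        obtain ⟨hu, hcen, -⟩ := h x y e3
        rw [← e1]
        exact wt_of_blk h2 hC hM B hc hu hcen e2) (n0 := n0)
      (fun n hn a v => (hT.tail n hn a v).2) m hm hmM
    refine ⟨r, hr.1, hr.2, ⟨c, fun k w hw l => ?_⟩, h3⟩
    have h4 := congrFun (h1 k w hw) l
    rw [rs_apply, Pi.smul_apply, rs_apply, smul_eq_mul] at h4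
    rw [hC.good.form.symm, h4, hC.good.form.symm]
  · rw [hT.top m (by omega)]
    have e1 : H983.fam 𝒟 t (0 : Fin 3 → End L V) = 0 := rfl
    rw [e1]
    exact Submodule.zero_mem _

/-- **Row G4 (OFF).** -/
theorem offE [CharZero L] (hC : Ctx 𝒟 u) (hM : MaxCoreU 𝒟 u t) (B : Blk 𝒟 u t t' W I U d p)
    (i j : Fin n) (hij : d i ≠ d j) {e : V} (he : e ∈ U i ⊓ I) {f : V} (hf : f ∈ U j)
    (a : Fin 3) :
    H983.fam 𝒟 t (Pi.single a (tp 𝒟.q e f)) ∈ WFe 𝒟 t W I u U ∧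
      H983.fam 𝒟 t (Pi.single a (tp 𝒟.q f e)) ∈ WF 𝒟 t W I u := by
  refine ⟨?_, (H120.off_WF hC hM B hij a).2 _ (tp_mem hC.good.form hf he)⟩
  obtain ⟨N, hSt⟩ := H120.exists_setup hC.good B i j
  let F : End L V →ₗ[L] (J → V) × (J → V) := H120.famL 𝒟 t ∘ₗ
    LinearMap.single L (fun _ : Fin 3 => End L V) a
  have h1 : U i ⊓ I ≤ (WFe 𝒟 t W I u U).comap (F ∘ₗ H818.rkL 𝒟.q f) := by
    refine hSt.le_of_tail (H120.hmin_of_blk B i) fun e he => ?_
    obtain ⟨T, M, n0, m, hT, hm, hTm⟩ := he a f hf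
    have h2 := WFe_of_fchain two_ne_zero hC hM B hij hT m hm
    rw [hTm] at h2
    exact h2
  exact h1 he

end Vale.Agent.P182.H96.OE
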