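import Vale.Agent.P182.H96.B7
import Vale.Agent.P182.H922.Crit
import Vale.Agent.P182.H922.N1sq
import Vale.Agent.P182.H887.Perp

/-!
# B7 in the common language
-/

namespace Vale.Agent.P182.H96

open Module Matrix Vale.Agent.P182.H533 Vale.Agent.P182.B1

universe u v w

variable {L : Type u} {V : Type v} {J : Type w} [Field L] [AddCommGroup V] [Module L V]

/-- translation -/
def ofCfg (𝒟 : Cfg L V J) : Cf L V J (Fin 3) := ⟨𝒟.q, 𝒟.F, 𝒟.arm, 𝒟.c, 𝒟.Ω⟩

/-- translation -/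
def toCfg (a : Cf L V J (Fin 3)) : Cfg L V J := ⟨a.q, a.F, a.arm, a.c, a.Ω⟩

theorem pp_eq {q : V →ₗ[L] V →ₗ[L] L} (hq : IsForm q) (A : Submodule L V) :
    pp q A = perp q A := by
  ext v
  rw [mem_pp, mem_perp]
  exact forall₂_congr fun w _ => by rw [hq.symm]

theorem good_ofCfg {𝒟 : Cfg L V J} (h : 𝒟.Good) : (ofCfg 𝒟).Good where
  form := h.form
  skew l k := by
    have h1 := congrFun (congrFun h.skew k) l
    rwa [transpose_apply, Matrix.neg_apply] at h1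
  zero := h.zero
  mono := h.mono
  step := h.step
  isoF s i := by
    show 𝒟.F s i ≤ pp 𝒟.q (𝒟.F s i)
    rw [pp_eq h.form]
    exact h.iso s i

theorem good_toCfg {a : Cf L V J (Fin 3)} (h : a.Good) : (toCfg a).Good where
  form := h.form
  skew := by
    ext l k
    rw [transpose_apply, Matrix.neg_apply]
    exact h.skew k l
  zero := h.zero
  mono := h.mono
  step := h.step
  iso s i := by
    show a.F s i ≤ perp a.q (a.F s i)
    rw [← pp_eq h.form]
    exact h.isoF s i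

theorem versal_ofCfg {𝒟 : Cfg L V J} (h : 𝒟.Versal) : (ofCfg 𝒟).Versal := by
  intro Y hY η hη
  exact h Y hY (Matrix.of η) (by
    ext l k
    rw [transpose_apply, Matrix.neg_apply]
    exact hη k l)

theorem versal_toCfg {a : Cf L V J (Fin 3)} (h : a.Versal) : (toCfg a).Versal := by
  intro Y hY η hη
  refine h Y hY η fun l k => ?_
  have h1 := congrFun (congrFun hη k) l
  rwa [transpose_apply, Matrix.neg_apply] at h1

theorem rich_ofCfg {𝒟 : Cfg L V J} (h : 𝒟.Rich) : (ofCfg 𝒟).Rich := by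
  intro m
  obtain ⟨n, τ, h1, h2, h3⟩ := h m
  exact ⟨n, τ, fun i => ⟨h1 i, h2 i⟩, h3⟩

theorem rich_toCfg {a : Cf L V J (Fin 3)} (h : a.Rich) : (toCfg a).Rich := by
  intro m
  obtain ⟨n, τ, h1, h2⟩ := h m
  exact ⟨n, τ, fun i => (h1 i).1, fun i => (h1 i).2, h2⟩

variable [Fintype J]

theorem K_ofCfg [DecidableEq J] {𝒟 : Cfg L V J} (h : 𝒟.Good) : (ofCfg 𝒟).K = 𝒟.K := by
  ext t
  rw [Cf.mem_K, 𝒟.mem_K]
  refine and_congr_right fun _ => forall_congr' fun l => ?_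
  rw [mem_perp]
  exact forall₂_congr fun w _ => by
    rw [h.form.symm]; rfl

theorem K_toCfg [DecidableEq J] {a : Cf L V J (Fin 3)} (h : a.Good) : (toCfg a).K = a.K :=
  (K_ofCfg (good_toCfg h)).symm

variable [FiniteDimensional L V]

theorem θ_ofCfg {𝒟 : Cfg L V J} (h : 𝒟.Good) (S : Submodule L V) :
    (ofCfg 𝒟).θ S = 𝒟.theta S := by
  rw [Cf.θ, Cfg.theta]
  refine Finset.sum_congr rfl fun l _ => ?_
  show ((finrank L (𝒟.C l ⊓ S : Submodule L V) : ℤ) +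
    finrank L (𝒟.C l ⊓ pp 𝒟.q S : Submodule L V) - finrank L (𝒟.C l)) = _
  rw [pp_eq h.form, Cfg.th]
  show _ = (finrank L (S ⊓ 𝒟.C l : Submodule L V) : ℤ) +
    finrank L (S ⊓ perp 𝒟.q (𝒟.C l) : Submodule L V) - finrank L S
  have h1 := H887.finrank_inf_perp h.form (perp 𝒟.q (𝒟.C l)) S
  rw [H887.perp_perp h.form] at h1
  have h2 := H887.finrank_perp h.form (𝒟.C l)
  rw [inf_comm (𝒟.C l) S, inf_comm (𝒟.C l) (perp 𝒟.q S), h1]
  omega

theorem θ_toCfg {a : Cf L V J (Fin 3)} (h : a.Good) (S : Submodule L V) :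
    (toCfg a).theta S = a.θ S := (θ_ofCfg (good_toCfg h) S).symm

omit [FiniteDimensional L V] in
theorem n1sq_ofCfg [DecidableEq J] (h2 : (2 : L) ≠ 0) {𝒟 : Cfg L V J} (h : 𝒟.Good)
    (hV : 𝒟.Versal) : (ofCfg 𝒟).N1sq := by
  intro g hg h0 h1 h3
  refine H922.n1sq h2 𝒟.arm 𝒟.c h.skew (fun η hη => ?_) (by ext l k; exact hg k l) h0
    (fun l k hlk hc => ?_) (fun s => ?_)
  · obtain ⟨n, _, hn⟩ := hV (fun _ => 0) (fun s u v => by simp) η hη
    exact ⟨n.d, n.leib, hn⟩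
  · have h4 := h1 l k hlk (by
      show 𝒟.F (𝒟.arm l) (𝒟.c l) ≤ 𝒟.F (𝒟.arm k) (𝒟.c k)
      have h5 : 𝒟.arm l = 𝒟.arm k := hlk
      rw [h5]
      exact h.mono _ hc)
    rw [Matrix.mul_apply, ← neg_eq_zero, ← h4, ← Finset.sum_neg_distrib]
    refine Finset.sum_congr rfl fun j _ => ?_
    show -(g l j * 𝒟.Ω j k) = g l j * 𝒟.Ω k j
    have h5 := congrFun (congrFun h.skew k) j
    rw [transpose_apply, Matrix.neg_apply] at h5
    rw [h5, mul_neg, neg_neg]
  · ext i j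
    rw [Matrix.mul_assoc, Matrix.mul_apply, Matrix.zero_apply, ← h3 s i j]
    refine Finset.sum_congr rfl fun l _ => ?_
    rw [Matrix.mul_apply, Finset.mul_sum]
    exact Finset.sum_congr rfl fun k _ => by rw [mul_assoc]; rfl

omit [Fintype J] in
/-- the class is preserved by the reduction -/
theorem pairing_red {𝒟 : Cfg L V J} (h : 𝒟.Good) {σ : J → J} (hP : 𝒟.Pairing σ)
    {R : Submodule L V} (hR : R ≤ pp 𝒟.q R) (D : Rd (ofCfg 𝒟).q R) :
    (toCfg ((ofCfg 𝒟).red D)).Pairing σ where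
  invol := hP.invol
  ne := hP.ne
  same := hP.same
  cross l hl := by
    have h0 := hP.cross l hl
    have hCl : (toCfg ((ofCfg 𝒟).red D)).C l = (𝒟.C l ⊓ pp 𝒟.q R).map D.π := rfl
    rw [hCl, pp_eq h.form]
    -- the kernel of `π` on `R^⊥` is `R`
    have h1 := H887.finrank_map_add D.π (𝒟.C l ⊓ perp 𝒟.q R)
    have h2 : finrank L ↥(𝒟.C l ⊓ perp 𝒟.q R ⊓ LinearMap.ker D.π) ≤
        finrank L ↥(perp 𝒟.q (𝒟.C l) ⊓ R) := by
      refine Submodule.finrank_mono ?_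
      rintro v ⟨⟨h3, h4⟩, h5⟩
      refine ⟨h.iso _ _ h3, ?_⟩
      have h6 := D.π_sub v (by
        show v ∈ pp 𝒟.q R
        rw [pp_eq h.form]; exact h4)
      rw [LinearMap.mem_ker.mp h5] at h6
      simpa using h6
    have h3 := H887.finrank_perp h.form (perp 𝒟.q (𝒟.C l) ⊔ R)
    rw [H887.perp_sup h.form, H887.perp_perp h.form] at h3
    have h4 := Submodule.finrank_sup_add_finrank_inf_eq (perp 𝒟.q (𝒟.C l)) R
    have h5 := H887.finrank_perp h.form (𝒟.C l)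
    have h6 := H887.finrank_perp h.form R
    have h7 := Submodule.finrank_sup_add_finrank_inf_eq D.P R
    have h8 : D.P ⊔ R ≤ perp 𝒟.q R := by
      rw [← pp_eq h.form]
      exact sup_le D.le hR
    have h9 := Submodule.finrank_mono h8
    have h10 : finrank L ↥(D.P ⊓ R) = 0 := by
      rw [Submodule.finrank_eq_zero, eq_bot_iff]
      rintro v ⟨h11, h12⟩
      exact (Submodule.mem_bot L).mpr (D.disj v h11 h12)
    show finrank L ↥D.P ≤ _
    omega
  one := hP.one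

omit [Fintype J] in
theorem finrank_red_lt {𝒟 : Cfg L V J} {R : Submodule L V} (hR0 : R ≠ ⊥)
    (D : Rd 𝒟.q R) : finrank L D.P < finrank L V := by
  apply Submodule.finrank_lt
  intro h1
  apply hR0
  rw [eq_bot_iff]
  intro r hr
  have h2 : r ∈ D.P := by rw [h1]; trivial
  exact (Submodule.mem_bot L).mpr (D.disj r h2 hr)

/-- the inequality for all reductions, from the induction hypothesis -/
theorem tred_ofCfg [DecidableEq J] {𝒟 : Cfg L V J} (h : 𝒟.Good) {σ : J → J} (hP : 𝒟.Pairing σ)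
    (hI : IH.{u, v, w} L J (finrank L V)) : (ofCfg 𝒟).TRed := by
  intro R hR0 hR D hV hRi
  have hg : ((ofCfg 𝒟).red D).Good := (good_ofCfg h).red D
  obtain ⟨S, hS, hT⟩ := hI D.P (toCfg ((ofCfg 𝒟).red D)) (finrank_red_lt hR0 D)
    (good_toCfg hg) (versal_toCfg hV) (rich_toCfg hRi) ⟨σ, pairing_red h hP hR D⟩
  refine ⟨S, ?_, ?_⟩
  · rw [pp_eq hg.form]
    exact hS
  · rw [K_toCfg hg, θ_toCfg hg] at hT
    exact hT

/-- **B7** in the common language. -/
theorem iso_eq_zero [DecidableEq J] [IsAlgClosed L] (h2 : (2 : L) ≠ 0) {𝒟 : Cfg L V J}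
    (h : 𝒟.Good) (hV : 𝒟.Versal) (hRi : 𝒟.Rich) {σ : J → J} (hP : 𝒟.Pairing σ)
    (hs : 𝒟.Semistable) (hI : IH.{u, v, w} L J (finrank L V)) (hK : finrank L 𝒟.K = 2)
    {w : J → V} (hw : w ∈ 𝒟.K) (hww : ∀ l k, 𝒟.q (w l) (w k) = 0) : w = 0 := by
  have hg := good_ofCfg h
  refine hg.B7 h2 (versal_ofCfg hV) (rich_ofCfg hRi) (n1sq_ofCfg h2 h hV) (tred_ofCfg h hP hI)
    (by rw [K_ofCfg h]; exact hK) (fun S hS => ?_) (by rw [K_ofCfg h]; exact hw) hww
  rw [θ_ofCfg h]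
  have h1 := hs S (by rw [Cfg.Iso, ← pp_eq h.form]; exact hS)
  omega

/-- **Block B7.** -/
theorem hypIso (L : Type u) (J : Type w) [Field L] [Fintype J] [DecidableEq J] [IsAlgClosed L]
    (h2 : (2 : L) ≠ 0) : H922.HypIso.{u, v, w} L J := by
  intro V _ _ _ 𝒟 σ hC t ht htt
  exact iso_eq_zero h2 hC.good hC.versal hC.rich hC.pairing hC.semi hC.ih hC.dim ht htt

end Vale.Agent.P182.H96
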