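import Vale.Agent.P182.H533.Conn

/-!
# Type constancy

For a derivation `d` of the field, two chains of subspaces of a vector space are preserved by a
common connection over `d`; orthogonal version: an isotropic chain and an isotropic subspace are
preserved by a common metric connection.
-/

namespace Vale.Agent.P182.H96

open Module Vale.Agent.P182.H533

section gconn

variable {L V : Type*} [Field L] [AddCommGroup V] [Module L V]

/-- connections over `d` -/
def IsConn (d : L →+ L) (δ : V →+ V) : Prop := ∀ (a : L) (v : V), δ (a • v) = d a • v + a • δ v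

/-- `δ` preserves `A` -/
def Pres (δ : V →+ V) (A : Submodule L V) : Prop := ∀ v ∈ A, δ v ∈ A

theorem exists_isConn {d : L →+ L} (hd : ∀ a b, d (a * b) = d a * b + a * d b) :
    ∃ δ : V →+ V, IsConn d δ := by
  let b := Module.Basis.ofVectorSpace L V
  let f : V →+ V :=
    (b.repr.symm.toLinearMap.toAddMonoidHom.comp (Finsupp.mapRange.addMonoidHom d)).comp
      b.repr.toLinearMap.toAddMonoidHom
  refine ⟨f, fun a v => ?_⟩
  show b.repr.symm (Finsupp.mapRange d (map_zero d) (b.repr (a • v))) = d a • v +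
    a • b.repr.symm (Finsupp.mapRange d (map_zero d) (b.repr v))
  apply b.repr.injective
  rw [LinearEquiv.apply_symm_apply, map_add, map_smul, map_smul, map_smul,
    LinearEquiv.apply_symm_apply]
  ext i
  simp only [Finsupp.mapRange_apply, Finsupp.smul_apply, Finsupp.add_apply, smul_eq_mul]
  exact hd _ _

/-- the connection `pδp + (1-p)δ(1-p)` -/
def cj (p : V →ₗ[L] V) (δ : V →+ V) : V →+ V where
  toFun v := p (δ (p v)) + (δ (v - p v) - p (δ (v - p v)))
  map_zero' := by simp
  map_add' u v := by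
    have h : u + v - p (u + v) = (u - p u) + (v - p v) := by rw [map_add]; abel
    rw [h]
    simp only [map_add]
    abel

theorem cj_apply (p : V →ₗ[L] V) (δ : V →+ V) (v : V) :
    cj p δ v = p (δ (p v)) + (δ (v - p v) - p (δ (v - p v))) := rfl

theorem cj_isConn {d : L →+ L} {δ : V →+ V} (hδ : IsConn d δ) {p : V →ₗ[L] V}
    (hp : ∀ v, p (p v) = p v) : IsConn d (cj p δ) := by
  intro a v
  have h : a • v - p (a • v) = a • (v - p v) := by rw [map_smul, smul_sub]
  rw [cj_apply, cj_apply, h, map_smul p, hδ, hδ]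
  simp only [map_add, map_smul, map_sub, hp]
  module

theorem cj_pres {δ : V →+ V} {p : V →ₗ[L] V} {A : Submodule L V} (h1 : Pres δ A)
    (h2 : ∀ v ∈ A, p v ∈ A) : Pres (cj p δ) A := by
  intro v hv
  have h3 := h1 _ (A.sub_mem hv (h2 v hv))
  exact A.add_mem (h2 _ (h1 _ (h2 v hv))) (A.sub_mem h3 (h2 _ h3))

theorem cj_pres_range {δ : V →+ V} {p : V →ₗ[L] V} {W : Submodule L V} (h1 : ∀ v, p v ∈ W)
    (h2 : ∀ v ∈ W, p v = v) : Pres (cj p δ) W := by
  intro v hv
  rw [cj_apply, h2 v hv, sub_self, map_zero, map_zero, sub_self, add_zero]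
  exact h1 _

/-- a projection -/
theorem exists_proj (W : Submodule L V) :
    ∃ p : V →ₗ[L] V, (∀ v, p v ∈ W) ∧ ∀ v ∈ W, p v = v := by
  obtain ⟨f, hf⟩ := W.subtype.exists_leftInverse_of_injective W.ker_subtype
  exact ⟨W.subtype ∘ₗ f, fun v => (f v).2, fun v hv => by
    have := LinearMap.congr_fun hf ⟨v, hv⟩
    exact congrArg Subtype.val this⟩

/-- a projection onto `A` which preserves `W` -/
theorem exists_proj₂ (A W : Submodule L V) :
    ∃ p : V →ₗ[L] V, (∀ v, p v ∈ A) ∧ (∀ v ∈ A, p v = v) ∧ ∀ v ∈ W, p v ∈ W := by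
  obtain ⟨W1, h1, h2⟩ := IsModularLattice.exists_disjoint_and_sup_eq
    (inf_le_right : A ⊓ W ≤ W)
  have hW1 : W1 ≤ W := h2 ▸ le_sup_right
  have h3 : Disjoint W1 A := by
    rw [disjoint_iff, eq_bot_iff]
    rintro x ⟨hx1, hx2⟩
    have := disjoint_iff.mp h1
    rw [← this]
    exact ⟨⟨hx2, hW1 hx1⟩, hx1⟩
  obtain ⟨B, hB, hBA⟩ := h3.exists_isCompl
  refine ⟨A.projection B hBA.symm, fun v => Submodule.projection_apply_mem _ _,
    fun v hv => Submodule.projection_apply_of_mem_left _ hv, fun v hv => ?_⟩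
  rw [← h2] at hv
  obtain ⟨x, hx, y, hy, rfl⟩ := Submodule.mem_sup.mp hv
  rw [map_add, Submodule.projection_apply_of_mem_left _ hx.1,
    Submodule.projection_apply_of_mem_right _ (hB hy), add_zero]
  exact hx.2

/-- a projection onto `A` preserves every comparable subspace -/
theorem proj_pres {p : V →ₗ[L] V} {A B : Submodule L V} (h1 : ∀ v, p v ∈ A)
    (h2 : ∀ v ∈ A, p v = v) (h : A ≤ B ∨ B ≤ A) : ∀ v ∈ B, p v ∈ B := by
  intro v hv
  rcases h with h | h
  · exact h (h1 v)
  · rwa [h2 v (h hv)]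

/-- a projection onto `W` which preserves a chain -/
theorem exists_proj_chain {κ : Type*} (A : κ → Submodule L V) (s : Finset κ)
    (hA : ∀ i ∈ s, ∀ j ∈ s, A i ≤ A j ∨ A j ≤ A i) (W : Submodule L V) :
    ∃ p : V →ₗ[L] V, (∀ v, p v ∈ W) ∧ (∀ v ∈ W, p v = v) ∧ ∀ i ∈ s, ∀ v ∈ A i, p v ∈ A i := by
  classical
  induction s using Finset.induction_on with
  | empty =>
    obtain ⟨p, h1, h2⟩ := exists_proj W
    exact ⟨p, h1, h2, fun i hi => absurd hi (Finset.notMem_empty i)⟩
  | insert a s ha ih =>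
    obtain ⟨p, h1, h2, h3⟩ := ih fun i hi j hj =>
      hA i (Finset.mem_insert_of_mem hi) j (Finset.mem_insert_of_mem hj)
    obtain ⟨f, f1, f2⟩ := exists_proj (A a ⊓ W)
    obtain ⟨e, e1, e2, e3⟩ := exists_proj₂ (A a) W
    have hp' : ∀ v, (f ∘ₗ p ∘ₗ e + p ∘ₗ (LinearMap.id - e) : V →ₗ[L] V) v =
        f (p (e v)) + p (v - e v) := fun v => rfl
    refine ⟨f ∘ₗ p ∘ₗ e + p ∘ₗ (LinearMap.id - e), fun v => ?_, fun v hv => ?_, ?_⟩
    · rw [hp']
      exact W.add_mem (f1 _).2 (h1 _)
    · rw [hp', h2 _ (e3 v hv), f2 _ ⟨e1 v, e3 v hv⟩, h2 _ (W.sub_mem hv (e3 v hv))]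
      abel
    · intro i hi v hv
      rw [hp']
      rcases Finset.mem_insert.mp hi with rfl | hi'
      · rw [e2 v hv, sub_self, map_zero, add_zero]
        exact (f1 _).1
      · have hc := hA a (Finset.mem_insert_self a s) i hi
        have h4 := proj_pres e1 e2 hc v hv
        have h5 := h3 i hi' _ h4
        refine (A i).add_mem ?_ (h3 i hi' _ ((A i).sub_mem hv h4))
        rcases hc with hc | hc
        · exact hc (f1 _).1
        · rw [f2 _ ⟨hc h5, h1 _⟩]
          exact h5

/-- a connection which preserves a chain -/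
theorem exists_conn_chain {d : L →+ L} (hd : ∀ a b, d (a * b) = d a * b + a * d b) {κ : Type*}
    (A : κ → Submodule L V) (s : Finset κ) (hA : ∀ i ∈ s, ∀ j ∈ s, A i ≤ A j ∨ A j ≤ A i) :
    ∃ δ : V →+ V, IsConn d δ ∧ ∀ i ∈ s, Pres δ (A i) := by
  classical
  induction s using Finset.induction_on with
  | empty =>
    obtain ⟨δ, h⟩ := exists_isConn (V := V) hd
    exact ⟨δ, h, fun i hi => absurd hi (Finset.notMem_empty i)⟩
  | insert a s ha ih =>
    obtain ⟨δ, h1, h2⟩ := ih fun i hi j hj =>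
      hA i (Finset.mem_insert_of_mem hi) j (Finset.mem_insert_of_mem hj)
    obtain ⟨p, p1, p2⟩ := exists_proj (A a)
    refine ⟨cj p δ, cj_isConn h1 fun v => p2 _ (p1 v), fun i hi => ?_⟩
    rcases Finset.mem_insert.mp hi with rfl | hi'
    · exact cj_pres_range p1 p2
    · exact cj_pres (h2 i hi')
        (proj_pres p1 p2 (hA a (Finset.mem_insert_self a s) i hi))

/-- a connection which preserves a chain and two nested subspaces -/
theorem exists_conn_chain₂ {d : L →+ L} (hd : ∀ a b, d (a * b) = d a * b + a * d b) {κ : Type*}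
    (A : κ → Submodule L V) (s : Finset κ) (hA : ∀ i ∈ s, ∀ j ∈ s, A i ≤ A j ∨ A j ≤ A i)
    {R R' : Submodule L V} (hR : R ≤ R') :
    ∃ δ : V →+ V, IsConn d δ ∧ (∀ i ∈ s, Pres δ (A i)) ∧ Pres δ R ∧ Pres δ R' := by
  obtain ⟨δ, h1, h2⟩ := exists_conn_chain (V := V) hd A s hA
  obtain ⟨p, p1, p2, p3⟩ := exists_proj_chain A s hA R'
  obtain ⟨r, r1, r2, r3⟩ := exists_proj_chain A s hA R
  refine ⟨cj r (cj p δ), cj_isConn (cj_isConn h1 fun v => p2 _ (p1 v)) fun v => r2 _ (r1 v),
    fun i hi => cj_pres (cj_pres (h2 i hi) (p3 i hi)) (r3 i hi), cj_pres_range r1 r2,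
    cj_pres (cj_pres_range p1 p2) (proj_pres r1 r2 (Or.inl hR))⟩

end gconn

section metric

variable {L V : Type*} [Field L] [AddCommGroup V] [Module L V] [FiniteDimensional L V]
  {q : V →ₗ[L] V →ₗ[L] L}

/-- the orthogonal complement -/
def pp (q : V →ₗ[L] V →ₗ[L] L) (A : Submodule L V) : Submodule L V where
  carrier := {v | ∀ a ∈ A, q a v = 0}
  add_mem' := by
    intro u v hu hv a ha
    rw [map_add, hu a ha, hv a ha, add_zero]
  zero_mem' := fun a _ => map_zero _
  smul_mem' := by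
    intro c v hv a ha
    rw [map_smul, hv a ha, smul_zero]

omit [FiniteDimensional L V] in
theorem mem_pp {A : Submodule L V} {v : V} : v ∈ pp q A ↔ ∀ a ∈ A, q a v = 0 := Iff.rfl

omit [FiniteDimensional L V] in
theorem pp_anti {A B : Submodule L V} (h : A ≤ B) : pp q B ≤ pp q A :=
  fun _ hv a ha => hv a (h ha)

omit [FiniteDimensional L V] in
theorem le_pp_pp (hq : IsForm q) (A : Submodule L V) : A ≤ pp q (pp q A) := by
  intro v hv a ha
  rw [hq.symm]
  exact ha v hv

/-- biduality -/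
theorem pp_pp (hq : IsForm q) (A : Submodule L V) : pp q (pp q A) = A := by
  refine le_antisymm ?_ (le_pp_pp hq A)
  intro v hv
  by_contra hvA
  obtain ⟨f, hf, hf'⟩ := Submodule.exists_le_ker_of_notMem hvA
  have h1 : hq.eqv.symm f ∈ pp q A := by
    intro a ha
    rw [hq.symm, hq.eqv_symm_apply]
    exact hf' ha
  have h2 := hv _ h1
  rw [hq.eqv_symm_apply] at h2
  exact hf h2

/-- the adjoint connection -/
theorem exists_adj (hq : IsForm q) {d : L →+ L} (hd : ∀ a b, d (a * b) = d a * b + a * d b)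
    {δ : V →+ V} (hδ : IsConn d δ) :
    ∃ δ' : V →+ V, IsConn d δ' ∧ ∀ u v, q (δ' u) v + q u (δ v) = d (q u v) := by
  let F : V → Dual L V := fun u =>
    { toFun := fun v => d (q u v) - q u (δ v)
      map_add' := fun v w => by simp only [map_add]; abel
      map_smul' := fun a v => by
        rw [map_smul, smul_eq_mul, hd, hδ, map_add, map_smul, map_smul, RingHom.id_apply]
        simp only [smul_eq_mul]
        ring }
  have hF : ∀ u v, q (hq.eqv.symm (F u)) v = d (q u v) - q u (δ v) :=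
    fun u v => hq.eqv_symm_apply _ _
  refine ⟨{ toFun := fun u => hq.eqv.symm (F u)
            map_zero' := ?_
            map_add' := ?_ }, ?_, ?_⟩
  · apply hq.ext
    intro w
    rw [hF, map_zero, LinearMap.zero_apply, LinearMap.zero_apply, map_zero, sub_zero]
  · intro u v
    apply hq.ext
    intro w
    rw [map_add, LinearMap.add_apply, hF, hF, hF, map_add, LinearMap.add_apply,
      LinearMap.add_apply, map_add]
    abel
  · intro a u
    apply hq.ext
    intro w
    show q (hq.eqv.symm (F (a • u))) w = q (d a • u + a • hq.eqv.symm (F u)) w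
    rw [hF, map_add, LinearMap.add_apply, map_smul, map_smul, map_smul, LinearMap.smul_apply,
      LinearMap.smul_apply, LinearMap.smul_apply, LinearMap.smul_apply, hF]
    simp only [smul_eq_mul]
    rw [hd]
    ring
  · intro u v
    show q (hq.eqv.symm (F u)) v + _ = _
    rw [hF]
    abel

theorem adj_pres (hq : IsForm q) {d : L →+ L} {δ δ' : V →+ V}
    (h : ∀ u v, q (δ' u) v + q u (δ v) = d (q u v)) {A : Submodule L V} (hA : Pres δ (pp q A)) :
    Pres δ' A := by
  intro v hv
  rw [← pp_pp hq A]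
  intro w hw
  have h1 := h v w
  rw [hw v hv, map_zero, hA w hw v hv, add_zero] at h1
  rw [hq.symm, h1]

/-- **Type constancy.** An isotropic chain and an isotropic subspace are preserved by a metric
connection. -/
theorem exists_metric (hq : IsForm q) (h2 : (2 : L) ≠ 0) {d : L →+ L}
    (hd : ∀ a b, d (a * b) = d a * b + a * d b) {κ : Type*} (A : κ → Submodule L V)
    (s : Finset κ) (hA : ∀ i ∈ s, ∀ j ∈ s, A i ≤ A j ∨ A j ≤ A i)
    (hiso : ∀ i ∈ s, A i ≤ pp q (A i)) {R : Submodule L V} (hR : R ≤ pp q R) :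
    ∃ c : Conn q, c.d = d ∧ (∀ i ∈ s, ∀ v ∈ A i, c.δ v ∈ A i) ∧ ∀ v ∈ R, c.δ v ∈ R := by
  classical
  let B : κ ⊕ κ → Submodule L V := Sum.elim A fun i => pp q (A i)
  obtain ⟨δ, h1, h3, h4, h5⟩ := exists_conn_chain₂ (V := V) hd B (s.disjSum s) (by
    have hmix : ∀ i ∈ s, ∀ j ∈ s, A i ≤ pp q (A j) := by
      intro i hi j hj
      rcases hA i hi j hj with h | h
      · exact h.trans (hiso j hj)
      · exact (hiso i hi).trans (pp_anti h)
    rintro (i | i) hi (j | j) hj
    · exact hA i (Finset.inl_mem_disjSum.mp hi) j (Finset.inl_mem_disjSum.mp hj)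
    · exact Or.inl (hmix i (Finset.inl_mem_disjSum.mp hi) j (Finset.inr_mem_disjSum.mp hj))
    · exact Or.inr (hmix j (Finset.inl_mem_disjSum.mp hj) i (Finset.inr_mem_disjSum.mp hi))
    · rcases hA i (Finset.inr_mem_disjSum.mp hi) j (Finset.inr_mem_disjSum.mp hj) with h | h
      · exact Or.inr (pp_anti h)
      · exact Or.inl (pp_anti h)) hR
  obtain ⟨δ', g1, g2⟩ := exists_adj hq hd h1
  have h3l : ∀ i ∈ s, Pres δ (A i) := fun i hi => h3 (Sum.inl i) (Finset.inl_mem_disjSum.mpr hi)
  have h3r : ∀ i ∈ s, Pres δ (pp q (A i)) :=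
    fun i hi => h3 (Sum.inr i) (Finset.inr_mem_disjSum.mpr hi)
  have e2 : ∀ a : L, (2 : L)⁻¹ * (a + a) = a := fun a => by
    rw [← two_mul, ← mul_assoc, inv_mul_cancel₀ h2, one_mul]
  refine ⟨{ d := d
            δ :=
              { toFun := fun v => (2 : L)⁻¹ • (δ v + δ' v)
                map_zero' := by rw [map_zero, map_zero, add_zero, smul_zero]
                map_add' := fun u v => by rw [map_add, map_add, ← smul_add]; congr 1; abel }
            leib := hd
            smul := ?_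
            metric := ?_ }, rfl, ?_, ?_⟩
  · intro a v
    show (2 : L)⁻¹ • (δ (a • v) + δ' (a • v)) = d a • v + a • (2 : L)⁻¹ • (δ v + δ' v)
    rw [h1, g1]
    have h6 : d a • v = (2 : L)⁻¹ • (d a • v + d a • v) := by
      rw [← add_smul, smul_smul, e2]
    conv_rhs => rw [h6]
    module
  · intro u v
    show d (q u v) = q ((2 : L)⁻¹ • (δ u + δ' u)) v + q u ((2 : L)⁻¹ • (δ v + δ' v))
    have h6 := g2 u v
    have h7 := g2 v u
    rw [hq.symm v u, hq.symm (δ' v) u, hq.symm v (δ u)] at h7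
    rw [map_smul, map_smul, LinearMap.smul_apply, map_add, map_add, LinearMap.add_apply,
      smul_eq_mul, smul_eq_mul, ← mul_add]
    have h8 : q (δ u) v + q (δ' u) v + (q u (δ v) + q u (δ' v)) = d (q u v) + d (q u v) := by
      rw [← h6]
      nth_rw 2 [h6]
      rw [← h7]
      abel
    rw [h8, e2]
  · intro i hi v hv
    exact (A i).smul_mem _ ((A i).add_mem (h3l i hi v hv) (adj_pres hq g2 (h3r i hi) v hv))
  · intro v hv
    exact R.smul_mem _ (R.add_mem (h4 v hv) (adj_pres hq g2 h5 v hv))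

end metric

end Vale.Agent.P182.H96
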