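import Vale.Agent.P182.H96.Red

/-!
# Versality of the reduction
-/

namespace Vale.Agent.P182.H96

open Module Matrix Vale.Agent.P182.H533

section redConn

variable {L V J ι : Type*} [Field L] [AddCommGroup V] [Module L V]
  {q : V →ₗ[L] V →ₗ[L] L} {R : Submodule L V} (D : Rd q R)

/-- the induced connection on the reduction -/
def Rd.conn (hq : IsForm q) (c : Conn q) : Conn (q.domRestrict₁₂ D.P D.P) where
  d := c.d
  δ := { toFun := fun v => D.π (c.δ v)
         map_zero' := by rw [Submodule.coe_zero, map_zero, map_zero]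
         map_add' := fun u v => by rw [Submodule.coe_add, map_add, map_add] }
  leib := c.leib
  smul := fun b v => by
    show D.π (c.δ (b • (v : V))) = c.d b • v + b • D.π (c.δ v)
    rw [c.smul, map_add, map_smul, map_smul, D.π_P]
  metric := fun u v => by
    show c.d (q u v) = q (D.π (c.δ u) : V) v + q u (D.π (c.δ v) : V)
    rw [c.metric, D.π_q, hq.symm u (D.π (c.δ v) : V), D.π_q, hq.symm (u : V)]

theorem Rd.conn_π (hq : IsForm q) (c : Conn q) (hc : ∀ r ∈ R, c.δ r ∈ R) {u : V}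
    (hu : u ∈ pp q R) : (D.conn hq c).δ (D.π u) = D.π (c.δ u) := by
  show D.π (c.δ (D.π u : V)) = _
  have h1 : D.π (c.δ (u - D.π u)) = 0 := D.π_R _ (hc _ (D.π_sub u hu))
  rw [map_sub, map_sub, sub_eq_zero] at h1
  exact h1.symm

theorem conn_pp {c : Conn q} (hc : ∀ r ∈ R, c.δ r ∈ R) {u : V}
    (hu : u ∈ pp q R) : c.δ u ∈ pp q R := by
  intro r hr
  have h1 := c.metric r u
  rw [hu r hr, map_zero, hu _ (hc r hr), zero_add] at h1
  exact h1.symm

theorem conn_span {c : Conn q} {x : J → V} (hRx : R = Submodule.span L (Set.range x))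
    (hc : ∀ l, c.δ (x l) ∈ R) : ∀ r ∈ R, c.δ r ∈ R := by
  intro r hr
  have hxR : ∀ l, x l ∈ R := fun l => by rw [hRx]; exact Submodule.subset_span ⟨l, rfl⟩
  rw [hRx] at hr
  induction hr using Submodule.span_induction with
  | mem r hr =>
    obtain ⟨k, rfl⟩ := hr
    exact hc k
  | zero => rw [map_zero]; exact R.zero_mem
  | add u v _ _ hu hv => rw [map_add]; exact R.add_mem hu hv
  | smul b u h hu =>
    rw [c.smul]
    rw [← hRx] at h
    exact R.add_mem (R.smul_mem _ h) (R.smul_mem _ hu)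

end redConn

namespace Cf

section F5

variable {L V J ι : Type*} [Field L] [AddCommGroup V] [Module L V] [Fintype J]
  {a : Cf L V J ι}

theorem Tt_add_left (z z' x : J → V) (A : ι → End L V) :
    a.Tt (z + z') x A = a.Tt z x A + a.Tt z' x A := by
  simp only [Tt, om_add, Pi.add_apply, map_add, LinearMap.add_apply]
  rw [← Finset.sum_add_distrib]
  exact Finset.sum_congr rfl fun l _ => by ring

theorem Tt_smul_left (c : L) (z x : J → V) (A : ι → End L V) :
    a.Tt (c • z) x A = c * a.Tt z x A := by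
  simp only [Tt, om_smul, Pi.smul_apply, map_smul, LinearMap.smul_apply, smul_eq_mul]
  rw [Finset.mul_sum]
  exact Finset.sum_congr rfl fun l _ => by ring

/-- `Tt` as a bilinear map -/
def TtL (a : Cf L V J ι) (x : J → V) : (ι → End L V) →ₗ[L] (J → V) →ₗ[L] L :=
  LinearMap.mk₂ L (fun A z => a.Tt z x A) (fun A B z => a.Tt_add z x A B)
    (fun c A z => a.Tt_smul z x c A) (fun A z z' => Tt_add_left z z' x A)
    (fun c A z => Tt_smul_left c z x A)

theorem TtL_apply (x z : J → V) (A : ι → End L V) : a.TtL x A z = a.Tt z x A := rfl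

variable [DecidableEq J] [DecidableEq ι] [Fintype ι] [FiniteDimensional L V]

omit [DecidableEq J] [DecidableEq ι] [Fintype ι] [FiniteDimensional L V] in
/-- the pairing of the derivative of `x` -/
theorem Good.M_der (h : a.Good) {x v : J → V} (hx : x ∈ a.K) (hv : ∀ l, v l ∈ a.C l)
    {Y : ι → End L V} (hY : ∀ s, IsSk a.q (Y s)) (c : Conn a.q)
    (hc : ∀ s i, ∀ v ∈ a.F s i, c.δ v - Y s v ∈ a.F s i) :
    a.M v (fun l => c.δ (x l) - Y (a.arm l) (x l)) =
      a.Tt v x Y - ∑ l, ∑ k, c.d (a.Ω l k) * a.q (v l) (x k) := by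
  have e0 : a.M v x = 0 := (mem_K'.mp hx).2 v hv
  have e1 : c.d (a.M v x) = ∑ l, ∑ k, c.d (a.Ω l k) * a.q (v l) (x k) +
      (a.M (fun l => c.δ (v l)) x + a.M v (fun l => c.δ (x l))) := by
    rw [M_eq, M_eq, M_eq, map_sum, ← Finset.sum_add_distrib, ← Finset.sum_add_distrib]
    refine Finset.sum_congr rfl fun l _ => ?_
    rw [map_sum, ← Finset.sum_add_distrib, ← Finset.sum_add_distrib]
    refine Finset.sum_congr rfl fun k _ => ?_
    rw [c.leib, c.metric]
    ring
  have e2 : a.M (fun l => c.δ (v l)) x = - ∑ l, a.q (v l) (Y (a.arm l) (om a.Ω x l)) := by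
    have h3 : a.M (fun l => c.δ (v l) - Y (a.arm l) (v l)) x = 0 :=
      (mem_K'.mp hx).2 _ fun l => hc _ _ _ (hv l)
    have h4 : (fun l => c.δ (v l)) =
        (fun l => c.δ (v l) - Y (a.arm l) (v l)) + fun l => Y (a.arm l) (v l) := by
      funext l
      show _ = c.δ (v l) - Y (a.arm l) (v l) + Y (a.arm l) (v l)
      rw [sub_add_cancel]
    rw [h4, map_add, LinearMap.add_apply, h3, zero_add, M_apply, ← Finset.sum_neg_distrib]
    exact Finset.sum_congr rfl fun l _ => hY _ _ _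
  have e3 : a.M v (fun l => c.δ (x l) - Y (a.arm l) (x l)) = a.M v (fun l => c.δ (x l)) +
      ∑ l, a.q (om a.Ω v l) (Y (a.arm l) (x l)) := by
    have h4 : (fun l => c.δ (x l) - Y (a.arm l) (x l)) =
        (fun l => c.δ (x l)) - fun l => Y (a.arm l) (x l) := rfl
    rw [h4, map_sub, h.M_apply' v fun l => Y (a.arm l) (x l)]
    ring
  rw [e0, map_zero, e2] at e1
  rw [e3, Tt, Finset.sum_add_distrib]
  linear_combination -e1

/-- **F5.** -/
theorem Good.F5 (h : a.Good) (h2 : (2 : L) ≠ 0) (hV : a.Versal) (hN : a.N1sq) {x : J → V}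
    (hx : x ∈ a.K) {R : Submodule L V} (hRx : R = Submodule.span L (Set.range x))
    (hR : R ≤ pp a.q R) (D : Rd a.q R) {Y' : ι → End L D.P}
    (hY' : ∀ s, IsSk (a.red D).q (Y' s)) {η : J → J → L} (hη : ∀ l k, η l k = - η k l) :
    ∃ (c : Conn a.q) (Y : ι → End L V),
      (∀ s, ∀ v ∈ pp a.q R, D.π (Y s v) = Y' s (D.π v) ∧ Y s v ∈ pp a.q R) ∧
      (∀ s i, ∀ v ∈ a.F s i, c.δ v - Y s v ∈ a.F s i) ∧ (∀ l k, c.d (a.Ω l k) = η l k) ∧
      ∃ y ∈ a.K, (∀ l, c.δ (x l) - y l ∈ R) ∧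
        ∃ b, a.Eps R b ∧ ∀ l, y l - b (a.arm l) (x l) ∈ R := by
  have hxR : ∀ l, x l ∈ R := fun l => by rw [hRx]; exact Submodule.subset_span ⟨l, rfl⟩
  have hx' := mem_K.mp hx
  let 𝒵 : Submodule L (ι → End L V) :=
    { carrier := {Z | ∀ s, IsSk a.q (Z s) ∧ ∀ v ∈ pp a.q R, Z s v ∈ R}
      add_mem' := by
        intro Z Z' hZ hZ' s
        refine ⟨fun u v => ?_, fun v hv => R.add_mem ((hZ s).2 v hv) ((hZ' s).2 v hv)⟩
        simp only [Pi.add_apply, LinearMap.add_apply, map_add, (hZ s).1 u v, (hZ' s).1 u v]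
        ring
      zero_mem' := fun s => ⟨fun u v => by simp, fun v _ => R.zero_mem⟩
      smul_mem' := by
        intro c Z hZ s
        refine ⟨fun u v => ?_, fun v hv => R.smul_mem c ((hZ s).2 v hv)⟩
        simp only [Pi.smul_apply, LinearMap.smul_apply, map_smul, (hZ s).1 u v, smul_eq_mul]
        ring }
  let Q : Submodule L (J → V) := a.perp (a.E R)
  let Λ : 𝒵 →ₗ[L] Dual L Q :=
    { toFun := fun Z => a.TtL x Z ∘ₗ Q.subtype
      map_add' := fun Z Z' => by ext v; simp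
      map_smul' := fun c Z => by ext v; simp }
  have hΛ : ∀ (Z : 𝒵) (v : Q), Λ Z v = a.Tt v x Z := fun Z v => rfl
  let φ : Dual L Q :=
    { toFun := fun v => ∑ l, ∑ k, η l k * a.q (v.1 l) (x k)
      map_add' := fun u v => by
        simp only [Submodule.coe_add, Pi.add_apply, map_add, LinearMap.add_apply, mul_add,
          Finset.sum_add_distrib]
      map_smul' := fun c v => by
        simp only [Submodule.coe_smul, Pi.smul_apply, map_smul, LinearMap.smul_apply, smul_eq_mul,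
          RingHom.id_apply, Finset.mul_sum]
        exact Finset.sum_congr rfl fun l _ => Finset.sum_congr rfl fun k _ => by ring }
  have hφ : φ ∈ LinearMap.range Λ := by
    rw [← Subspace.dualCoannihilator_dualAnnihilator_eq (W := LinearMap.range Λ),
      Submodule.mem_dualAnnihilator]
    intro v hv
    rw [Submodule.mem_dualCoannihilator] at hv
    have hv1 := mem_perp.mp v.2
    have hZ := h.lemmaZ h2 hV hN hx hxR hR hv1.1 hv1.2
      (tau_eq_zero_of_Tt h hxR hR fun B hB hBR =>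
        hv (Λ ⟨B, fun s => ⟨hB s, hBR s⟩⟩) ⟨_, rfl⟩)
    show ∑ l, ∑ k, η l k * a.q (v.1 l) (x k) = 0
    exact Finset.sum_eq_zero fun l _ => Finset.sum_eq_zero fun k _ => by rw [hZ, mul_zero]
  obtain ⟨Z, hZ⟩ := hφ
  let Y0 : ι → End L V := fun s => D.P.subtype ∘ₗ Y' s ∘ₗ D.π
  have hY0 : ∀ s v, Y0 s v = (Y' s (D.π v) : V) := fun s v => rfl
  let Y : ι → End L V := Y0 + Z.1
  have hYa : ∀ s v, Y s v = (Y' s (D.π v) : V) + Z.1 s v := fun s v => rfl
  have hYsk : ∀ s, IsSk a.q (Y s) := by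
    intro s u v
    have e1 : a.q (Y' s (D.π u) : V) v = - a.q u (Y' s (D.π v) : V) := by
      have e2 : a.q (Y' s (D.π u) : V) (D.π v : V) = - a.q (D.π u : V) (Y' s (D.π v) : V) :=
        hY' s (D.π u) (D.π v)
      have e3 : a.q (Y' s (D.π u) : V) v = a.q (Y' s (D.π u) : V) (D.π v : V) := by
        rw [h.form.symm, h.form.symm _ (D.π v : V), D.π_q]
      rw [e3, e2, D.π_q]
    rw [hYa, hYa, map_add, LinearMap.add_apply, map_add, e1, (Z.2 s).1 u v]
    ring
  obtain ⟨c, hc1, hc2⟩ := hV Y hYsk η hη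
  have hYR : ∀ s, ∀ r ∈ R, Y s r ∈ R := by
    intro s r hr
    rw [hYa, D.π_R r hr, map_zero, Submodule.coe_zero, zero_add]
    exact (Z.2 s).2 r (hR hr)
  let xt : J → V := fun l => c.δ (x l) - Y (a.arm l) (x l)
  have hxt : ∀ l, xt l ∈ a.C l := fun l => hc1 _ _ _ (hx'.1 l)
  have hxt' : xt ∈ a.perp Q := by
    refine mem_perp.mpr ⟨hxt, fun v hv => ?_⟩
    have hv1 := mem_perp.mp hv
    have e1 := h.M_der hx hv1.1 hYsk c hc1
    have e2 : a.Tt v x Y = a.Tt v x Z.1 := by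
      have e3 : a.Tt v x Y0 = 0 := by
        rw [Tt]
        refine Finset.sum_eq_zero fun l _ => ?_
        rw [hY0, hY0, D.π_R _ (hxR l), D.π_R _ (om_mem hxR l), map_zero, Submodule.coe_zero,
          map_zero, map_zero, add_zero]
      show a.Tt v x (Y0 + Z.1) = _
      rw [Tt_add, e3, zero_add]
    have e4 : a.Tt v x Z.1 = ∑ l, ∑ k, η l k * a.q (v l) (x k) := by
      have e5 := LinearMap.congr_fun hZ ⟨v, hv⟩
      exact e5
    simp only [hc2] at e1
    rw [e2, e4, sub_self] at e1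
    exact e1
  have hxt2 : xt ∈ a.E R ⊔ a.K := by
    have e1 := po_po (M := a.M) (E := a.E ⊤) h.M_skew (W := a.E R) (E_le_top R)
    exact e1.le hxt'
  obtain ⟨e, he, y, hy, hey⟩ := Submodule.mem_sup.mp hxt2
  have he' := mem_E.mp he
  have hey' : ∀ l, e l + y l = c.δ (x l) - Y (a.arm l) (x l) := fun l => congrFun hey l
  have hcy : ∀ l, c.δ (x l) - y l ∈ R := by
    intro l
    have e1 : c.δ (x l) - y l = e l + Y (a.arm l) (x l) := by
      have := hey' l
      rw [eq_sub_iff_add_eq] at this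
      rw [← this]
      abel
    rw [e1]
    exact R.add_mem (he' l).2 (hYR _ _ (hxR l))
  refine ⟨c, Y, fun s v hv => ⟨?_, ?_⟩, hc1, hc2, y, hy, hcy, ?_⟩
  · rw [hYa, map_add, D.π_P, D.π_R _ ((Z.2 s).2 v hv), add_zero]
  · rw [hYa]
    exact (pp a.q R).add_mem (D.le (Y' s (D.π v)).2) (hR ((Z.2 s).2 v hv))
  · obtain ⟨cs, h3, h4, h5⟩ := h.exists_cs h2 c hR
    refine ⟨fun s => -(dif c (cs s) (h3 s) + Y s), ⟨fun s u v => ?_, fun s i v hv => ?_,
      fun s s' r hr => ?_⟩, fun l => ?_⟩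
    · have e1 := dif_sk c (cs s) (h3 s) u v
      have e2 := hYsk s u v
      simp only [LinearMap.neg_apply, LinearMap.add_apply, map_neg, map_add]
      rw [e1, e2]
      ring
    · have e1 := (a.F s i).neg_mem ((a.F s i).sub_mem (h4 s i v hv) (hc1 s i v hv))
      rw [LinearMap.neg_apply, LinearMap.add_apply, dif_apply]
      convert e1 using 1
      abel
    · have e1 := R.add_mem (R.sub_mem (h5 s' r hr) (h5 s r hr))
        (R.sub_mem (hYR s' r hr) (hYR s r hr))
      rw [LinearMap.neg_apply, LinearMap.add_apply, dif_apply, LinearMap.neg_apply,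
        LinearMap.add_apply, dif_apply]
      convert e1 using 1
      abel
    · have e1 := R.add_mem (R.add_mem (R.neg_mem (hcy l)) (h5 (a.arm l) _ (hxR l)))
        (hYR (a.arm l) _ (hxR l))
      rw [LinearMap.neg_apply, LinearMap.add_apply, dif_apply]
      convert e1 using 1
      abel

/-- **Versality of the reduction.** -/
theorem Good.versal_red (h : a.Good) (h2 : (2 : L) ≠ 0) (hV : a.Versal) (hN : a.N1sq) {x : J → V}
    (hx : x ∈ a.K) {R : Submodule L V} (hRx : R = Submodule.span L (Set.range x))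
    (hR : R ≤ pp a.q R) (D : Rd a.q R)
    (hmov : ∀ y ∈ a.K, ∀ b, a.Eps R b → (∀ l, y l - b (a.arm l) (x l) ∈ R) →
      ∃ c : Conn a.q, a.IsD0 c ∧ ∀ l, c.δ (x l) - y l ∈ R) : (a.red D).Versal := by
  intro Y' hY' η hη
  obtain ⟨c, Y, hY, hc1, hc2, y, hy, hcy, b, hb, hyb⟩ := h.F5 h2 hV hN hx hRx hR D hY' hη
  obtain ⟨c0, ⟨h3, h4⟩, h5⟩ := hmov y hy b hb hyb
  have hc' : ∀ r ∈ R, (comb c c0 1).δ r ∈ R := by
    apply conn_span hRx
    intro l
    rw [comb_δ, one_smul]
    have := R.sub_mem (hcy l) (h5 l)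
    rwa [sub_sub_sub_cancel_right] at this
  refine ⟨D.conn h.form (comb c c0 1), fun s i v hv => ?_, fun l k => ?_⟩
  · obtain ⟨u, ⟨hu1, hu2⟩, rfl⟩ := hv
    rw [D.conn_π h.form _ hc' hu2, ← (hY s u hu2).1, ← map_sub]
    refine ⟨_, ⟨?_, ?_⟩, rfl⟩
    · show (comb c c0 1).δ u - Y s u ∈ a.F s i
      rw [comb_δ, one_smul]
      have := (a.F s i).sub_mem (hc1 s i u hu1) (h3 s i u hu1)
      convert this using 1
      abel
    · exact (pp a.q R).sub_mem (conn_pp hc' hu2) (hY s u hu2).2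
  · show (comb c c0 1).d (a.Ω l k) = η l k
    rw [comb_d, hc2, h4, mul_zero, sub_zero]

omit [Fintype J] [DecidableEq J] [DecidableEq ι] [Fintype ι] [FiniteDimensional L V] in
theorem Good.isD0_red (h : a.Good) {R : Submodule L V} (D : Rd a.q R) {c : Conn a.q}
    (hc : a.IsD0 c) (hcR : ∀ r ∈ R, c.δ r ∈ R) : (a.red D).IsD0 (D.conn h.form c) := by
  refine ⟨fun s i v hv => ?_, fun l k => hc.2 l k⟩
  obtain ⟨u, ⟨hu1, hu2⟩, rfl⟩ := hv
  rw [D.conn_π h.form _ hcR hu2]
  exact ⟨_, ⟨hc.1 s i u hu1, conn_pp hcR hu2⟩, rfl⟩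

end F5

end Cf

end Vale.Agent.P182.H96
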