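import Vale.Agent.P182.H533.Core

/-!
# The radical is generated by the images of `S_a ^ p_a`

`U = ∑ S_a U`, `π : U → E` onto a null triple, the words are nilpotent on the kernel of `π`. Then
the kernel of `π` is the smallest submodule which is stable under the `S_a` and contains all
`S_a ^ p_a u`, `u` in `U`.
-/

namespace Vale.Agent.P182.H96.Tl

open Module Vale.Agent.P182.H533

section dual

variable {L E : Type*} [Field L] [AddCommGroup E] [Module L E] [FiniteDimensional L E]

/-- null triples, exactness form -/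
structure NulE (s : Fin 3 → End L E) (p : Fin 3 → ℕ) : Prop where
  sum : ∑ a, s a = 0
  pow : ∀ a, s a ^ p a = 0
  pos : ∀ a, 1 ≤ p a
  exact : ∀ a, LinearMap.ker (s a) ≤ LinearMap.range (s a ^ (p a - 1))
  count : ∑ a, finrank L (LinearMap.ker (s a)) = finrank L E
  span : ⨆ a, LinearMap.range (s a) = ⊤
  inf : ⨅ a, LinearMap.ker (s a) = ⊥

section abs

variable {F : Type*} [AddCommGroup F] [Module L F] [FiniteDimensional L F]

/-- the sum map -/
def sm (τ : Fin 3 → End L F) :
    (LinearMap.range (τ 0) × LinearMap.range (τ 1) × LinearMap.range (τ 2)) →ₗ[L] F where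
  toFun f := (f.1 : F) + f.2.1 + f.2.2
  map_add' f g := by
    simp only [Prod.fst_add, Prod.snd_add, Submodule.coe_add]
    abel
  map_smul' c f := by
    simp only [Prod.smul_fst, Prod.smul_snd, Submodule.coe_smul, smul_add, RingHom.id_apply]

omit [FiniteDimensional L F] in
theorem sm_apply (τ : Fin 3 → End L F)
    (f : LinearMap.range (τ 0) × LinearMap.range (τ 1) × LinearMap.range (τ 2)) :
    sm τ f = (f.1 : F) + f.2.1 + f.2.2 := rfl

/-- the diagonal map -/
def dm (τ : Fin 3 → End L F) :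
    F →ₗ[L] (LinearMap.range (τ 0) × LinearMap.range (τ 1) × LinearMap.range (τ 2)) where
  toFun ψ := (⟨τ 0 ψ, ψ, rfl⟩, ⟨τ 1 ψ, ψ, rfl⟩, ⟨τ 2 ψ, ψ, rfl⟩)
  map_add' x y := by
    refine Prod.ext ?_ (Prod.ext ?_ ?_) <;> apply Subtype.ext <;> exact map_add _ _ _
  map_smul' c x := by
    refine Prod.ext ?_ (Prod.ext ?_ ?_) <;> apply Subtype.ext <;> exact map_smul _ _ _

theorem exists_abs {τ : Fin 3 → End L F} (h0 : ∀ x, τ 0 x + τ 1 x + τ 2 x = 0)
    (h1 : (⊤ : Submodule L F) ≤ ⨆ a, LinearMap.range (τ a)) (h2 : ∀ x, (∀ a, τ a x = 0) → x = 0)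
    (h3 : finrank L (LinearMap.range (τ 0)) + finrank L (LinearMap.range (τ 1)) +
      finrank L (LinearMap.range (τ 2)) = 2 * finrank L F) {φ : Fin 3 → F}
    (hφ : ∀ a, φ a ∈ LinearMap.range (τ a)) (hs : φ 0 + φ 1 + φ 2 = 0) :
    ∃ ψ, ∀ a, φ a = τ a ψ := by
  have hle : LinearMap.range (dm τ) ≤ LinearMap.ker (sm τ) := by
    rintro _ ⟨ψ, rfl⟩
    rw [LinearMap.mem_ker, sm_apply]
    exact h0 ψ
  have hsurj : LinearMap.range (sm τ) = ⊤ := by
    rw [eq_top_iff]
    refine h1.trans (iSup_le fun a => ?_)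
    intro x hx
    fin_cases a
    · exact ⟨(⟨x, hx⟩, 0, 0), by simp [sm_apply]⟩
    · exact ⟨(0, ⟨x, hx⟩, 0), by simp [sm_apply]⟩
    · exact ⟨(0, 0, ⟨x, hx⟩), by simp [sm_apply]⟩
  have hinj : LinearMap.ker (dm τ) = ⊥ := by
    rw [LinearMap.ker_eq_bot']
    intro ψ hψ
    apply h2
    intro a
    have e0 := congrArg (fun x => (x.1 : F)) hψ
    have e1 := congrArg (fun x => (x.2.1 : F)) hψ
    have e2 := congrArg (fun x => (x.2.2 : F)) hψ
    fin_cases a
    · exact e0
    · exact e1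
    · exact e2
  have heq : LinearMap.range (dm τ) = LinearMap.ker (sm τ) := by
    apply Submodule.eq_of_le_of_finrank_eq hle
    have h1 := LinearMap.finrank_range_add_finrank_ker (dm τ)
    have h2 := LinearMap.finrank_range_add_finrank_ker (sm τ)
    rw [hinj, finrank_bot, add_zero] at h1
    rw [hsurj, finrank_top, Module.finrank_prod, Module.finrank_prod] at h2
    omega
  have hmem : (⟨φ 0, hφ 0⟩, ⟨φ 1, hφ 1⟩, ⟨φ 2, hφ 2⟩) ∈ LinearMap.ker (sm τ) := by
    rw [LinearMap.mem_ker, sm_apply]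
    exact hs
  rw [← heq] at hmem
  obtain ⟨ψ, hψ⟩ := hmem
  refine ⟨ψ, fun a => ?_⟩
  have e0 := congrArg (fun x => (x.1 : F)) hψ
  have e1 := congrArg (fun x => (x.2.1 : F)) hψ
  have e2 := congrArg (fun x => (x.2.2 : F)) hψ
  fin_cases a
  · exact e0.symm
  · exact e1.symm
  · exact e2.symm

end abs

theorem exists_psi {s : Fin 3 → End L E} {p : Fin 3 → ℕ} (h : NulE s p)
    {φ : Fin 3 → Dual L E}
    (hk : ∀ a, ∀ v, s a v = 0 → φ a v = 0) (h0 : ∀ v, ∑ a, φ a v = 0) :
    ∃ ψ : Dual L E, ∀ a v, φ a v = ψ (s a v) := by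
  have hsum : ∀ v, s 0 v + s 1 v + s 2 v = 0 := fun v => by
    have := LinearMap.congr_fun h.sum v
    rw [LinearMap.sum_apply, Fin.sum_univ_three] at this
    exact this
  have hR : ∀ a, finrank L (LinearMap.range (s a).dualMap) +
      finrank L (LinearMap.ker (s a)) = finrank L E := fun a => by
    rw [LinearMap.finrank_range_dualMap_eq_finrank_range]
    exact LinearMap.finrank_range_add_finrank_ker (s a)
  obtain ⟨ψ, hψ⟩ := exists_abs (L := L) (F := Dual L E) (τ := fun a => (s a).dualMap) (φ := φ)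
    (fun x => by
      refine LinearMap.ext fun v => ?_
      show x (s 0 v) + x (s 1 v) + x (s 2 v) = 0
      rw [← map_add, ← map_add, hsum, map_zero])
    (by
      have h2 : (⨅ a, LinearMap.ker (s a)).dualAnnihilator =
          ⨆ a, (LinearMap.ker (s a)).dualAnnihilator := Subspace.dualAnnihilator_iInf_eq _
      rw [h.inf, Submodule.dualAnnihilator_bot] at h2
      rw [h2]
      exact iSup_mono fun a => (LinearMap.range_dualMap_eq_dualAnnihilator_ker _).ge)
    (fun x hx => by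
      have h2 : (⊤ : Submodule L E) ≤ LinearMap.ker x := by
        rw [← h.span]
        refine iSup_le fun a => ?_
        rintro _ ⟨v, rfl⟩
        exact LinearMap.congr_fun (hx a) v
      exact LinearMap.ext fun v => h2 trivial)
    (by
      have h3 := h.count
      rw [Fin.sum_univ_three] at h3
      have h4 : finrank L (Dual L E) = finrank L E := Subspace.dual_finrank_eq
      have := hR 0
      have := hR 1
      have := hR 2
      omega)
    (fun a => by
      rw [LinearMap.range_dualMap_eq_dualAnnihilator_ker, Submodule.mem_dualAnnihilator]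
      intro v hv
      exact hk a v (LinearMap.mem_ker.1 hv))
    (by
      refine LinearMap.ext fun v => ?_
      have := h0 v
      rw [Fin.sum_univ_three] at this
      exact this)
  exact ⟨ψ, fun a v => by rw [hψ a]; rfl⟩

end dual

section gen

variable {L V E : Type*} [Field L] [AddCommGroup V] [Module L V]
  [AddCommGroup E] [Module L E] [FiniteDimensional L E]

/-- the iterated images of a submodule -/
def itI (S : Fin 3 → End L V) (I : Submodule L V) : ℕ → Submodule L V
  | 0 => I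
  | n + 1 => ⨆ a, (itI S I n).map (S a)

theorem itI_le {S : Fin 3 → End L V} {I : Submodule L V} (hI : ∀ a, ∀ v ∈ I, S a v ∈ I) (n : ℕ) :
    itI S I n ≤ I := by
  induction n with
  | zero => exact le_rfl
  | succ n ih =>
    refine iSup_le fun a => ?_
    rintro _ ⟨v, hv, rfl⟩
    exact hI a v (ih hv)

/-- **The radical is generated by the images of the powers.** -/
theorem gen {S : Fin 3 → End L V} (hs : ∑ a, S a = 0) {U : Submodule L V}
    (hU : U ≤ ⨆ a, U.map (S a)) (hUS : ∀ a, ∀ u ∈ U, S a u ∈ U) {s : Fin 3 → End L E}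
    {p : Fin 3 → ℕ} (hE : NulE s p) {π : V →ₗ[L] E} (hπ : ∀ a, ∀ u ∈ U, π (S a u) = s a (π u))
    (hsurj : ∀ e, ∃ u ∈ U, π u = e) {N : ℕ} (hN : itI S (U ⊓ LinearMap.ker π) N = ⊥)
    {X : Submodule L V} (hX : ∀ a, ∀ v ∈ X, S a v ∈ X) (hp : ∀ a, ∀ u ∈ U, (S a ^ p a) u ∈ X) :
    U ⊓ LinearMap.ker π ≤ X := by
  set I := U ⊓ LinearMap.ker π with hIdef
  have hIS : ∀ a, ∀ v ∈ I, S a v ∈ I := fun a v hv => by
    refine ⟨hUS a v hv.1, ?_⟩
    show π (S a v) = 0
    rw [hπ a v hv.1, LinearMap.mem_ker.1 hv.2, map_zero]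
  by_contra hcon
  -- a functional
  set M := (X ⊓ I) ⊔ itI S I 1 with hM
  have hIM : ¬ I ≤ M := by
    intro h
    have key : ∀ n, I ≤ (X ⊓ I) ⊔ itI S I n := by
      intro n
      induction n with
      | zero => exact le_sup_right
      | succ n ih =>
        refine h.trans (sup_le le_sup_left ?_)
        show (⨆ a, I.map (S a)) ≤ _
        refine iSup_le fun a => ?_
        rintro _ ⟨v, hv, rfl⟩
        obtain ⟨x, hx, y, hy, rfl⟩ := Submodule.mem_sup.1 (ih hv)
        rw [map_add]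
        refine add_mem (Submodule.mem_sup_left ⟨hX a x hx.1, hIS a x hx.2⟩)
          (Submodule.mem_sup_right ?_)
        exact Submodule.mem_iSup_of_mem a ⟨y, hy, rfl⟩
    have h1 := key N
    rw [hN, sup_bot_eq] at h1
    exact hcon (h1.trans inf_le_left)
  obtain ⟨x, hxI, hxM⟩ := Set.not_subset.1 hIM
  obtain ⟨f, hfx, hfM⟩ := Submodule.exists_le_ker_of_notMem hxM
  have hfI : ∀ a, ∀ v ∈ I, f (S a v) = 0 := fun a v hv => by
    have : S a v ∈ M := Submodule.mem_sup_right (Submodule.mem_iSup_of_mem a ⟨v, hv, rfl⟩)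
    exact hfM this
  have hfX : ∀ v ∈ X, v ∈ I → f v = 0 := fun v h1 h2 => hfM (Submodule.mem_sup_left ⟨h1, h2⟩)
  -- a section
  obtain ⟨g, hg⟩ : ∃ g : E →ₗ[L] U, ∀ e, π (g e) = e := by
    have h1 : Function.Surjective (π ∘ₗ U.subtype) := by
      intro e
      obtain ⟨u, hu, he⟩ := hsurj e
      exact ⟨⟨u, hu⟩, he⟩
    obtain ⟨g, hg⟩ := (π ∘ₗ U.subtype).exists_rightInverse_of_surjective
      (LinearMap.range_eq_top.2 h1)
    exact ⟨g, fun e => LinearMap.congr_fun hg e⟩
  let φ : Fin 3 → Dual L E := fun a => (f ∘ₗ S a) ∘ₗ (U.subtype ∘ₗ g)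
  have hφ : ∀ a, ∀ u ∈ U, f (S a u) = φ a (π u) := by
    intro a u hu
    have h1 : u - g (π u) ∈ I := by
      refine ⟨sub_mem hu (g (π u)).2, ?_⟩
      show π (u - g (π u)) = 0
      rw [map_sub, hg, sub_self]
    have h2 := hfI a _ h1
    rw [map_sub, map_sub, sub_eq_zero] at h2
    exact h2
  have powπ : ∀ a, ∀ n : ℕ, ∀ u ∈ U, (S a ^ n) u ∈ U ∧ π ((S a ^ n) u) = (s a ^ n) (π u) := by
    intro a n
    induction n with
    | zero => intro u hu; exact ⟨hu, rfl⟩
    | succ n ih =>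
      intro u hu
      obtain ⟨h1, h2⟩ := ih u hu
      rw [pow_succ', pow_succ', Module.End.mul_apply, Module.End.mul_apply]
      exact ⟨hUS a _ h1, by rw [hπ a _ h1, h2]⟩
  obtain ⟨ψ, hψ⟩ := exists_psi hE (φ := φ) (fun a v hv => by
    obtain ⟨e, rfl⟩ := hE.exact a (LinearMap.mem_ker.2 hv)
    have h1 := powπ a (p a - 1) (g e) (g e).2
    rw [hg] at h1
    rw [← h1.2, ← hφ a _ h1.1]
    have h3 : S a ((S a ^ (p a - 1)) (g e)) = (S a ^ p a) (g e) := by
      rw [← Module.End.mul_apply, ← pow_succ', Nat.sub_add_cancel (hE.pos a)]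
    have h4 := powπ a (p a) (g e) (g e).2
    rw [h3]
    refine hfX _ (hp a _ (g e).2) ⟨h4.1, ?_⟩
    show π ((S a ^ p a) (g e)) = 0
    rw [h4.2, hE.pow, LinearMap.zero_apply]) (fun v => by
    show ∑ a, f (S a (g v)) = 0
    rw [← map_sum, ← LinearMap.sum_apply, hs, LinearMap.zero_apply, map_zero])
  have hF : U ≤ LinearMap.ker (f - ψ ∘ₗ π) := by
    refine hU.trans (iSup_le fun a => ?_)
    rintro _ ⟨u, hu, rfl⟩
    rw [LinearMap.mem_ker, LinearMap.sub_apply, hφ a u hu, hψ, LinearMap.comp_apply, hπ a u hu,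
      sub_self]
  have h1 := hF hxI.1
  rw [LinearMap.mem_ker, LinearMap.sub_apply, LinearMap.comp_apply, LinearMap.mem_ker.1 hxI.2,
    map_zero, sub_zero] at h1
  exact hfx h1

end gen

end Vale.Agent.P182.H96.Tl
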