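import Vale.Agent.P182.H96.End
import Mathlib.LinearAlgebra.Eigenspace.Triangularizable

/-!
# B7: two-dimensional kernels contain no isotropic element
-/

namespace Vale.Agent.P182.H96

open Module Matrix Vale.Agent.P182.H533

namespace Cf

section b7

variable {L V J ι : Type*} [Field L] [AddCommGroup V] [Module L V] [Fintype J]
  {a : Cf L V J ι} [DecidableEq J] [DecidableEq ι] [Fintype ι] [FiniteDimensional L V]

/-- **(5b).** -/
theorem Good.five_b (h : a.Good) (h2 : (2 : L) ≠ 0) (hV : a.Versal) (hN : a.N1sq)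
    (hH : ∀ x ∈ a.K, ∀ y ∈ a.K, ∀ l k, a.q (x l) (y k) = 0) {x : J → V} (hx : x ∈ a.K)
    {R S : Submodule L V} (hRx : R = Submodule.span L (Set.range x)) (hRS : R ≤ S)
    (hS : S ≤ pp a.q S) (hKS : a.K ≤ a.E S)
    (h5 : a.E (pp a.q R) ⊓ a.perp (a.E (pp a.q R)) ≤ a.E S)
    (h6 : a.perp (a.E (pp a.q S)) = a.E S ⊔ a.perp (a.E (pp a.q R))) {v : J → V}
    (hv : v ∈ a.perp (a.E (pp a.q a.UU))) :
    ∃ c : Conn a.q, a.IsX c ∧ ∀ l, ∀ u ∈ a.UU, a.q (v l) u = a.q (c.δ (x l)) u := by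
  have hU := U_iso hH
  have hxR : ∀ l, x l ∈ R := fun l => by rw [hRx]; exact Submodule.subset_span ⟨l, rfl⟩
  have hR : R ≤ pp a.q R := hRS.trans (hS.trans (pp_anti hRS))
  have hUS : a.UU ≤ S := fun u hu =>
    UU_induction (a := a) (p := fun u => u ∈ S) S.zero_mem (fun _ _ => S.add_mem)
      (fun _ _ => S.smul_mem _) (fun t ht l => (mem_E.mp (hKS ht) l).2) u hu
  set A := a.E (pp a.q a.UU) with hA
  set Q := a.perp A with hQ
  have hAE : A ≤ a.E ⊤ := E_le_top _
  have hKA : a.K ≤ A := fun t ht => mem_E.mpr fun l => ⟨(mem_K'.mp ht).1 l, hU (mem_UU ht l)⟩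
  let W : Submodule L (J → V) :=
    { carrier := {v | v ∈ Q ∧ ∃ c : Conn a.q, a.IsX c ∧
        ∀ l, ∀ u ∈ a.UU, a.q (v l) u = a.q (c.δ (x l)) u}
      add_mem' := by
        rintro v w ⟨hv, c, hc, hvc⟩ ⟨hw, c', hc', hwc⟩
        refine ⟨Q.add_mem hv hw, comb c c' (-1), hc.comb hc' _, fun l u hu => ?_⟩
        rw [Pi.add_apply, map_add, LinearMap.add_apply, hvc l u hu, hwc l u hu, comb_δ, map_sub,
          map_smul, LinearMap.sub_apply, LinearMap.smul_apply, smul_eq_mul]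
        ring
      zero_mem' := ⟨Q.zero_mem, zeroConn a.q, fun s i _ _ => (a.F s i).zero_mem, fun l u _ => rfl⟩
      smul_mem' := by
        rintro b v ⟨hv, c, hc, hvc⟩
        refine ⟨Q.smul_mem b hv, comb (zeroConn a.q) c (-b),
          IsX.comb (fun s i _ _ => (a.F s i).zero_mem) hc _, fun l u hu => ?_⟩
        have e1 : (zeroConn a.q).δ (x l) = 0 := rfl
        rw [Pi.smul_apply, map_smul, LinearMap.smul_apply, hvc l u hu, comb_δ, e1, zero_sub,
          map_neg, map_smul, LinearMap.neg_apply, LinearMap.smul_apply, smul_eq_mul, smul_eq_mul]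
        ring }
  have hWQ : W ≤ Q := fun v hv => hv.1
  have hQ0 : Q ⊓ A ≤ W := by
    rintro v ⟨h3, h4⟩
    refine ⟨h3, zeroConn a.q, fun s i _ _ => (a.F s i).zero_mem, fun l u hu => ?_⟩
    have e1 : (zeroConn a.q).δ (x l) = 0 := rfl
    rw [e1, map_zero, LinearMap.zero_apply, h.form.symm]
    exact (mem_E.mp h4 l).2 u hu
  have hKQ : a.K ≤ Q := K_le_perp _ hAE
  have hKW : a.K ≤ W := (le_inf hKQ hKA).trans hQ0
  have hQE : Q ≤ a.E ⊤ := po_le _
  have hWE : W ≤ a.E ⊤ := hWQ.trans hQE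
  have hWW : a.perp (a.perp W) = W := by
    have := po_po (M := a.M) (E := a.E ⊤) h.M_skew hWE
    rw [perp, perp, this]
    exact sup_eq_left.mpr hKW
  have hQQ : a.perp Q = A := by
    have := po_po (M := a.M) (E := a.E ⊤) h.M_skew hAE
    rw [hQ, perp, perp, this]
    exact sup_eq_left.mpr hKA
  have hperpQ0 : a.perp (Q ⊓ A) = A ⊔ Q := by
    have e1 : Q ⊓ A = a.perp (A ⊔ Q) := by
      have e3 : a.perp (A ⊔ Q) = a.perp A ⊓ a.perp Q := po_sup _ _
      rw [e3, hQQ]
    have e2 := po_po (M := a.M) (E := a.E ⊤) h.M_skew (sup_le hAE hQE)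
    have e4 : a.perp (a.perp (A ⊔ Q)) = A ⊔ Q ⊔ a.K := e2
    rw [e1, e4]
    exact sup_eq_left.mpr (hKA.trans le_sup_left)
  have hmain : a.perp W ≤ A := by
    intro z hz
    have hz1 : z ∈ A ⊔ Q := by
      rw [← hperpQ0]
      exact po_anti hQ0 hz
    obtain ⟨e, he, z', hz', rfl⟩ := Submodule.mem_sup.mp hz1
    refine A.add_mem he ?_
    -- `z'` is orthogonal to `W`
    have hz'W : ∀ w ∈ W, a.M w z' = 0 := by
      intro w hw
      have e1 := (mem_perp.mp hz).2 w hw
      have e2 : a.M w e = 0 := by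
        rw [h.M_skew, (mem_perp.mp (hWQ hw)).2 e he, neg_zero]
      rwa [map_add, e2, zero_add] at e1
    have hz'C := (mem_perp.mp hz').1
    have hsym : ∀ l k, a.q (z' l) (x k) = a.q (z' k) (x l) := by
      apply sym_of_skew (g := fun l k => a.q (z' l) (x k))
      intro η hη
      obtain ⟨c, hc1, hc2⟩ := hV (fun _ => 0) (fun s u v => by simp) η hη
      have hc : a.IsX c := fun s i v hv => by simpa using hc1 s i v hv
      have e1 := h.M_derX hc hx hz'C
      have e2 := hz'W (fun l => c.δ (x l)) ⟨h.der_perp hc hx, c, hc, fun l u _ => rfl⟩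
      rw [h.M_skew, e2, neg_zero] at e1
      rw [← neg_eq_zero, e1]
      simp only [hc2]
    have hskew : ∀ l k, a.q (z' l) (x k) = - a.q (z' k) (x l) := by
      have e1 : z' ∈ a.E S ⊔ a.perp (a.E (pp a.q R)) := by
        rw [← h6]
        exact po_anti (E_mono (pp_anti hUS)) hz'
      obtain ⟨p, hp, r, hr, rfl⟩ := Submodule.mem_sup.mp e1
      intro l k
      have e2 : ∀ l k, a.q (p l) (x k) = 0 := fun l k => hS (hRS (hxR k)) _ (mem_E.mp hp l).2
      rw [Pi.add_apply, Pi.add_apply, map_add, map_add, LinearMap.add_apply, LinearMap.add_apply,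
        e2, e2, zero_add, zero_add]
      exact h.F4' h2 hV hN hx hRx hR hr l k
    have hzero : ∀ l k, a.q (z' l) (x k) = 0 := by
      intro l k
      have e1 := hsym l k
      rw [hskew k l] at e1
      have e2 : (2 : L) * a.q (z' l) (x k) = 0 := by linear_combination e1
      exact (mul_eq_zero.mp e2).resolve_left h2
    have hz'R : z' ∈ a.E (pp a.q R) := by
      refine mem_E.mpr fun l => ⟨hz'C l, fun r hr => ?_⟩
      rw [hRx] at hr
      induction hr using Submodule.span_induction with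
      | mem r hr =>
        obtain ⟨k, rfl⟩ := hr
        rw [h.form.symm]
        exact hzero l k
      | zero => rw [map_zero, LinearMap.zero_apply]
      | add u w _ _ hu hw => rw [map_add, LinearMap.add_apply, hu, hw, add_zero]
      | smul c u _ hu => rw [map_smul, LinearMap.smul_apply, hu, smul_zero]
    exact E_mono (hS.trans (pp_anti hUS)) (star hRS hS hKS h5 h6 hz'R hz')
  have hQW : Q ≤ W := by
    rw [← hWW]
    have e1 : a.perp (a.perp Q) = Q ⊔ a.K := po_po h.M_skew hQE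
    have e2 : a.perp A ≤ a.perp (a.perp W) := po_anti hmain
    exact e2
  exact (hQW hv).2

/-- **B7.** In a configuration with two-dimensional kernel and `θ < 2` there is no isotropic
element of the kernel except zero. -/
theorem Good.B7 [IsAlgClosed L] (h : a.Good) (h2 : (2 : L) ≠ 0) (hV : a.Versal) (hRi : a.Rich)
    (hN : a.N1sq) (hT : a.TRed) (hK : finrank L a.K = 2)
    (hθ : ∀ S : Submodule L V, S ≤ pp a.q S → a.θ S < 2) {w : J → V} (hw : w ∈ a.K)
    (hww : ∀ l k, a.q (w l) (w k) = 0) : w = 0 := by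
  by_contra hw0
  have hH : ∀ x ∈ a.K, ∀ y ∈ a.K, ∀ l k, a.q (x l) (y k) = 0 := fun x hx y hy l k =>
    h.all_iso h2 hV hRi hN hT hK hw hw0 hww hx hy l k
  have hU := U_iso hH
  obtain ⟨x, hx, c0, hc0, hc0x⟩ := exists_movable hRi hK
  have hx0 : x ≠ 0 := by
    rintro rfl
    apply hc0x 0
    funext l
    simp
  set R := Submodule.span L (Set.range x) with hRx
  have hxR : ∀ l, x l ∈ R := fun l => Submodule.subset_span ⟨l, rfl⟩
  obtain ⟨S, h3, h4, h5, h6, h7⟩ := h.exists_g h2 hV hRi hN hT hK hx hx0 (hH x hx x hx) hRx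
    (fun y hy _ _ _ => hmov_of_movable hK hx hx0 (fun c hc => h.D0_K hc hx) hc0 hc0x hxR y hy)
  have hUS : a.UU ≤ S := fun u hu =>
    UU_induction (a := a) (p := fun u => u ∈ S) S.zero_mem (fun _ _ => S.add_mem)
      (fun _ _ => S.smul_mem _) (fun t ht l => (mem_E.mp (h5 ht) l).2) u hu
  have hRU : R ≤ a.UU := by
    rw [hRx, Submodule.span_le]
    rintro _ ⟨k, rfl⟩
    exact mem_UU hx k
  let y : J → V := fun l => c0.δ (x l)
  have hy : y ∈ a.K := h.D0_K hc0 hx
  have hyx : ∀ μ : L, y ≠ μ • x := hc0x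
  have hcoord := exists_coord hK hx hy hx0 hyx
  let g : Fin 2 → J → V := ![x, y]
  have hgK : ∀ i, g i ∈ a.K := fun i => by
    fin_cases i
    · exact hx
    · exact hy
  have hgU : ∀ i k, g i k ∈ a.UU := fun i k => mem_UU (hgK i) k
  have hgen : ∀ v : V, (∀ i k, a.q v (g i k) = 0) → ∀ u ∈ a.UU, a.q v u = 0 := by
    intro v hv
    refine UU_induction (a := a) (p := fun u => a.q v u = 0) (map_zero _)
      (fun _ _ h3 h4 => by rw [map_add, h3, h4, add_zero])
      (fun _ _ h3 => by rw [map_smul, h3, smul_zero]) ?_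
    intro t ht k
    obtain ⟨α, β, rfl⟩ := hcoord t ht
    have e1 : a.q v (x k) = 0 := hv 0 k
    have e2 : a.q v (y k) = 0 := hv 1 k
    rw [Pi.add_apply, Pi.smul_apply, Pi.smul_apply, map_add, map_smul, map_smul, e1, e2,
      smul_zero, smul_zero, add_zero]
  -- the space of the forms `c`, as pairs of evaluations
  let 𝒞 : Submodule L ((Fin 2 → J → J → L) × (Fin 2 → J → J → L)) :=
    { carrier := {p | ∃ c : Conn a.q, a.IsX c ∧
        (∀ i l k, p.1 i l k = a.q (c.δ (x l)) (g i k)) ∧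
        ∀ i l k, p.2 i l k = a.q (c.δ (y l)) (g i k)}
      add_mem' := by
        rintro p p' ⟨c, hc, hp, hp2⟩ ⟨c', hc', hp', hp2'⟩
        refine ⟨comb c c' (-1), hc.comb hc' _, fun i l k => ?_, fun i l k => ?_⟩
        · rw [Prod.fst_add, Pi.add_apply, Pi.add_apply, Pi.add_apply, hp, hp', comb_δ, map_sub,
            map_smul, LinearMap.sub_apply, LinearMap.smul_apply, smul_eq_mul]
          ring
        · rw [Prod.snd_add, Pi.add_apply, Pi.add_apply, Pi.add_apply, hp2, hp2', comb_δ, map_sub,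
            map_smul, LinearMap.sub_apply, LinearMap.smul_apply, smul_eq_mul]
          ring
      zero_mem' := by
        have e1 : ∀ v, (zeroConn a.q).δ v = 0 := fun v => rfl
        refine ⟨zeroConn a.q, fun s i _ _ => (a.F s i).zero_mem, fun i l k => ?_,
          fun i l k => ?_⟩ <;>
        · rw [e1, map_zero]; rfl
      smul_mem' := by
        rintro b p ⟨c, hc, hp, hp2⟩
        have e1 : ∀ v, (zeroConn a.q).δ v = 0 := fun v => rfl
        refine ⟨comb (zeroConn a.q) c (-b),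
          IsX.comb (fun s i _ _ => (a.F s i).zero_mem) hc _, fun i l k => ?_, fun i l k => ?_⟩
        · rw [Prod.smul_fst, Pi.smul_apply, Pi.smul_apply, Pi.smul_apply, hp, comb_δ, e1,
            zero_sub, map_neg, map_smul, LinearMap.neg_apply, LinearMap.smul_apply, smul_eq_mul,
            smul_eq_mul]
          ring
        · rw [Prod.smul_snd, Pi.smul_apply, Pi.smul_apply, Pi.smul_apply, hp2, comb_δ, e1,
            zero_sub, map_neg, map_smul, LinearMap.neg_apply, LinearMap.smul_apply, smul_eq_mul,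
            smul_eq_mul]
          ring }
  have hzero : ∀ t ∈ a.K, t ≠ 0 → ∀ (p : 𝒞) (c : Conn a.q), a.IsX c →
      (∀ i l k, p.1.1 i l k = a.q (c.δ (x l)) (g i k)) →
      (∀ i l k, p.1.2 i l k = a.q (c.δ (y l)) (g i k)) →
      (∀ l, ∀ u ∈ a.UU, a.q (c.δ (t l)) u = 0) → p = 0 := by
    intro t ht ht0 p c hc hp hp2 h8
    have h9 := h.five_a h2 hV hRi hN hT hK hH ht ht0 hc h8
    apply Subtype.ext
    apply Prod.ext
    · funext i l k
      rw [hp]
      exact h9 _ (mem_UU hx l) _ (hgU i k)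
    · funext i l k
      rw [hp2]
      exact h9 _ (mem_UU hy l) _ (hgU i k)
  let φ : 𝒞 →ₗ[L] (Fin 2 → J → J → L) := LinearMap.fst L _ _ ∘ₗ 𝒞.subtype
  let ψ : 𝒞 →ₗ[L] (Fin 2 → J → J → L) := LinearMap.snd L _ _ ∘ₗ 𝒞.subtype
  have hφ : ∀ p : 𝒞, φ p = p.1.1 := fun p => rfl
  have hψ : ∀ p : 𝒞, ψ p = p.1.2 := fun p => rfl
  have hφ_inj : ∀ p : 𝒞, φ p = 0 → p = 0 := by
    intro p h0
    obtain ⟨c, hc, hp, hp2⟩ := p.2
    refine hzero x hx hx0 p c hc hp hp2 fun l => hgen _ fun i k => ?_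
    rw [← hp, ← hφ, h0]
    rfl
  let 𝒴 : Submodule L (Fin 2 → J → J → L) := LinearMap.range φ
  -- every member of `Q` is in the image at `x`
  have h5b : ∀ v ∈ a.perp (a.E (pp a.q a.UU)), (fun i l k => a.q (v l) (g i k)) ∈ 𝒴 := by
    intro v hv
    obtain ⟨c, hc, hvc⟩ := h.five_b h2 hV hN hH hx hRx h3 h4 h5 h6 h7 hv
    refine ⟨⟨(fun i l k => a.q (c.δ (x l)) (g i k), fun i l k => a.q (c.δ (y l)) (g i k)),
      c, hc, fun i l k => rfl, fun i l k => rfl⟩, ?_⟩
    funext i l k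
    exact (hvc l _ (hgU i k)).symm
  have hrange : ∀ p : 𝒞, ψ p ∈ 𝒴 := by
    intro p
    obtain ⟨c, hc, hp, hp2⟩ := p.2
    have e1 := h5b _ (h.der_perp hc hy)
    convert e1 using 1
    funext i l k
    exact hp2 i l k
  -- no form at all
  have hC : ∀ p : 𝒞, p = 0 := by
    by_contra hcon
    push Not at hcon
    obtain ⟨p0, hp0⟩ := hcon
    have : Nontrivial 𝒞 := ⟨⟨p0, 0, hp0⟩⟩
    let e : 𝒞 ≃ₗ[L] 𝒴 := LinearEquiv.ofInjective φ ((injective_iff_map_eq_zero φ).mpr hφ_inj)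
    let T : Module.End L 𝒞 := e.symm.toLinearMap ∘ₗ ψ.codRestrict 𝒴 hrange
    obtain ⟨μ, hμ⟩ := Module.End.exists_eigenvalue T
    obtain ⟨p, hp⟩ := hμ.exists_hasEigenvector
    have h8 : T p = μ • p := hp.apply_eq_smul
    have h9 : ψ p = μ • φ p := by
      have e1 : e (T p) = ψ.codRestrict 𝒴 hrange p := e.apply_symm_apply _
      rw [h8, map_smul] at e1
      have e2 := congrArg Subtype.val e1
      exact e2.symm
    apply hp.2
    obtain ⟨c, hc, hp1, hp2⟩ := p.2
    refine hzero (y - μ • x) (a.K.sub_mem hy (a.K.smul_mem μ hx))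
      (fun h0 => hyx μ (sub_eq_zero.mp h0)) p c hc hp1 hp2 fun l => hgen _ fun i k => ?_
    have e3 : a.q (c.δ (y l)) (g i k) = μ * a.q (c.δ (x l)) (g i k) := by
      rw [← hp1, ← hp2, ← hψ, h9]
      rfl
    rw [Pi.sub_apply, Pi.smul_apply, map_sub, c.smul, map_sub, map_add, map_smul, map_smul,
      LinearMap.sub_apply, LinearMap.add_apply, LinearMap.smul_apply, LinearMap.smul_apply,
      hU (hgU i k) _ (mem_UU hx l), smul_zero, zero_add, e3, smul_eq_mul, sub_self]
  -- hence `Q ≤ E_{U^⊥}`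
  have hQ : a.perp (a.E (pp a.q a.UU)) ≤ a.E S := by
    intro v hv
    apply star h3 h4 h5 h6 h7 _ hv
    obtain ⟨β, hβ⟩ := h5b v hv
    rw [hC β, map_zero] at hβ
    refine mem_E.mpr fun l => ⟨(mem_perp.mp hv).1 l, fun r hr => ?_⟩
    rw [h.form.symm]
    refine hgen (v l) (fun i k => ?_) r (hRU hr)
    have e1 := congrFun (congrFun (congrFun hβ i) l) k
    exact e1.symm
  have hle : a.perp (a.E (pp a.q R)) ≤ a.E S := (po_anti (E_mono (pp_anti hRU))).trans hQ
  have h8 : a.perp (a.E (pp a.q S)) = a.E S := by rw [h7]; exact sup_eq_left.mpr hle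
  have h9 := finrank_po (M := a.M) (E := a.E ⊤) h.M_skew (E_le_top (a := a) (pp a.q S))
  have h10 : a.E (pp a.q S) ⊓ po a.M (a.E ⊤) (a.E ⊤) = a.K :=
    inf_eq_right.mpr (h5.trans (E_mono h4))
  have h11 : po a.M (a.E ⊤) (a.E (pp a.q S)) = a.E S := h8
  rw [h10, h11, hK] at h9
  have h12 := hθ S h4
  rw [a.θ_eq] at h12
  omega

end b7

end Cf

end Vale.Agent.P182.H96
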