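import Vale.Agent.P182.H534.C0e
import Vale.Agent.P182.H952.FB
import Vale.Agent.P182.H96.OffE

/-!
# Row C0
-/

namespace Vale.Agent.P182.H96.OE

open Module Matrix Vale.Agent.P182.H533 Vale.Agent.P182.H922 Vale.Agent.P182.B1
  Vale.Agent.P182.H578 Vale.Agent.P182.H588 Vale.Agent.P182.H181 Vale.Agent.P182.H983
  Vale.Agent.P182.H398

universe u v w

variable {L : Type u} {V : Type v} {J : Type w} [Field L] [AddCommGroup V] [Module L V]
  [Fintype J] [DecidableEq J] {𝒟 : Cfg L V J} {u : J → L} {t t' : J → V}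
  {W I : Submodule L V} {n : ℕ} {U : Fin n → Submodule L V} {d : Fin n → L} {p : Fin 3 → ℕ}
  [FiniteDimensional L V]

/-- **Row C0.** -/
theorem rowC0 [CharZero L] (hC : Ctx 𝒟 u) (hM : MaxCoreU 𝒟 u t) (B : Blk 𝒟 u t t' W I U d p) :
    RowC0 𝒟 u t W I :=
  H534.rowC0_of_FB hC hM B (fun i j hij e he f hf a => offE hC hM B i j hij he hf a)
    (fun i j x y hij hu hcen T Td ξ ξ' ξd ξd' hT hadj hξ hξ' hs hs' hξd hξd' => by
      obtain ⟨n, R, E, h1, h2⟩ := H952.exists_FB hC hM B hu hcen (fun e => hij (by rw [e]))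
        (T := T) (Td := Td) (fun a => ⟨hT.range a, hT.ker a⟩)
        (fun a => ⟨NBlk.Td_mem hC.good.form hT hadj a,
          fun v hv => NBlk.Td_ker hC.good.form hT hadj a hv⟩) hadj hT.sum hT.comm
        (fun a w _ => hξ a w) (fun a w _ => hξ' a w) hs hs' hξd hξd'
      exact ⟨n, R, h1, h2.nW⟩)

end Vale.Agent.P182.H96.OE
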