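import Vale.Agent.P182.H96.Perp
import Vale.Agent.P182.H96.TypeConst

/-!
# Configurations
-/

namespace Vale.Agent.P182.H96

open Module Matrix Vale.Agent.P182.H533

/-- the data of a configuration: a quadratic space, an isotropic flag for every arm, columns
`l : J` with their arms and heights, and a skew matrix -/
structure Cf (L V J ι : Type*) [Field L] [AddCommGroup V] [Module L V] where
  q : V →ₗ[L] V →ₗ[L] L
  F : ι → ℕ → Submodule L V
  arm : J → ι
  c : J → ℕ
  Ω : Matrix J J L

/-- the subspace of a column -/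
def Cf.C {L V J ι : Type*} [Field L] [AddCommGroup V] [Module L V] (a : Cf L V J ι) (l : J) :
    Submodule L V := a.F (a.arm l) (a.c l)

section om

variable {L W J : Type*} [Field L] [AddCommGroup W] [Module L W] [Fintype J]

/-- the vectors `u_l = Σ_k Ω_lk t_k` -/
def om (Ω : Matrix J J L) (t : J → W) (l : J) : W := ∑ k, Ω l k • t k

theorem om_add (Ω : Matrix J J L) (t r : J → W) (l : J) :
    om Ω (t + r) l = om Ω t l + om Ω r l := by
  simp only [om, Pi.add_apply, smul_add, Finset.sum_add_distrib]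

theorem om_smul (Ω : Matrix J J L) (c : L) (t : J → W) (l : J) :
    om Ω (c • t) l = c • om Ω t l := by
  simp only [om, Pi.smul_apply, Finset.smul_sum]
  exact Finset.sum_congr rfl fun k _ => smul_comm _ _ _

theorem map_om {W' : Type*} [AddCommGroup W'] [Module L W'] (f : W →ₗ[L] W') (Ω : Matrix J J L)
    (t : J → W) (l : J) : f (om Ω t l) = om Ω (fun k => f (t k)) l := by
  simp only [om, map_sum, map_smul]

theorem om_mem {Ω : Matrix J J L} {t : J → W} {R : Submodule L W} (h : ∀ k, t k ∈ R) (l : J) :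
    om Ω t l ∈ R := R.sum_mem fun k _ => R.smul_mem _ (h k)

end om

namespace Cf

section basic

variable {L V J ι : Type*} [Field L] [AddCommGroup V] [Module L V] [Fintype J]
  (a : Cf L V J ι)

/-- standing assumptions -/
structure Good (a : Cf L V J ι) : Prop where
  form : IsForm a.q
  skew : ∀ l k, a.Ω l k = - a.Ω k l
  zero : ∀ s, a.F s 0 = ⊥
  mono : ∀ s, Monotone (a.F s)
  step : ∀ s i, finrank L (a.F s (i + 1)) ≤ finrank L (a.F s i) + 1
  isoF : ∀ s i, a.F s i ≤ pp a.q (a.F s i)

omit [Fintype J] in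
theorem Good.chain {a : Cf L V J ι} (h : a.Good) (l k : J) (hlk : a.arm l = a.arm k) :
    a.C l ≤ a.C k ∨ a.C k ≤ a.C l := by
  rw [Cf.C, Cf.C, hlk]
  rcases le_total (a.c l) (a.c k) with h1 | h1
  · exact Or.inl (h.mono _ h1)
  · exact Or.inr (h.mono _ h1)

omit [Fintype J] in
theorem Good.iso {a : Cf L V J ι} (h : a.Good) (l : J) : a.C l ≤ pp a.q (a.C l) := h.isoF _ _

/-- the skew form -/
def M : (J → V) →ₗ[L] (J → V) →ₗ[L] L :=
  LinearMap.mk₂ L (fun t r => ∑ l, a.q (t l) (om a.Ω r l))
    (fun t t' r => by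
      simp only [Pi.add_apply, map_add, LinearMap.add_apply, Finset.sum_add_distrib])
    (fun c t r => by
      simp only [Pi.smul_apply, map_smul, LinearMap.smul_apply, Finset.smul_sum])
    (fun t r r' => by simp only [om_add, map_add, Finset.sum_add_distrib])
    (fun c t r => by simp only [om_smul, map_smul, Finset.smul_sum])

theorem M_apply (t r : J → V) : a.M t r = ∑ l, a.q (t l) (om a.Ω r l) := rfl

theorem M_eq (t r : J → V) : a.M t r = ∑ l, ∑ k, a.Ω l k * a.q (t l) (r k) := by
  rw [M_apply]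
  refine Finset.sum_congr rfl fun l _ => ?_
  rw [om, map_sum]
  exact Finset.sum_congr rfl fun k _ => by rw [map_smul, smul_eq_mul]

variable {a}

theorem Good.M_skew (h : a.Good) (t r : J → V) : a.M t r = - a.M r t := by
  rw [M_eq, M_eq, Finset.sum_comm, ← Finset.sum_neg_distrib]
  refine Finset.sum_congr rfl fun l _ => ?_
  rw [← Finset.sum_neg_distrib]
  refine Finset.sum_congr rfl fun k _ => ?_
  rw [h.skew k l, h.form.symm (t k)]
  ring

theorem Good.M_apply' (h : a.Good) (t r : J → V) : a.M t r = - ∑ l, a.q (om a.Ω t l) (r l) := by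
  rw [h.M_skew, M_apply]
  congr 1
  exact Finset.sum_congr rfl fun l _ => h.form.symm _ _

variable (a)

/-- `E_D` -/
def E (D : Submodule L V) : Submodule L (J → V) := Submodule.pi Set.univ fun l => a.C l ⊓ D

variable {a}

omit [Fintype J] in
theorem mem_E {D : Submodule L V} {t : J → V} : t ∈ a.E D ↔ ∀ l, t l ∈ a.C l ∧ t l ∈ D := by
  simp [E, Submodule.mem_pi]

omit [Fintype J] in
theorem mem_E_top {t : J → V} : t ∈ a.E ⊤ ↔ ∀ l, t l ∈ a.C l := by
  simp [mem_E]

omit [Fintype J] in
theorem E_mono {D D' : Submodule L V} (h : D ≤ D') : a.E D ≤ a.E D' :=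
  fun _ ht => mem_E.mpr fun l => ⟨(mem_E.mp ht l).1, h (mem_E.mp ht l).2⟩

omit [Fintype J] in
theorem E_le_top (D : Submodule L V) : a.E D ≤ a.E ⊤ := E_mono le_top

variable (a)

/-- the orthogonal in `E` -/
def perp (W : Submodule L (J → V)) : Submodule L (J → V) := po a.M (a.E ⊤) W

/-- the kernel -/
def K : Submodule L (J → V) := a.perp (a.E ⊤)

variable {a}

theorem mem_perp {W : Submodule L (J → V)} {t : J → V} :
    t ∈ a.perp W ↔ (∀ l, t l ∈ a.C l) ∧ ∀ w ∈ W, a.M w t = 0 := by
  rw [perp, mem_po, mem_E_top]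

theorem mem_K' {t : J → V} :
    t ∈ a.K ↔ (∀ l, t l ∈ a.C l) ∧ ∀ w : J → V, (∀ l, w l ∈ a.C l) → a.M w t = 0 := by
  rw [K, mem_perp]
  exact and_congr_right fun _ => forall_congr' fun w => by rw [mem_E_top]

theorem mem_K [DecidableEq J] {t : J → V} :
    t ∈ a.K ↔ (∀ l, t l ∈ a.C l) ∧ ∀ l, ∀ v ∈ a.C l, a.q v (om a.Ω t l) = 0 := by
  rw [mem_K']
  refine and_congr_right fun ht => ?_
  constructor
  · intro h l v hv
    have h1 := h (Pi.single l v) fun k => by
      by_cases hk : k = l
      · subst hk; rw [Pi.single_eq_same]; exact hv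
      · rw [Pi.single_eq_of_ne hk]; exact Submodule.zero_mem _
    rw [M_apply, Finset.sum_eq_single l] at h1
    · rwa [Pi.single_eq_same] at h1
    · intro k _ hk
      rw [Pi.single_eq_of_ne hk, map_zero, LinearMap.zero_apply]
    · intro h; exact absurd (Finset.mem_univ _) h
  · intro h w hw
    rw [M_apply]
    exact Finset.sum_eq_zero fun l _ => h l _ (hw l)

theorem K_le_perp (W : Submodule L (J → V)) (hW : W ≤ a.E ⊤) : a.K ≤ a.perp W := po_anti hW

/-- versality -/
def Versal (a : Cf L V J ι) : Prop :=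
  ∀ Y : ι → End L V, (∀ s, IsSk a.q (Y s)) → ∀ η : J → J → L, (∀ l k, η l k = - η k l) →
    ∃ c : Conn a.q, (∀ s i, ∀ v ∈ a.F s i, c.δ v - Y s v ∈ a.F s i) ∧
      ∀ l k, c.d (a.Ω l k) = η l k

/-- connections which preserve everything -/
def IsD0 (a : Cf L V J ι) (c : Conn a.q) : Prop :=
  (∀ s i, ∀ v ∈ a.F s i, c.δ v ∈ a.F s i) ∧ ∀ l k, c.d (a.Ω l k) = 0

/-- there are many connections preserving everything -/
def Rich (a : Cf L V J ι) : Prop :=
  ∀ m : ℕ, ∃ (c : Fin m → Conn a.q) (τ : Fin m → L), (∀ i, a.IsD0 (c i)) ∧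
    ∀ i j, (c i).d (τ j) = if i = j then 1 else 0

/-- square-zero symmetric very stability -/
def N1sq (a : Cf L V J ι) [DecidableEq J] [DecidableEq ι] : Prop :=
  ∀ g : Matrix J J L, (∀ l k, g l k = g k l) → (∀ l k, a.arm l = a.arm k → g l k = 0) →
    (∀ l k, a.arm l = a.arm k → a.C l ≤ a.C k → ∑ j, g l j * a.Ω k j = 0) →
    (∀ s i j, ∑ l, ∑ k, g i l * Gm a.arm a.Ω s l k * g k j = 0) → g = 0

end basic

end Cf

section conn

variable {L V : Type*} [Field L] [AddCommGroup V] [Module L V] {q : V →ₗ[L] V →ₗ[L] L}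

/-- linear combinations of connections -/
def comb (c c' : Conn q) (b : L) : Conn q where
  d := { toFun := fun x => c.d x - b * c'.d x
         map_zero' := by simp
         map_add' := fun x y => by rw [map_add, map_add]; ring }
  δ := { toFun := fun v => c.δ v - b • c'.δ v
         map_zero' := by simp
         map_add' := fun x y => by rw [map_add, map_add, smul_add]; abel }
  leib := fun x y => by
    show c.d (x * y) - b * c'.d (x * y) = (c.d x - b * c'.d x) * y + x * (c.d y - b * c'.d y)
    rw [c.leib, c'.leib]; ring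
  smul := fun x v => by
    show c.δ (x • v) - b • c'.δ (x • v) = (c.d x - b * c'.d x) • v + x • (c.δ v - b • c'.δ v)
    rw [c.smul, c'.smul]; module
  metric := fun u v => by
    show c.d (q u v) - b * c'.d (q u v) = q (c.δ u - b • c'.δ u) v + q u (c.δ v - b • c'.δ v)
    rw [c.metric, c'.metric, map_sub, map_sub, map_smul, map_smul, LinearMap.sub_apply,
      LinearMap.smul_apply, smul_eq_mul, smul_eq_mul]
    ring

theorem comb_d (c c' : Conn q) (b x : L) : (comb c c' b).d x = c.d x - b * c'.d x := rfl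

theorem comb_δ (c c' : Conn q) (b : L) (v : V) : (comb c c' b).δ v = c.δ v - b • c'.δ v := rfl

/-- the difference of two connections over the same derivation -/
def dif (c c' : Conn q) (h : c'.d = c.d) : End L V where
  toFun v := c'.δ v - c.δ v
  map_add' u v := by rw [map_add, map_add]; abel
  map_smul' x v := by rw [c.smul, c'.smul, h, RingHom.id_apply]; module

theorem dif_apply (c c' : Conn q) (h : c'.d = c.d) (v : V) : dif c c' h v = c'.δ v - c.δ v := rfl

theorem dif_sk (c c' : Conn q) (h : c'.d = c.d) : IsSk q (dif c c' h) := by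
  intro u v
  have h1 := c.metric u v
  have h2 := c'.metric u v
  rw [h, h1] at h2
  rw [dif_apply, dif_apply, map_sub, LinearMap.sub_apply, map_sub]
  linear_combination -h2

/-- the skew operator `v ↦ q(g,v) r - q(r,v) g` -/
def wd (q : V →ₗ[L] V →ₗ[L] L) (g r : V) : End L V :=
  (q g).smulRight r - (q r).smulRight g

theorem wd_apply (g r v : V) : wd q g r v = q g v • r - q r v • g := rfl

theorem wd_sk (hq : IsForm q) (g r : V) : IsSk q (wd q g r) := by
  intro u v
  rw [wd_apply, wd_apply, map_sub, LinearMap.sub_apply, map_sub, map_smul, map_smul, map_smul,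
    map_smul, LinearMap.smul_apply, LinearMap.smul_apply, hq.symm u r, hq.symm u g]
  simp only [smul_eq_mul]
  ring

end conn

end Vale.Agent.P182.H96
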