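import Vale.Agent.P182.H96.TypeConst

/-!
# Type constancy inside a degenerate quadratic space, extension of skew maps
-/

namespace Vale.Agent.P182.H96

open Module Vale.Agent.P182.H533

section chains

variable {L V : Type*} [Field L] [AddCommGroup V] [Module L V]

/-- a connection which preserves two chains -/
theorem exists_conn_chains {d : L →+ L} (hd : ∀ a b, d (a * b) = d a * b + a * d b) {κ κ' : Type*}
    (A : κ → Submodule L V) (s : Finset κ) (hA : ∀ i ∈ s, ∀ j ∈ s, A i ≤ A j ∨ A j ≤ A i)
    (B : κ' → Submodule L V) (s' : Finset κ') (hB : ∀ i ∈ s', ∀ j ∈ s', B i ≤ B j ∨ B j ≤ B i) :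
    ∃ δ : V →+ V, IsConn d δ ∧ (∀ i ∈ s, Pres δ (A i)) ∧ ∀ i ∈ s', Pres δ (B i) := by
  classical
  induction s' using Finset.induction_on with
  | empty =>
    obtain ⟨δ, h1, h2⟩ := exists_conn_chain (V := V) hd A s hA
    exact ⟨δ, h1, h2, fun i hi => absurd hi (Finset.notMem_empty i)⟩
  | insert b s' hb ih =>
    obtain ⟨δ, h1, h2, h3⟩ := ih fun i hi j hj =>
      hB i (Finset.mem_insert_of_mem hi) j (Finset.mem_insert_of_mem hj)
    obtain ⟨p, p1, p2, p3⟩ := exists_proj_chain A s hA (B b)
    refine ⟨cj p δ, cj_isConn h1 fun v => p2 _ (p1 v), fun i hi => cj_pres (h2 i hi) (p3 i hi),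
      fun i hi => ?_⟩
    rcases Finset.mem_insert.mp hi with rfl | hi'
    · exact cj_pres_range p1 p2
    · exact cj_pres (h3 i hi') (proj_pres p1 p2 (hB b (Finset.mem_insert_self b s') i hi))

end chains

section deg

variable {L R : Type*} [Field L] [AddCommGroup R] [Module L R] [FiniteDimensional L R]
  {b : R →ₗ[L] R →ₗ[L] L}

/-- functionals which kill the radical are represented -/
theorem exists_rep (hb : ∀ u v, b u v = b v u) {f : Dual L R} (hf : ∀ r ∈ LinearMap.ker b, f r = 0) :
    ∃ w, b w = f := by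
  have h1 : LinearMap.range b ≤ (LinearMap.ker b).dualAnnihilator := by
    rintro _ ⟨w, rfl⟩
    rw [Submodule.mem_dualAnnihilator]
    intro r hr
    rw [hb, LinearMap.mem_ker.mp hr, LinearMap.zero_apply]
  have h2 : LinearMap.range b = (LinearMap.ker b).dualAnnihilator := by
    refine Submodule.eq_of_le_of_finrank_eq h1 (Nat.add_right_cancel
      (m := finrank L (LinearMap.ker b)) ?_)
    rw [add_comm (finrank L (LinearMap.ker b).dualAnnihilator),
      Subspace.finrank_add_finrank_dualAnnihilator_eq (LinearMap.ker b)]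
    exact LinearMap.finrank_range_add_finrank_ker b
  have h3 : f ∈ LinearMap.range b := by
    rw [h2, Submodule.mem_dualAnnihilator]
    exact hf
  exact h3

/-- biduality for a degenerate form -/
theorem mem_sup_ker (hb : ∀ u v, b u v = b v u) {A : Submodule L R} {w : R}
    (hw : ∀ v, (∀ a ∈ A, b a v = 0) → b w v = 0) : w ∈ A ⊔ LinearMap.ker b := by
  by_contra hcon
  obtain ⟨f, hf, hf'⟩ := Submodule.exists_le_ker_of_notMem hcon
  obtain ⟨w', hw'⟩ := exists_rep hb (f := f) fun r hr => hf' (Submodule.mem_sup_right hr)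
  apply hf
  rw [← hw', hb]
  apply hw
  intro a ha
  rw [hb, hw']
  exact hf' (Submodule.mem_sup_left ha)

/-- **Type constancy for a chain in a (degenerate) quadratic space.** -/
theorem exists_metric_deg (hb : ∀ u v, b u v = b v u) (h2 : (2 : L) ≠ 0) {d : L →+ L}
    (hd : ∀ a b, d (a * b) = d a * b + a * d b) {κ : Type*} (A : κ → Submodule L R)
    (s : Finset κ) (hA : ∀ i ∈ s, ∀ j ∈ s, A i ≤ A j ∨ A j ≤ A i) :
    ∃ δ : R →+ R, IsConn d δ ∧ (∀ i ∈ s, Pres δ (A i)) ∧
      ∀ u v, d (b u v) = b (δ u) v + b u (δ v) := by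
  classical
  let B : Option κ → Submodule L R := fun i => i.elim (LinearMap.ker b) fun i =>
    { carrier := {v | ∀ a ∈ A i, b a v = 0}
      add_mem' := by
        intro u v hu hv a ha
        rw [map_add, hu a ha, hv a ha, add_zero]
      zero_mem' := fun a _ => map_zero _
      smul_mem' := by
        intro c v hv a ha
        rw [map_smul, hv a ha, smul_zero] }
  have hB0 : B none = LinearMap.ker b := rfl
  have hB1 : ∀ i v, v ∈ B (some i) ↔ ∀ a ∈ A i, b a v = 0 := fun i v => Iff.rfl
  have hker : ∀ i, B none ≤ B (some i) := by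
    intro i v hv a _
    rw [hb, LinearMap.mem_ker.mp hv, LinearMap.zero_apply]
  obtain ⟨δ, g1, g2, g3⟩ := exists_conn_chains (V := R) hd A s hA B (Finset.insertNone s) (by
    rintro (_ | i) hi (_ | j) hj
    · exact Or.inl le_rfl
    · exact Or.inl (hker j)
    · exact Or.inr (hker i)
    · rcases hA i (Finset.some_mem_insertNone.mp hi) j (Finset.some_mem_insertNone.mp hj)
        with h | h
      · exact Or.inr fun v hv a ha => hv a (h ha)
      · exact Or.inl fun v hv a ha => hv a (h ha))
  have g4 : Pres δ (LinearMap.ker b) := g3 none (Finset.none_mem_insertNone)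
  have g5 : ∀ i ∈ s, ∀ v, (∀ a ∈ A i, b a v = 0) → ∀ a ∈ A i, b a (δ v) = 0 :=
    fun i hi v hv => g3 (some i) (Finset.some_mem_insertNone.mpr hi) v hv
  obtain ⟨p, p1, p2, p3⟩ := exists_proj_chain A s hA (LinearMap.ker b)
  have hpb : ∀ u v, b (p u) v = 0 := fun u v => by
    rw [LinearMap.mem_ker.mp (p1 u), LinearMap.zero_apply]
  let F : R → Dual L R := fun u =>
    { toFun := fun v => d (b u v) - b u (δ v)
      map_add' := fun v w => by simp only [map_add]; abel
      map_smul' := fun a v => by
        rw [map_smul, smul_eq_mul, hd, g1, map_add, map_smul, map_smul, RingHom.id_apply]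
        simp only [smul_eq_mul]
        ring }
  have hF : ∀ u v, F u v = d (b u v) - b u (δ v) := fun u v => rfl
  have hFr : ∀ u, ∃ w, b w = F u := fun u => exists_rep hb (f := F u) fun r hr => by
      rw [hF, hb, LinearMap.mem_ker.mp hr, LinearMap.zero_apply, map_zero, hb,
        LinearMap.mem_ker.mp (g4 r hr), LinearMap.zero_apply, sub_zero]
  choose G hG' using hFr
  have hG : ∀ u v, b (G u) v = d (b u v) - b u (δ v) := fun u v => by
    rw [← hF, hG']
  -- the adjoint connection
  have hkk : ∀ w, b w = 0 → w - p w = 0 := fun w hw => by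
    rw [p2 w (LinearMap.mem_ker.mpr hw), sub_self]
  have hadd : ∀ u v, G (u + v) - p (G (u + v)) = (G u - p (G u)) + (G v - p (G v)) := by
    intro u v
    have h3 : b (G (u + v) - (G u + G v)) = 0 := by
      ext w
      rw [map_sub, map_add, LinearMap.sub_apply, LinearMap.add_apply, hG, hG, hG,
        LinearMap.zero_apply, map_add, LinearMap.add_apply, map_add, LinearMap.add_apply]
      abel
    have h4 := hkk _ h3
    rw [map_sub, map_add] at h4
    rw [← sub_eq_zero, ← h4]
    abel
  have hsmul : ∀ (a : L) (u : R), G (a • u) - p (G (a • u)) =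
      d a • (u - p u) + a • (G u - p (G u)) := by
    intro a u
    have h3 : b (G (a • u) - (d a • u + a • G u)) = 0 := by
      ext w
      have e1 : ∀ (c : L) (u : R), b (c • u) w = c * b u w := fun c u => by
        rw [map_smul, LinearMap.smul_apply, smul_eq_mul]
      have e3 : ∀ (c : L) (u v : R), b (c • u) v = c * b u v := fun c u v => by
        rw [map_smul, LinearMap.smul_apply, smul_eq_mul]
      rw [map_sub, map_add, LinearMap.sub_apply, LinearMap.add_apply, hG, e1, e1, e1, e3, hG,
        LinearMap.zero_apply, hd]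
      ring
    have h4 := hkk _ h3
    rw [map_sub, map_add, map_smul, map_smul] at h4
    rw [← sub_eq_zero, ← h4, smul_sub, smul_sub]
    abel
  have hG0 : G 0 - p (G 0) = 0 := by
    apply hkk
    ext w
    rw [hG, map_zero, LinearMap.zero_apply, LinearMap.zero_apply, map_zero, sub_zero]
  let δ' : R →+ R :=
    { toFun := fun u => (G u - p (G u)) + p (δ (p u))
      map_zero' := by rw [hG0, map_zero, map_zero, map_zero, add_zero]
      map_add' := fun u v => by rw [hadd, map_add, map_add, map_add]; abel }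
  have hδ' : ∀ u, δ' u = (G u - p (G u)) + p (δ (p u)) := fun u => rfl
  have f1 : IsConn d δ' := by
    intro a u
    rw [hδ', hδ', hsmul, map_smul, g1, map_add, map_smul, map_smul, p2 (p u) (p1 u)]
    module
  have f2 : ∀ u v, b (δ' u) v + b u (δ v) = d (b u v) := by
    intro u v
    rw [hδ', map_add, LinearMap.add_apply, map_sub, LinearMap.sub_apply, hpb, hpb, hG]
    ring
  have f3 : ∀ i ∈ s, Pres δ' (A i) := by
    intro i hi u hu
    have h3 : G u ∈ A i ⊔ LinearMap.ker b := by
      apply mem_sup_ker hb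
      intro v hv
      rw [hG, hv u hu, map_zero, zero_sub, neg_eq_zero]
      exact g5 i hi v hv u hu
    obtain ⟨a, ha, r, hr, har⟩ := Submodule.mem_sup.mp h3
    have h4 : G u - p (G u) = a - p a := by
      rw [← har, map_add, p2 r hr]
      abel
    rw [hδ', h4]
    exact (A i).add_mem ((A i).sub_mem ha (p3 i hi a ha)) (p3 i hi _ (g2 i hi _ (p3 i hi u hu)))
  have e2 : ∀ a : L, (2 : L)⁻¹ * (a + a) = a := fun a => by
    rw [← two_mul, ← mul_assoc, inv_mul_cancel₀ h2, one_mul]
  refine ⟨{ toFun := fun v => (2 : L)⁻¹ • (δ v + δ' v)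
            map_zero' := by rw [map_zero, map_zero, add_zero, smul_zero]
            map_add' := fun u v => by rw [map_add, map_add, ← smul_add]; congr 1; abel },
    ?_, ?_, ?_⟩
  · intro a v
    show (2 : L)⁻¹ • (δ (a • v) + δ' (a • v)) = d a • v + a • (2 : L)⁻¹ • (δ v + δ' v)
    rw [f1, g1]
    have h6 : d a • v = (2 : L)⁻¹ • (d a • v + d a • v) := by
      rw [← add_smul, smul_smul, e2]
    conv_rhs => rw [h6]
    module
  · intro i hi v hv
    exact (A i).smul_mem _ ((A i).add_mem (g2 i hi v hv) (f3 i hi v hv))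
  · intro u v
    show d (b u v) = b ((2 : L)⁻¹ • (δ u + δ' u)) v + b u ((2 : L)⁻¹ • (δ v + δ' v))
    have h6 := f2 u v
    have h7 := f2 v u
    rw [hb v u, hb (δ' v) u, hb v (δ u)] at h7
    rw [map_smul, map_smul, LinearMap.smul_apply, map_add, map_add, LinearMap.add_apply,
      smul_eq_mul, smul_eq_mul, ← mul_add]
    have h8 : b (δ u) v + b (δ' u) v + (b u (δ v) + b u (δ' v)) = d (b u v) + d (b u v) := by
      rw [← h6]
      nth_rw 2 [h6]
      rw [← h7]
      abel
    rw [h8, e2]

end deg

section ext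

variable {L V : Type*} [Field L] [AddCommGroup V] [Module L V] [FiniteDimensional L V]
  {q : V →ₗ[L] V →ₗ[L] L}

/-- **Extension of skew maps of a subspace.** -/
theorem exists_skew_ext (hq : IsForm q) {R : Submodule L V} {ρ : End L R}
    (hρ : ∀ u v : R, q (ρ u) v = - q u (ρ v)) : ∃ Y : End L V, IsSk q Y ∧ ∀ r : R, Y r = ρ r := by
  obtain ⟨f, hf⟩ := R.subtype.exists_leftInverse_of_injective R.ker_subtype
  have hf' : ∀ r : R, f r = r := fun r => LinearMap.congr_fun hf r
  obtain ⟨Y, hY⟩ := hq.exists_end (LinearMap.mk₂ L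
    (fun u v => q (ρ (f u)) v - q u (ρ (f v)) - q (ρ (f u)) (f v))
    (fun u u' v => by
      simp only [map_add, Submodule.coe_add, LinearMap.add_apply]; ring)
    (fun c u v => by
      simp only [map_smul, Submodule.coe_smul, LinearMap.smul_apply, smul_eq_mul]; ring)
    (fun u v v' => by
      simp only [map_add, Submodule.coe_add]; ring)
    (fun c u v => by
      simp only [map_smul, Submodule.coe_smul, smul_eq_mul]; ring))
  have hY' : ∀ u v, q (Y u) v = q (ρ (f u)) v - q u (ρ (f v)) - q (ρ (f u)) (f v) :=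
    fun u v => hY u v
  refine ⟨Y, fun u v => ?_, fun r => hq.ext fun v => ?_⟩
  · rw [hq.symm u (Y v), hY', hY', hρ (f u) (f v), hq.symm (ρ (f v)) u, hq.symm v (ρ (f u)),
      hq.symm (f u : V) (ρ (f v))]
    ring
  · rw [hY', hf', hρ r (f v)]
    ring

end ext

end Vale.Agent.P182.H96
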