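import Vale.Agent.P182.H96.Two

/-!
# The endgame
-/

namespace Vale.Agent.P182.H96

open Module Matrix Vale.Agent.P182.H533

namespace Cf

section endg

variable {L V J ι : Type*} [Field L] [AddCommGroup V] [Module L V] [Fintype J]
  {a : Cf L V J ι} [DecidableEq J] [DecidableEq ι] [Fintype ι] [FiniteDimensional L V]

/-- the inequality for all reductions -/
def TRed (a : Cf L V J ι) : Prop :=
  ∀ (R : Submodule L V), R ≠ ⊥ → R ≤ pp a.q R → ∀ D : Rd a.q R, (a.red D).Versal →
    (a.red D).Rich → ∃ S : Submodule L D.P, S ≤ pp (a.red D).q S ∧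
      (finrank L (a.red D).K : ℤ) ≤ (a.red D).θ S

/-- **(g).** -/
theorem Good.exists_g (h : a.Good) (h2 : (2 : L) ≠ 0) (hV : a.Versal) (hRi : a.Rich)
    (hN : a.N1sq) (hT : a.TRed) (hK : finrank L a.K = 2) {x : J → V} (hx : x ∈ a.K)
    (hx0 : x ≠ 0) (hxx : ∀ l k, a.q (x l) (x k) = 0) {R : Submodule L V}
    (hRx : R = Submodule.span L (Set.range x))
    (hmov : ∀ y ∈ a.K, ∀ b, a.Eps R b → (∀ l, y l - b (a.arm l) (x l) ∈ R) →
      ∃ c : Conn a.q, a.IsD0 c ∧ ∀ l, c.δ (x l) - y l ∈ R) :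
    ∃ S : Submodule L V, R ≤ S ∧ S ≤ pp a.q S ∧ a.K ≤ a.E S ∧
      a.E (pp a.q R) ⊓ a.perp (a.E (pp a.q R)) ≤ a.E S ∧
      a.perp (a.E (pp a.q S)) = a.E S ⊔ a.perp (a.E (pp a.q R)) := by
  have hxR : ∀ l, x l ∈ R := fun l => by rw [hRx]; exact Submodule.subset_span ⟨l, rfl⟩
  have hspan : ∀ v : V, (∀ l, a.q (x l) v = 0) → v ∈ pp a.q R := by
    intro v hv r hr
    rw [hRx] at hr
    induction hr using Submodule.span_induction with
    | mem r hr =>
      obtain ⟨k, rfl⟩ := hr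
      exact hv k
    | zero => rw [map_zero, LinearMap.zero_apply]
    | add u w _ _ hu hw => rw [map_add, LinearMap.add_apply, hu, hw, add_zero]
    | smul c u _ hu => rw [map_smul, LinearMap.smul_apply, hu, smul_zero]
  have hR : R ≤ pp a.q R := by
    nth_rw 1 [hRx]
    rw [Submodule.span_le]
    rintro _ ⟨k, rfl⟩
    exact hspan _ fun l => hxx l k
  have hR0 : R ≠ ⊥ := by
    intro h0
    apply hx0
    funext l
    have := hxR l
    rw [h0, Submodule.mem_bot] at this
    exact this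
  obtain ⟨D⟩ := exists_rd h.form hR
  have hK' : a.K ≤ a.E (pp a.q R) := fun y hy => mem_E.mpr fun l =>
    ⟨(mem_K'.mp hy).1 l, hspan _ fun k => by
      rw [h.form.symm]; exact h.N1K hV hN hx hy hxx l k⟩
  obtain ⟨S, h3, h4, h5, h6⟩ := h.data_g D hR hK' (hT R hR0 hR D
    (h.versal_red h2 hV hN hx hRx hR D hmov) (h.rich_red hRi hK hx hx0 hRx D))
  exact ⟨S, h3, h4, (le_inf hK' (K_le_perp _ (E_le_top _))).trans h5, h5, h6⟩

/-- all elements of the kernel are isotropic and mutually orthogonal -/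
theorem Good.all_iso (h : a.Good) (h2 : (2 : L) ≠ 0) (hV : a.Versal) (hRi : a.Rich)
    (hN : a.N1sq) (hT : a.TRed) (hK : finrank L a.K = 2) {w : J → V} (hw : w ∈ a.K)
    (hw0 : w ≠ 0) (hww : ∀ l k, a.q (w l) (w k) = 0) {x y : J → V} (hx : x ∈ a.K)
    (hy : y ∈ a.K) (l k : J) : a.q (x l) (y k) = 0 := by
  set R := Submodule.span L (Set.range w) with hRw
  have hwR : ∀ l, w l ∈ R := fun l => Submodule.subset_span ⟨l, rfl⟩
  have hR : R ≤ pp a.q R := by
    rw [hRw, Submodule.span_le]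
    rintro _ ⟨k, rfl⟩ r hr
    induction hr using Submodule.span_induction with
    | mem r hr =>
      obtain ⟨j, rfl⟩ := hr
      exact hww j k
    | zero => rw [map_zero, LinearMap.zero_apply]
    | add u w _ _ hu hw => rw [map_add, LinearMap.add_apply, hu, hw, add_zero]
    | smul c u _ hu => rw [map_smul, LinearMap.smul_apply, hu, smul_zero]
  by_cases hI : ∃ y ∈ a.K, ∃ b, a.Eps R b ∧ (∀ l, y l - b (a.arm l) (w l) ∈ R) ∧ ¬ ∀ l, y l ∈ R
  · obtain ⟨z, hz, b, hb, hzb, hzR⟩ := hI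
    have hzz := h.typeI h2 hV hN hw hz hRw hR hb hzb
    have hzw : ∀ c : L, z ≠ c • w := by
      rintro c rfl
      exact hzR fun l => R.smul_mem c (hwR l)
    obtain ⟨α, β, hαβ⟩ := exists_coord hK hw hz hw0 hzw y hy
    rw [hαβ, Pi.add_apply, Pi.smul_apply, Pi.smul_apply, map_add, map_smul, map_smul,
      h.N1K hV hN hw hx hww, h.N1K hV hN hz hx hzz, smul_zero, smul_zero, add_zero]
  · push Not at hI
    obtain ⟨S, -, h4, h5, -, -⟩ := h.exists_g h2 hV hRi hN hT hK hw hw0 hww hRw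
      (fun y hy b hb hyb => ⟨zeroConn a.q, isD0_zero, fun l => by
        have e1 : (zeroConn a.q).δ (w l) = 0 := rfl
        rw [e1, zero_sub]
        exact R.neg_mem (hI y hy b hb hyb l)⟩)
    exact h4 (mem_E.mp (h5 hy) k).2 _ (mem_E.mp (h5 hx) l).2

omit [DecidableEq J] [DecidableEq ι] [Fintype ι] [FiniteDimensional L V] in
variable (a) in
/-- the span of all images of the kernel -/
def UU : Submodule L V := Submodule.span L {v | ∃ t ∈ a.K, ∃ l, v = t l}

omit [DecidableEq J] [DecidableEq ι] [Fintype ι] [FiniteDimensional L V] in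
theorem mem_UU {t : J → V} (ht : t ∈ a.K) (l : J) : t l ∈ a.UU :=
  Submodule.subset_span ⟨t, ht, l, rfl⟩

omit [DecidableEq J] [DecidableEq ι] [Fintype ι] [FiniteDimensional L V] in
theorem UU_induction {p : V → Prop} (h0 : p 0) (hadd : ∀ u v, p u → p v → p (u + v))
    (hsmul : ∀ (c : L) u, p u → p (c • u)) (hK : ∀ t ∈ a.K, ∀ l, p (t l)) :
    ∀ u ∈ a.UU, p u := by
  intro u hu
  induction hu using Submodule.span_induction with
  | mem u hu =>
    obtain ⟨t, ht, l, rfl⟩ := hu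
    exact hK t ht l
  | zero => exact h0
  | add u v _ _ hu hv => exact hadd u v hu hv
  | smul c u _ hu => exact hsmul c u hu

omit [DecidableEq J] [DecidableEq ι] [Fintype ι] [FiniteDimensional L V] in
theorem U_iso
    (hH : ∀ x ∈ a.K, ∀ y ∈ a.K, ∀ l k, a.q (x l) (y k) = 0) : a.UU ≤ pp a.q a.UU := by
  intro u hu
  refine UU_induction (a := a) (p := fun u => u ∈ pp a.q a.UU) (Submodule.zero_mem _)
    (fun _ _ => Submodule.add_mem _) (fun _ _ => Submodule.smul_mem _ _) ?_ u hu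
  intro t ht l v hv
  refine UU_induction (a := a) (p := fun v => a.q v (t l) = 0)
    (by rw [map_zero, LinearMap.zero_apply])
    (fun _ _ h1 h2 => by rw [map_add, LinearMap.add_apply, h1, h2, add_zero])
    (fun _ _ h1 => by rw [map_smul, LinearMap.smul_apply, h1, smul_zero]) ?_ v hv
  intro r hr k
  exact hH r hr t ht k l

omit [DecidableEq J] [DecidableEq ι] [Fintype ι] [FiniteDimensional L V] [Fintype J] in
variable (a) in
/-- connections preserving the flags -/
def IsX (c : Conn a.q) : Prop := ∀ s i, ∀ v ∈ a.F s i, c.δ v ∈ a.F s i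

omit [DecidableEq J] [DecidableEq ι] [Fintype ι] [FiniteDimensional L V] [Fintype J] in
theorem IsX.comb {c c' : Conn a.q} (h : a.IsX c) (h' : a.IsX c') (b : L) :
    a.IsX (comb c c' b) := fun s i v hv =>
  (a.F s i).sub_mem (h s i v hv) ((a.F s i).smul_mem _ (h' s i v hv))

omit [DecidableEq J] [DecidableEq ι] [Fintype ι] [FiniteDimensional L V] in
/-- the pairing with a derivative -/
theorem Good.M_derX (h : a.Good) {c : Conn a.q} (hc : a.IsX c) {x v : J → V} (hx : x ∈ a.K)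
    (hv : ∀ l, v l ∈ a.C l) :
    a.M v (fun l => c.δ (x l)) = - ∑ l, ∑ k, c.d (a.Ω l k) * a.q (v l) (x k) := by
  have h1 := h.M_der (Y := fun _ => 0) hx hv (fun s u v => by simp) c
    (fun s i v hv => by simpa using hc s i v hv)
  simp only [LinearMap.zero_apply, sub_zero] at h1
  rw [h1, Tt]
  simp

omit [DecidableEq J] [DecidableEq ι] [Fintype ι] [FiniteDimensional L V] in
theorem Good.der_perp (h : a.Good) {c : Conn a.q} (hc : a.IsX c) {x : J → V} (hx : x ∈ a.K) :
    (fun l => c.δ (x l)) ∈ a.perp (a.E (pp a.q a.UU)) := by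
  refine mem_perp.mpr ⟨fun l => hc _ _ _ ((mem_K'.mp hx).1 l), fun v hv => ?_⟩
  rw [h.M_derX hc hx fun l => (mem_E.mp hv l).1, neg_eq_zero]
  refine Finset.sum_eq_zero fun l _ => Finset.sum_eq_zero fun k _ => ?_
  rw [h.form.symm, (mem_E.mp hv l).2 _ (mem_UU hx k), mul_zero]

omit [DecidableEq J] [DecidableEq ι] [Fintype ι] [FiniteDimensional L V] in
/-- the derivative is skew on `U` -/
theorem Good.der_skew (h : a.Good) (hU : a.UU ≤ pp a.q a.UU) (c : Conn a.q) {u v : V}
    (hu : u ∈ a.UU) (hv : v ∈ a.UU) : a.q (c.δ u) v = - a.q (c.δ v) u := by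
  have h1 := c.metric u v
  rw [hU hv u hu, map_zero, h.form.symm u (c.δ v)] at h1
  exact eq_neg_of_add_eq_zero_left h1.symm

omit [DecidableEq J] [DecidableEq ι] [Fintype ι] [FiniteDimensional L V] in
/-- **(star).** -/
theorem star {R S : Submodule L V} (hRS : R ≤ S) (hS : S ≤ pp a.q S) (hKS : a.K ≤ a.E S)
    (h5 : a.E (pp a.q R) ⊓ a.perp (a.E (pp a.q R)) ≤ a.E S)
    (h6 : a.perp (a.E (pp a.q S)) = a.E S ⊔ a.perp (a.E (pp a.q R))) {v : J → V}
    (hv1 : v ∈ a.E (pp a.q R)) (hv2 : v ∈ a.perp (a.E (pp a.q a.UU))) : v ∈ a.E S := by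
  have hUS : a.UU ≤ S := fun u hu =>
    UU_induction (a := a) (p := fun u => u ∈ S) S.zero_mem (fun _ _ => S.add_mem)
      (fun _ _ => S.smul_mem _) (fun t ht l => (mem_E.mp (hKS ht) l).2) u hu
  have h7 : v ∈ a.E S ⊔ a.perp (a.E (pp a.q R)) := by
    rw [← h6]
    exact po_anti (E_mono (pp_anti hUS)) hv2
  obtain ⟨e, he, f, hf, rfl⟩ := Submodule.mem_sup.mp h7
  have he' : e ∈ a.E (pp a.q R) := E_mono (hS.trans (pp_anti hRS)) he
  have hf' : f ∈ a.E (pp a.q R) := by
    have := (a.E (pp a.q R)).sub_mem hv1 he'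
    rwa [add_sub_cancel_left] at this
  exact (a.E S).add_mem he (h5 ⟨hf', hf⟩)

/-- **(5a).** -/
theorem Good.five_a (h : a.Good) (h2 : (2 : L) ≠ 0) (hV : a.Versal) (hRi : a.Rich)
    (hN : a.N1sq) (hT : a.TRed) (hK : finrank L a.K = 2)
    (hH : ∀ x ∈ a.K, ∀ y ∈ a.K, ∀ l k, a.q (x l) (y k) = 0) {x : J → V} (hx : x ∈ a.K)
    (hx0 : x ≠ 0) {c : Conn a.q} (hc : a.IsX c)
    (hcx : ∀ l, ∀ u ∈ a.UU, a.q (c.δ (x l)) u = 0) :
    ∀ u ∈ a.UU, ∀ u' ∈ a.UU, a.q (c.δ u) u' = 0 := by
  have hU := U_iso hH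
  set R := Submodule.span L (Set.range x) with hRx
  have hxR : ∀ l, x l ∈ R := fun l => Submodule.subset_span ⟨l, rfl⟩
  have hRU : R ≤ a.UU := by
    rw [hRx, Submodule.span_le]
    rintro _ ⟨k, rfl⟩
    exact mem_UU hx k
  have hR : R ≤ pp a.q R := hRU.trans (hU.trans (pp_anti hRU))
  -- `c` kills `R`
  have hcR : ∀ r ∈ R, ∀ u ∈ a.UU, a.q (c.δ r) u = 0 := by
    intro r hr u hu
    rw [hRx] at hr
    induction hr using Submodule.span_induction with
    | mem r hr =>
      obtain ⟨k, rfl⟩ := hr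
      exact hcx k u hu
    | zero => rw [map_zero, map_zero, LinearMap.zero_apply]
    | add r r' _ _ h3 h4 => rw [map_add, map_add, LinearMap.add_apply, h3, h4, add_zero]
    | smul b r hr h3 =>
      rw [← hRx] at hr
      rw [c.smul, map_add, map_smul, map_smul, LinearMap.add_apply, LinearMap.smul_apply,
        LinearMap.smul_apply, h3, hU hu r (hRU hr), smul_zero, smul_zero, add_zero]
  -- reduction to one more element of the kernel
  have hred : ∀ y ∈ a.K, (∀ b : L, y ≠ b • x) → (∀ l k, a.q (c.δ (y l)) (y k) = 0) →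
      ∀ u ∈ a.UU, ∀ u' ∈ a.UU, a.q (c.δ u) u' = 0 := by
    intro y hy hyx hyy
    have hcoord := exists_coord hK hx hy hx0 hyx
    have e1 : ∀ l, ∀ u' ∈ a.UU, a.q (c.δ (y l)) u' = 0 := by
      intro l
      refine UU_induction (a := a) (p := fun u' => a.q (c.δ (y l)) u' = 0) (map_zero _)
        (fun _ _ h3 h4 => by rw [map_add, h3, h4, add_zero])
        (fun _ _ h3 => by rw [map_smul, h3, smul_zero]) ?_
      intro t ht k
      obtain ⟨α, β, rfl⟩ := hcoord t ht
      rw [Pi.add_apply, Pi.smul_apply, Pi.smul_apply, map_add, map_smul, map_smul, hyy,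
        h.der_skew hU c (mem_UU hy l) (mem_UU hx k), hcx k _ (mem_UU hy l), neg_zero, smul_zero,
        smul_zero, add_zero]
    have e2 := UU_induction (a := a)
      (p := fun u => u ∈ a.UU ∧ ∀ u' ∈ a.UU, a.q (c.δ u) u' = 0)
      ⟨a.UU.zero_mem, fun u' _ => by rw [map_zero, map_zero, LinearMap.zero_apply]⟩
      (fun _ _ h3 h4 => ⟨a.UU.add_mem h3.1 h4.1, fun u' hu' => by
        rw [map_add, map_add, LinearMap.add_apply, h3.2 u' hu', h4.2 u' hu', add_zero]⟩)
      (fun b u h3 => ⟨a.UU.smul_mem b h3.1, fun u' hu' => by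
        rw [c.smul, map_add, map_smul, map_smul, LinearMap.add_apply, LinearMap.smul_apply,
          LinearMap.smul_apply, h3.2 u' hu', hU hu' u h3.1, smul_zero, smul_zero, add_zero]⟩)
      (fun t ht k => ⟨mem_UU ht k, fun u' hu' => by
        obtain ⟨α, β, rfl⟩ := hcoord t ht
        rw [Pi.add_apply, Pi.smul_apply, Pi.smul_apply, map_add, c.smul, c.smul]
        simp only [map_add, map_smul, LinearMap.add_apply, LinearMap.smul_apply]
        rw [hcx k u' hu', e1 k u' hu', hU hu' _ (mem_UU hx k), hU hu' _ (mem_UU hy k)]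
        simp⟩)
    exact fun u hu => (e2 u hu).2
  by_cases hI : ∃ y ∈ a.K, ∃ b, a.Eps R b ∧ (∀ l, y l - b (a.arm l) (x l) ∈ R) ∧ ¬ ∀ l, y l ∈ R
  · obtain ⟨y, hy, b, hb, hyb, hyR⟩ := hI
    have hyx : ∀ b : L, y ≠ b • x := by
      rintro b rfl
      exact hyR fun l => R.smul_mem b (hxR l)
    apply hred y hy hyx
    have hkill : ∀ l, ∀ r ∈ R, a.q (c.δ (y l)) r = 0 := fun l r hr => by
      rw [h.der_skew hU c (mem_UU hy l) (hRU hr), hcR r hr _ (mem_UU hy l), neg_zero]
    have hbU : ∀ s, ∀ r ∈ R, b s r ∈ a.UU := by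
      intro s r hr
      rw [hRx] at hr
      induction hr using Submodule.span_induction with
      | mem r hr =>
        obtain ⟨k, rfl⟩ := hr
        have e1 := a.UU.add_mem (a.UU.sub_mem (mem_UU hy k) (hRU (hyb k)))
          (hRU (hb.comp s (a.arm k) _ (hxR k)))
        convert e1 using 1
        abel
      | zero => rw [map_zero]; exact a.UU.zero_mem
      | add r r' _ _ h3 h4 => rw [map_add]; exact a.UU.add_mem h3 h4
      | smul b r _ h3 => rw [map_smul]; exact a.UU.smul_mem _ h3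
    have hind : ∀ l s s', ∀ r ∈ R, a.q (c.δ (y l)) (b s r) = a.q (c.δ (y l)) (b s' r) := by
      intro l s s' r hr
      have := hkill l _ (hb.comp s s' r hr)
      rwa [map_sub, sub_eq_zero] at this
    have hδC : ∀ l, c.δ (y l) ∈ a.C l := fun l => hc _ _ _ ((mem_K'.mp hy).1 l)
    let z : J → V := fun l => - b (a.arm l) (c.δ (y l))
    have hz : ∀ l, z l ∈ a.C l := fun l => (a.C l).neg_mem (hb.pres l _ (hδC l))
    have hzr : ∀ l s, ∀ r ∈ R, a.q (z l) r = a.q (c.δ (y l)) (b s r) := by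
      intro l s r hr
      show a.q (- b (a.arm l) (c.δ (y l))) r = _
      rw [map_neg, LinearMap.neg_apply, hb.sk, neg_neg]
      exact hind l _ _ r hr
    have hzR : ∀ t ∈ a.E R, a.M t z = 0 := by
      intro t ht
      have ht' := mem_E.mp ht
      rw [h.M_skew, M_apply, neg_eq_zero]
      have e1 : ∀ l, a.q (z l) (om a.Ω t l) =
          ∑ k, a.Ω l k * a.q (c.δ (y l)) (b (a.arm k) (t k)) := by
        intro l
        rw [om, map_sum]
        exact Finset.sum_congr rfl fun k _ => by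
          rw [map_smul, smul_eq_mul, hzr l (a.arm k) _ (ht' k).2]
      simp only [e1]
      have e2 : a.M (fun k => b (a.arm k) (t k)) (fun l => c.δ (y l)) = 0 :=
        (mem_perp.mp (h.der_perp hc hy)).2 _ (mem_E.mpr fun k =>
          ⟨hb.pres k _ (ht' k).1, hU (hbU _ _ (ht' k).2)⟩)
      rw [h.M_skew, M_eq, neg_eq_zero] at e2
      exact e2
    have hτ : ∀ s, ∀ r ∈ R, a.tau s z x r = 0 := by
      intro s r hr
      have e0 : ∀ l, a.q (z l) r = - a.q (y l) (c.δ (b s r)) := by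
        intro l
        rw [hzr l s r hr, h.der_skew hU c (mem_UU hy l) (hbU s r hr), h.form.symm]
      have e1 : ∀ l, a.q (om a.Ω z l) r = - a.q (om a.Ω y l) (c.δ (b s r)) := by
        intro l
        rw [om, om, map_sum, map_sum, LinearMap.sum_apply, LinearMap.sum_apply,
          ← Finset.sum_neg_distrib]
        exact Finset.sum_congr rfl fun k _ => by
          rw [map_smul, map_smul, LinearMap.smul_apply, LinearMap.smul_apply, e0, smul_neg]
      have e2 : a.tau s z x r = - a.tau s y x (c.δ (b s r)) := by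
        rw [tau, tau, ← Finset.sum_neg_distrib]
        exact Finset.sum_congr rfl fun l _ => by rw [e1, e0, neg_smul, neg_smul, neg_add]
      have e3 : ∀ l, a.q (x l) (c.δ (b s r)) = 0 := by
        intro l
        rw [h.form.symm, h.der_skew hU c (hbU s r hr) (mem_UU hx l), hcx l _ (hbU s r hr),
          neg_zero]
      rw [e2, h.F2 hV hy hx, tau, neg_eq_zero]
      refine Finset.sum_eq_zero fun l _ => ?_
      have e4 : a.q (om a.Ω x l) (c.δ (b s r)) = 0 := by
        rw [om, map_sum, LinearMap.sum_apply]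
        exact Finset.sum_eq_zero fun k _ => by
          rw [map_smul, LinearMap.smul_apply, e3, smul_zero]
      rw [e3, e4, zero_smul, zero_smul, add_zero]
    intro l k
    have hZ := h.lemmaZ h2 hV hN hx hxR hR hz hzR hτ l k
    rw [hzr l (a.arm k) _ (hxR k)] at hZ
    have e4 := hkill l _ (hyb k)
    rw [map_sub, hZ, sub_zero] at e4
    exact e4
  · push Not at hI
    obtain ⟨S, h3, h4, h5, h6, h7⟩ := h.exists_g h2 hV hRi hN hT hK hx hx0 (hH x hx x hx) hRx
      (fun y hy b hb hyb => ⟨zeroConn a.q, isD0_zero, fun l => by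
        have e1 : (zeroConn a.q).δ (x l) = 0 := rfl
        rw [e1, zero_sub]
        exact R.neg_mem (hI y hy b hb hyb l)⟩)
    obtain ⟨y, hy, hyx⟩ := exists_compl hK (x := x)
    apply hred y hy hyx
    have hδ : (fun l => c.δ (y l)) ∈ a.E S := by
      apply star h3 h4 h5 h6 h7 _ (h.der_perp hc hy)
      refine mem_E.mpr fun l => ⟨hc _ _ _ ((mem_K'.mp hy).1 l), fun r hr => ?_⟩
      rw [h.form.symm, h.der_skew hU c (mem_UU hy l) (hRU hr), hcR r hr _ (mem_UU hy l),
        neg_zero]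
    intro l k
    exact h4 (mem_E.mp (h5 hy) k).2 _ (mem_E.mp hδ l).2

end endg

end Cf

end Vale.Agent.P182.H96
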