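import Vale.Agent.P182.H96.Cfg

/-!
# The key computation and Lemma Z
-/

namespace Vale.Agent.P182.H96

open Module Matrix Vale.Agent.P182.H533

namespace Cf

section key

variable {L V J ι : Type*} [Field L] [AddCommGroup V] [Module L V] [Fintype J]
  (a : Cf L V J ι)

/-- the pairing of operators with the pair `z, x` -/
def Tt (z x : J → V) (A : ι → End L V) : L :=
  ∑ l, (a.q (om a.Ω z l) (A (a.arm l) (x l)) + a.q (z l) (A (a.arm l) (om a.Ω x l)))

theorem Tt_add (z x : J → V) (A B : ι → End L V) : a.Tt z x (A + B) = a.Tt z x A + a.Tt z x B := by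
  simp only [Tt, Pi.add_apply, LinearMap.add_apply, map_add]
  rw [← Finset.sum_add_distrib]
  exact Finset.sum_congr rfl fun l _ => by ring

theorem Tt_smul (z x : J → V) (b : L) (A : ι → End L V) :
    a.Tt z x (b • A) = b * a.Tt z x A := by
  simp only [Tt, Pi.smul_apply, LinearMap.smul_apply, map_smul, smul_eq_mul]
  rw [Finset.mul_sum]
  exact Finset.sum_congr rfl fun l _ => by ring

theorem Tt_sub (z x : J → V) (A B : ι → End L V) : a.Tt z x (A - B) = a.Tt z x A - a.Tt z x B := by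
  simp only [Tt, Pi.sub_apply, LinearMap.sub_apply, map_sub]
  rw [← Finset.sum_sub_distrib]
  exact Finset.sum_congr rfl fun l _ => by ring

variable {a}

theorem Good.Tt_const (h : a.Good) (z x : J → V) (A : End L V) : a.Tt z x (fun _ => A) = 0 := by
  have h1 : ∑ l, a.q (z l) (A (om a.Ω x l)) = a.M z (fun k => A (x k)) := by
    rw [M_apply]
    exact Finset.sum_congr rfl fun l _ => by rw [map_om A]
  rw [Tt, Finset.sum_add_distrib, h1, h.M_apply']
  ring

/-- **The key computation.** -/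
theorem Good.key [DecidableEq J] (h : a.Good) (c : Conn a.q) {x z : J → V} (hx : x ∈ a.K)
    (hz : ∀ l, z l ∈ a.C l) {R : Submodule L V} (hxR : ∀ l, x l ∈ R)
    (hzR : ∀ t ∈ a.E R, a.M t z = 0) (cs : ι → Conn a.q) (hcs : ∀ s, (cs s).d = c.d)
    (h1 : ∀ l, ∀ v ∈ a.C l, (cs (a.arm l)).δ v ∈ a.C l) (h2 : ∀ s, ∀ v ∈ R, (cs s).δ v ∈ R) :
    ∑ l, ∑ k, c.d (a.Ω l k) * a.q (z l) (x k) +
      a.Tt z x (fun s => dif c (cs s) (hcs s)) = 0 := by
  have hx' := (mem_K.mp hx)
  have e0 : a.M z x = 0 := (mem_K'.mp hx).2 z hz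
  have e1 : c.d (a.M z x) = ∑ l, ∑ k, c.d (a.Ω l k) * a.q (z l) (x k) +
      (a.M (fun l => c.δ (z l)) x + a.M z (fun l => c.δ (x l))) := by
    rw [M_eq, M_eq, M_eq, map_sum, ← Finset.sum_add_distrib, ← Finset.sum_add_distrib]
    refine Finset.sum_congr rfl fun l _ => ?_
    rw [map_sum, ← Finset.sum_add_distrib, ← Finset.sum_add_distrib]
    refine Finset.sum_congr rfl fun k _ => ?_
    rw [c.leib, c.metric]
    ring
  have e2 : a.M (fun l => c.δ (z l)) x =
      ∑ l, a.q (z l) (dif c (cs (a.arm l)) (hcs _) (om a.Ω x l)) := by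
    rw [M_apply]
    refine Finset.sum_congr rfl fun l _ => ?_
    have h3 := dif_sk c (cs (a.arm l)) (hcs _) (z l) (om a.Ω x l)
    have h4 := hx'.2 l _ (h1 l _ (hz l))
    rw [dif_apply, map_sub, LinearMap.sub_apply, h4, zero_sub, neg_inj] at h3
    exact h3
  have e3 : a.M z (fun l => c.δ (x l)) =
      ∑ l, a.q (om a.Ω z l) (dif c (cs (a.arm l)) (hcs _) (x l)) := by
    have h3 : a.M z (fun l => (cs (a.arm l)).δ (x l)) = 0 := by
      rw [h.M_skew, hzR _ (mem_E.mpr fun l => ⟨h1 l _ (hx'.1 l), h2 _ _ (hxR l)⟩), neg_zero]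
    rw [h.M_apply', neg_eq_zero] at h3
    rw [h.M_apply', ← sub_zero (∑ l, a.q (om a.Ω z l) _), ← h3, ← Finset.sum_sub_distrib,
      ← Finset.sum_neg_distrib]
    refine Finset.sum_congr rfl fun l _ => ?_
    rw [dif_apply, map_sub]
    ring
  rw [e0, map_zero, e2, e3] at e1
  rw [Tt, Finset.sum_add_distrib]
  linear_combination -e1

omit [Fintype J] in
/-- common connections of the arms and an isotropic subspace -/
theorem Good.exists_cs [FiniteDimensional L V] (h : a.Good) (h2 : (2 : L) ≠ 0) (c : Conn a.q)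
    {R : Submodule L V} (hR : R ≤ pp a.q R) :
    ∃ cs : ι → Conn a.q, (∀ s, (cs s).d = c.d) ∧
      (∀ s i, ∀ v ∈ a.F s i, (cs s).δ v ∈ a.F s i) ∧ ∀ s, ∀ v ∈ R, (cs s).δ v ∈ R := by
  have key : ∀ s : ι, ∃ c' : Conn a.q, c'.d = c.d ∧
      (∀ i, ∀ v ∈ a.F s i, c'.δ v ∈ a.F s i) ∧ ∀ v ∈ R, c'.δ v ∈ R := fun s => by
    obtain ⟨N, hN⟩ := monotone_stabilizes_iff_noetherian.mpr (inferInstance : IsNoetherian L V)
      ⟨a.F s, h.mono s⟩
    obtain ⟨c', h1, h3, h4⟩ := exists_metric h.form h2 c.leib (a.F s) (Finset.range (N + 1)) (by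
      intro i _ j _
      rcases le_total i j with h1 | h1
      · exact Or.inl (h.mono s h1)
      · exact Or.inr (h.mono s h1)) (fun i _ => h.isoF s i) hR
    refine ⟨c', h1, fun i v hv => ?_, h4⟩
    by_cases hi : i ≤ N
    · exact h3 i (Finset.mem_range.mpr (by omega)) v hv
    · have h5 : a.F s N = a.F s i := hN i (by omega)
      rw [← h5] at hv ⊢
      exact h3 N (Finset.mem_range.mpr (by omega)) v hv
  choose cs h1 h3 h4 using key
  exact ⟨cs, h1, h3, h4⟩

variable (a)

/-- the operator `z G_s x*` -/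
def tau [DecidableEq ι] (s : ι) (z x : J → V) (r : V) : V :=
  ∑ l with a.arm l = s, (a.q (z l) r • om a.Ω x l + a.q (om a.Ω z l) r • x l)

variable {a}

theorem Tt_eq_zero [DecidableEq ι] [Fintype ι] [FiniteDimensional L V] {z x : J → V}
    {R : Submodule L V} (hxR : ∀ l, x l ∈ R) (hτ : ∀ s, ∀ r ∈ R, a.tau s z x r = 0)
    {B : ι → End L V} (hB : ∀ s, ∀ r ∈ R, B s r ∈ R) : a.Tt z x B = 0 := by
  rw [Tt, ← Finset.sum_fiberwise (s := Finset.univ) (g := a.arm)]
  refine Finset.sum_eq_zero fun s _ => ?_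
  let b := Module.finBasis L R
  have hrep : ∀ v : R, (v : V) = ∑ i, b.repr v i • (b i : V) := by
    intro v
    conv_lhs => rw [← b.sum_repr v]
    rw [Submodule.coe_sum]
    rfl
  let X : J → R := fun l => ⟨x l, hxR l⟩
  let U : J → R := fun l => ⟨om a.Ω x l, om_mem hxR l⟩
  have e1 : ∀ l, a.arm l = s →
      a.q (om a.Ω z l) (B (a.arm l) (x l)) + a.q (z l) (B (a.arm l) (om a.Ω x l)) =
      ∑ i, b.repr (a.q (om a.Ω z l) (B s (b i)) • X l + a.q (z l) (B s (b i)) • U l) i := by
    intro l hl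
    rw [hl]
    have h1 : x l = ∑ i, b.repr (X l) i • (b i : V) := hrep (X l)
    have h2 : om a.Ω x l = ∑ i, b.repr (U l) i • (b i : V) := hrep (U l)
    rw [h2]
    conv_lhs => rw [h1]
    simp only [map_sum, map_smul, map_add, Finsupp.add_apply, Finsupp.smul_apply, smul_eq_mul]
    rw [← Finset.sum_add_distrib]
    exact Finset.sum_congr rfl fun i _ => by ring
  have e2 : ∑ l with a.arm l = s, (a.q (om a.Ω z l) (B (a.arm l) (x l)) +
      a.q (z l) (B (a.arm l) (om a.Ω x l))) = ∑ l with a.arm l = s,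
      ∑ i, b.repr (a.q (om a.Ω z l) (B s (b i)) • X l + a.q (z l) (B s (b i)) • U l) i :=
    Finset.sum_congr rfl fun l hl => e1 l (Finset.mem_filter.mp hl).2
  rw [e2, Finset.sum_comm]
  refine Finset.sum_eq_zero fun i _ => ?_
  have h3 := hτ s (B s (b i)) (hB s _ (b i).2)
  have h4 : ∑ l with a.arm l = s, (a.q (om a.Ω z l) (B s (b i)) • X l +
      a.q (z l) (B s (b i)) • U l) = 0 := by
    apply Subtype.ext
    rw [Submodule.coe_sum, Submodule.coe_zero, ← h3, tau]
    refine Finset.sum_congr rfl fun l _ => ?_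
    show a.q (om a.Ω z l) (B s (b i)) • x l + a.q (z l) (B s (b i)) • om a.Ω x l = _
    rw [add_comm]
  rw [← Finsupp.finsetSum_apply, ← map_sum, h4, map_zero]
  rfl

theorem tau_eq_zero_of_Tt [DecidableEq ι] [Fintype ι] (h : a.Good) {z x : J → V}
    {R : Submodule L V} (hxR : ∀ l, x l ∈ R) (hR : R ≤ pp a.q R)
    (hT : ∀ B : ι → End L V, (∀ s, IsSk a.q (B s)) → (∀ s, ∀ v ∈ pp a.q R, B s v ∈ R) →
      a.Tt z x B = 0) : ∀ s, ∀ r ∈ R, a.tau s z x r = 0 := by
  intro s r hr
  apply h.form.nondeg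
  intro g
  have h0' : ∀ v ∈ pp a.q R, wd a.q g r v = a.q g v • r := by
    intro v hv
    rw [wd_apply, hv r hr, zero_smul, sub_zero]
  have h0 : ∀ v ∈ R, wd a.q g r v = a.q g v • r := fun v hv => h0' v (hR hv)
  have h1 := hT (fun s' => if s' = s then wd a.q g r else 0) (fun s' => by
    split_ifs
    · exact wd_sk h.form g r
    · intro u v; simp) (fun s' v hv => by
    split_ifs
    · rw [h0' v hv]; exact R.smul_mem _ hr
    · exact R.zero_mem)
  rw [h.form.symm, tau, map_sum, ← h1, Tt, Finset.sum_filter]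
  refine Finset.sum_congr rfl fun l _ => ?_
  by_cases hl : a.arm l = s
  · rw [if_pos hl, if_pos hl, h0 _ (hxR l), h0 _ (om_mem hxR l), map_add, map_smul, map_smul,
      map_smul, map_smul]
    simp only [smul_eq_mul]
    ring
  · rw [if_neg hl, if_neg hl]
    simp

end key

section lemZ

theorem sym_of_skew {L J : Type*} [Field L] [Fintype J] [DecidableEq J] {g : J → J → L}
    (h : ∀ η : J → J → L, (∀ i j, η i j = - η j i) → ∑ i, ∑ j, η i j * g i j = 0) (l k : J) :
    g l k = g k l := by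
  have h1 := h (fun i j => (if i = l then if j = k then 1 else 0 else 0) -
    (if i = k then if j = l then 1 else 0 else 0)) (by
      intro i j
      rw [neg_sub]
      congr 1 <;> · split_ifs <;> rfl)
  simp only [sub_mul, ite_mul, one_mul, zero_mul, Finset.sum_sub_distrib, Finset.sum_ite_eq',
    Finset.mem_univ, if_true, Finset.sum_ite_irrel, Finset.sum_const_zero] at h1
  exact sub_eq_zero.mp h1

variable {L V J ι : Type*} [Field L] [AddCommGroup V] [Module L V] [Fintype J]
  {a : Cf L V J ι} [DecidableEq J] [DecidableEq ι] [Fintype ι] [FiniteDimensional L V]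

omit [Fintype ι] [FiniteDimensional L V] in
theorem Gm_sum_eq (a : Cf L V J ι) (s : ι) (u v : J → L) :
    ∑ l, ∑ k, u l * Gm a.arm a.Ω s l k * v k =
      ∑ l with a.arm l = s, u l * om a.Ω v l - ∑ k with a.arm k = s, (∑ l, a.Ω l k * u l) * v k := by
  rw [Finset.sum_filter, Finset.sum_filter]
  have h1 : ∀ l k, u l * Gm a.arm a.Ω s l k * v k =
      (if a.arm l = s then u l * (a.Ω l k * v k) else 0) -
      (if a.arm k = s then a.Ω l k * u l * v k else 0) := by
    intro l k
    rw [Gm_apply]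
    split_ifs <;> ring
  simp only [h1, Finset.sum_sub_distrib]
  congr 1
  · refine Finset.sum_congr rfl fun l _ => ?_
    by_cases hl : a.arm l = s
    · simp only [if_pos hl]
      rw [← Finset.mul_sum]
      rfl
    · simp only [if_neg hl, Finset.sum_const_zero]
  · rw [Finset.sum_comm]
    refine Finset.sum_congr rfl fun k _ => ?_
    by_cases hk : a.arm k = s
    · simp only [if_pos hk]
      rw [Finset.sum_mul]
    · simp only [if_neg hk, Finset.sum_const_zero]

omit [Fintype ι] [FiniteDimensional L V] in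
theorem Good.Gm_sum_eq' (h : a.Good) (s : ι) (u v : J → L) :
    ∑ l, ∑ k, u l * Gm a.arm a.Ω s l k * v k =
      ∑ l with a.arm l = s, (u l * om a.Ω v l + om a.Ω u l * v l) := by
  rw [Gm_sum_eq, Finset.sum_add_distrib, sub_eq_add_neg, ← Finset.sum_neg_distrib]
  congr 1
  refine Finset.sum_congr rfl fun k _ => ?_
  rw [← neg_mul, ← Finset.sum_neg_distrib, om]
  congr 1
  refine Finset.sum_congr rfl fun l _ => ?_
  rw [h.skew l k, smul_eq_mul]
  ring

omit [Fintype ι] [FiniteDimensional L V] in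
/-- consequence of `N1sq` for Gram matrices -/
theorem Good.gram_zero (h : a.Good) (hN : a.N1sq) {x z : J → V} (hx : x ∈ a.K)
    (hz : ∀ l, z l ∈ a.C l) (hsym : ∀ l k, a.q (z l) (x k) = a.q (z k) (x l))
    (hG : ∀ s i j, ∑ l with a.arm l = s, (a.q (x i) (z l) * a.q (z j) (om a.Ω x l) +
      a.q (x i) (om a.Ω z l) * a.q (z j) (x l)) = 0) : ∀ l k, a.q (z l) (x k) = 0 := by
  have hx' := mem_K.mp hx
  have h1 := hN (Matrix.of fun l k => a.q (z l) (x k)) (fun l k => hsym l k) (fun l k hlk => by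
    show a.q (z l) (x k) = 0
    rcases h.chain l k hlk with h1 | h1
    · exact h.iso k (hx'.1 k) _ (h1 (hz l))
    · exact h.iso l (h1 (hx'.1 k)) _ (hz l)) (fun l k hlk hle => by
    show ∑ j, a.q (z l) (x j) * a.Ω k j = 0
    have h2 := hx'.2 k (z l) (hle (hz l))
    rw [om, map_sum] at h2
    rw [← h2]
    exact Finset.sum_congr rfl fun j _ => by rw [map_smul, smul_eq_mul, mul_comm]) (fun s i j => by
    show ∑ l, ∑ k, a.q (z i) (x l) * Gm a.arm a.Ω s l k * a.q (z k) (x j) = 0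
    have h3 : ∀ l k, a.q (z i) (x l) * Gm a.arm a.Ω s l k * a.q (z k) (x j) =
        a.q (x i) (z l) * Gm a.arm a.Ω s l k * a.q (z j) (x k) := by
      intro l k
      rw [hsym i l, h.form.symm (z l), hsym k j]
    simp only [h3]
    rw [h.Gm_sum_eq', ← hG s i j]
    refine Finset.sum_congr rfl fun l _ => ?_
    rw [map_om (a.q (z j)), map_om (a.q (x i))])
  intro l k
  exact congrFun (congrFun h1 l) k

/-- **Lemma Z.** -/
theorem Good.lemmaZ (h : a.Good) (h2 : (2 : L) ≠ 0) (hV : a.Versal) (hN : a.N1sq) {x z : J → V}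
    (hx : x ∈ a.K) {R : Submodule L V} (hxR : ∀ l, x l ∈ R) (hR : R ≤ pp a.q R)
    (hz : ∀ l, z l ∈ a.C l) (hzR : ∀ t ∈ a.E R, a.M t z = 0)
    (hτ : ∀ s, ∀ r ∈ R, a.tau s z x r = 0) : ∀ l k, a.q (z l) (x k) = 0 := by
  have hsym : ∀ l k, a.q (z l) (x k) = a.q (z k) (x l) := by
    apply sym_of_skew (g := fun l k => a.q (z l) (x k))
    intro η hη
    obtain ⟨c, hc1, hc2⟩ := hV (fun _ => 0) (fun s u v => by simp) η hη
    obtain ⟨cs, h3, h4, h5⟩ := h.exists_cs h2 c hR
    have hkey := h.key c hx hz hxR hzR cs h3 (fun l => h4 _ _) h5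
    obtain ⟨c0, g1, -, g3⟩ := exists_metric h.form h2 c.leib (fun _ : ℕ => (⊥ : Submodule L V)) ∅
      (fun i hi => absurd hi (Finset.notMem_empty i))
      (fun i hi => absurd hi (Finset.notMem_empty i)) hR
    have h6 : a.Tt z x (fun s => dif c (cs s) (h3 s)) = 0 := by
      have h7 := h.Tt_const z x (dif c c0 g1)
      have h8 : a.Tt z x ((fun s => dif c (cs s) (h3 s)) - fun _ => dif c c0 g1) = 0 := by
        apply Tt_eq_zero hxR hτ
        intro s r hr
        show dif c (cs s) (h3 s) r - dif c c0 g1 r ∈ R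
        rw [dif_apply, dif_apply, sub_sub_sub_cancel_right]
        exact R.sub_mem (h5 s r hr) (g3 r hr)
      rw [Tt_sub, h7, sub_zero] at h8
      exact h8
    rw [h6, add_zero] at hkey
    rw [← hkey]
    exact Finset.sum_congr rfl fun l _ => Finset.sum_congr rfl fun k _ => by rw [hc2]
  apply h.gram_zero hN hx hz hsym
  intro s i j
  have h3 := congrArg (a.q (z j)) (hτ s (x i) (hxR i))
  rw [map_zero, tau, map_sum] at h3
  rw [← h3]
  refine Finset.sum_congr rfl fun l _ => ?_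
  rw [map_add, map_smul, map_smul, smul_eq_mul, smul_eq_mul, h.form.symm (x i) (z l),
    h.form.symm (x i) (om a.Ω z l)]

end lemZ

end Cf

end Vale.Agent.P182.H96
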