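import Vale.Agent.P182.H588.Ctx
import Vale.Agent.P182.H250.Exact
import Vale.Agent.P182.H250.Words

/-!
# Families, relations with an error, and blocks
-/

namespace Vale.Agent.P182.H96.OE

open Module Matrix Vale.Agent.P182.H533 Vale.Agent.P182.H922 Vale.Agent.P182.B1
  Vale.Agent.P182.H578 Vale.Agent.P182.H588 Vale.Agent.P182.H96.Tl Vale.Agent.P182.H250

section base

variable {L V J : Type*} [Field L] [AddCommGroup V] [Module L V] [Fintype J] [DecidableEq J]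
  {𝒟 : Cfg L V J}

/-- the functional `l ↦ q (r l) v` -/
def rs (𝒟 : Cfg L V J) (r : J → V) : V →ₗ[L] (J → L) := LinearMap.pi fun l => 𝒟.q (r l)

omit [DecidableEq J] in
theorem rs_apply (r : J → V) (v : V) (l : J) : rs 𝒟 r v l = 𝒟.q (r l) v := rfl

theorem ad_Tt (r : J → V) : ad 𝒟.q (Tt L r) = rs 𝒟 r := by
  refine LinearMap.ext fun v => funext fun l => ?_
  rw [ad_apply, Tt_single, rs_apply]

theorem opr_rs (φ ψ : J → V) (a : Fin 3) (v : V) :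
    opr 𝒟.q (Tt L φ) (Gm 𝒟.arm 𝒟.Ω a) (Tt L ψ) v =
      Tt L φ (Gm 𝒟.arm 𝒟.Ω a *ᵥ rs 𝒟 ψ v) := by
  rw [opr_apply, ad_Tt]

omit [DecidableEq J] in
theorem rs_add (r r' : J → V) : rs 𝒟 (r + r') = rs 𝒟 r + rs 𝒟 r' := by
  refine LinearMap.ext fun v => funext fun l => ?_
  rw [LinearMap.add_apply, Pi.add_apply, rs_apply, rs_apply, rs_apply, Pi.add_apply, map_add,
    LinearMap.add_apply]

omit [DecidableEq J] in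
theorem rs_smul (c : L) (r : J → V) : rs 𝒟 (c • r) = c • rs 𝒟 r := by
  refine LinearMap.ext fun v => funext fun l => ?_
  rw [LinearMap.smul_apply, Pi.smul_apply, rs_apply, rs_apply, Pi.smul_apply, map_smul,
    LinearMap.smul_apply]

omit [DecidableEq J] in
theorem rs_zero : rs 𝒟 (0 : J → V) = 0 := by
  refine LinearMap.ext fun v => funext fun l => ?_
  rw [rs_apply, Pi.zero_apply, map_zero, LinearMap.zero_apply, LinearMap.zero_apply,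
    Pi.zero_apply]

omit [DecidableEq J] in
theorem rs_sum {ι : Type*} (s : Finset ι) (r : ι → J → V) (c : ι → L) :
    rs 𝒟 (∑ m ∈ s, c m • r m) = ∑ m ∈ s, c m • rs 𝒟 (r m) := by
  classical
  induction s using Finset.induction_on with
  | empty => rw [Finset.sum_empty, Finset.sum_empty, rs_zero]
  | insert a s ha ih => rw [Finset.sum_insert ha, Finset.sum_insert ha, rs_add, rs_smul, ih]

/-- the relations between `τ` and `r`, with an error `β` -/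
structure RelB (𝒟 : Cfg L V J) (τ : J → V) (β : Fin 3 → End L V) (r : J → V) : Prop where
  f1 : ∀ l k, 𝒟.q (τ l) (r k) = 𝒟.q (r l) (τ k)
  f2 : ∀ s, opr 𝒟.q (Tt L τ) (Gm 𝒟.arm 𝒟.Ω s) (Tt L r) -
    opr 𝒟.q (Tt L r) (Gm 𝒟.arm 𝒟.Ω s) (Tt L τ) = Res 𝒟 τ s * β s - β s * Res 𝒟 τ s

theorem rs_comm {τ r : J → V} (h : ∀ l k, 𝒟.q (τ l) (r k) = 𝒟.q (r l) (τ k)) (y : J → L) :
    rs 𝒟 r (Tt L τ y) = rs 𝒟 τ (Tt L r y) := by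
  funext l
  rw [rs_apply, rs_apply, Tt_apply, Tt_apply, map_sum, map_sum]
  refine Finset.sum_congr rfl fun k _ => ?_
  rw [map_smul, map_smul, h]

theorem RelB.rs_Res {τ r : J → V} {β : Fin 3 → End L V} (h : RelB 𝒟 τ β r) (a : Fin 3) (v : V) :
    rs 𝒟 r (Res 𝒟 τ a v) =
      rs 𝒟 τ (opr 𝒟.q (Tt L r) (Gm 𝒟.arm 𝒟.Ω a) (Tt L τ) v) := by
  show rs 𝒟 r (opr 𝒟.q (Tt L τ) (Gm 𝒟.arm 𝒟.Ω a) (Tt L τ) v) = _
  rw [opr_rs, opr_rs, rs_comm h.f1]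

theorem RelB.opr_eq {τ r : J → V} {β : Fin 3 → End L V} (h : RelB 𝒟 τ β r) (a : Fin 3) (v : V) :
    opr 𝒟.q (Tt L r) (Gm 𝒟.arm 𝒟.Ω a) (Tt L τ) v =
      opr 𝒟.q (Tt L τ) (Gm 𝒟.arm 𝒟.Ω a) (Tt L r) v -
        (Res 𝒟 τ a (β a v) - β a (Res 𝒟 τ a v)) := by
  have h1 := LinearMap.congr_fun (h.f2 a) v
  rw [LinearMap.sub_apply, LinearMap.sub_apply, Module.End.mul_apply,
    Module.End.mul_apply] at h1
  rw [← h1]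
  abel

/-- `X_a S_b = S_a X_b^*` -/
theorem RelB.opr_Res {τ r : J → V} {β : Fin 3 → End L V} (h : RelB 𝒟 τ β r) (a b : Fin 3)
    (v : V) : opr 𝒟.q (Tt L τ) (Gm 𝒟.arm 𝒟.Ω a) (Tt L r) (Res 𝒟 τ b v) =
      Res 𝒟 τ a (opr 𝒟.q (Tt L r) (Gm 𝒟.arm 𝒟.Ω b) (Tt L τ) v) := by
  show _ = opr 𝒟.q (Tt L τ) (Gm 𝒟.arm 𝒟.Ω a) (Tt L τ) _
  rw [opr_rs, h.rs_Res, ← opr_rs]

theorem krel_f1 {u : J → L} (hk : KRel 𝒟.arm 𝒟.q 𝒟.Ω (Tt L '' (Ku 𝒟 u : Set (J → V))))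
    {t t' : J → V} (ht : t ∈ Ku 𝒟 u) (ht' : t' ∈ Ku 𝒟 u) (l k : J) :
    𝒟.q (t l) (t' k) = 𝒟.q (t' l) (t k) := by
  have h1 := hk.F1 _ ⟨t, ht, rfl⟩ _ ⟨t', ht', rfl⟩ (Pi.single l 1) (Pi.single k 1)
  rwa [Tt_single, Tt_single, Tt_single, Tt_single] at h1

theorem krel_swap (hG : 𝒟.Good) {u : J → L}
    (hk : KRel 𝒟.arm 𝒟.q 𝒟.Ω (Tt L '' (Ku 𝒟 u : Set (J → V))))
    {t t' : J → V} (ht : t ∈ Ku 𝒟 u) (ht' : t' ∈ Ku 𝒟 u) (a : Fin 3) (v : V) :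
    opr 𝒟.q (Tt L t) (Gm 𝒟.arm 𝒟.Ω a) (Tt L t') v =
      opr 𝒟.q (Tt L t') (Gm 𝒟.arm 𝒟.Ω a) (Tt L t) v :=
  LinearMap.congr_fun (hk.swap hG.form hG.skew ⟨t, ht, rfl⟩ ⟨t', ht', rfl⟩ a) v

theorem RelB.add_K (hG : 𝒟.Good) {u : J → L}
    (hk : KRel 𝒟.arm 𝒟.q 𝒟.Ω (Tt L '' (Ku 𝒟 u : Set (J → V)))) {τ r z : J → V}
    {β : Fin 3 → End L V} (h : RelB 𝒟 τ β r) (hτ : τ ∈ Ku 𝒟 u) (hz : z ∈ Ku 𝒟 u) :
    RelB 𝒟 τ β (r + z) where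
  f1 l k := by
    rw [Pi.add_apply, Pi.add_apply, map_add, map_add, LinearMap.add_apply, h.f1,
      krel_f1 hk hτ hz]
  f2 s := by
    rw [Tt_add, opr_add_left, opr_add_right, ← h.f2]
    have h1 := krel_swap hG hk hτ hz s
    refine LinearMap.ext fun v => ?_
    simp only [LinearMap.sub_apply, LinearMap.add_apply, h1]
    abel

/-! ### vectors on which `τ^*` is a multiple of `t^*` -/

section eig

variable (hG : 𝒟.Good) {u : J → L}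
  (hk : KRel 𝒟.arm 𝒟.q 𝒟.Ω (Tt L '' (Ku 𝒟 u : Set (J → V))))
  {t τ : J → V} (ht : t ∈ Ku 𝒟 u) (hτ : τ ∈ Ku 𝒟 u)

include hG hk ht hτ

theorem eig_opr {c : L} {w : V} (hw : rs 𝒟 τ w = c • rs 𝒟 t w) (a : Fin 3) :
    opr 𝒟.q (Tt L τ) (Gm 𝒟.arm 𝒟.Ω a) (Tt L t) w = c • Res 𝒟 t a w := by
  rw [krel_swap hG hk hτ ht]
  show _ = c • opr 𝒟.q (Tt L t) (Gm 𝒟.arm 𝒟.Ω a) (Tt L t) w
  rw [opr_rs, opr_rs, hw, Matrix.mulVec_smul, map_smul]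

theorem eig_Tt {c : L} {w : V} (hw : rs 𝒟 τ w = c • rs 𝒟 t w) (a : Fin 3) :
    Tt L τ (Gm 𝒟.arm 𝒟.Ω a *ᵥ rs 𝒟 t w) = c • Res 𝒟 t a w := by
  rw [← opr_rs]
  exact eig_opr hG hk ht hτ hw a

theorem eig_Res {c : L} {w : V} (hw : rs 𝒟 τ w = c • rs 𝒟 t w) (a : Fin 3) :
    Res 𝒟 τ a w = c ^ 2 • Res 𝒟 t a w := by
  show opr 𝒟.q (Tt L τ) (Gm 𝒟.arm 𝒟.Ω a) (Tt L τ) w = _
  rw [opr_rs, hw, Matrix.mulVec_smul, map_smul, eig_Tt hG hk ht hτ hw, smul_smul, pow_two]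

end eig

theorem opr_eig {r t τ : J → V} {c : L} {w : V} (hw : rs 𝒟 τ w = c • rs 𝒟 t w) (a : Fin 3) :
    opr 𝒟.q (Tt L r) (Gm 𝒟.arm 𝒟.Ω a) (Tt L τ) w =
      c • opr 𝒟.q (Tt L r) (Gm 𝒟.arm 𝒟.Ω a) (Tt L t) w := by
  rw [opr_rs, opr_rs, hw, Matrix.mulVec_smul, map_smul]

end base

end Vale.Agent.P182.H96.OE
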