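import Vale.Agent.P182.H96.OffA

/-!
# Chains

Formal chains `T n`, and the operators `β = T(x) + T(x)†`, `T(x) = ∑ x ^ n T n`.
-/

namespace Vale.Agent.P182.H96.OE

open Module Matrix Vale.Agent.P182.H533 Vale.Agent.P182.H922 Vale.Agent.P182.B1
  Vale.Agent.P182.H578 Vale.Agent.P182.H588 Vale.Agent.P182.H96.Tl Vale.Agent.P182.H250

section tele

variable {L X : Type*} [Field L] [AddCommGroup X] [Module L X]

/-- telescoping -/
theorem tele_mem (P : Submodule L X) (A B : ℕ → X) (x : L) (K : ℕ) (h0 : B 0 ∈ P)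
    (h : ∀ n, A n - B (n + 1) ∈ P) (hK : B K ∈ P) :
    ∑ n ∈ Finset.range K, x ^ (n + 1) • A n - ∑ n ∈ Finset.range K, x ^ n • B n ∈ P := by
  have e1 : ∑ n ∈ Finset.range K, x ^ (n + 1) • B (n + 1) + B 0 =
      ∑ n ∈ Finset.range K, x ^ n • B n + x ^ K • B K := by
    rw [← Finset.sum_range_succ, Finset.sum_range_succ' (fun n => x ^ n • B n), pow_zero, one_smul]
  have e2 : ∑ n ∈ Finset.range K, x ^ (n + 1) • A n - ∑ n ∈ Finset.range K, x ^ n • B n =
      ∑ n ∈ Finset.range K, x ^ (n + 1) • (A n - B (n + 1)) + (x ^ K • B K - B 0) := by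
    have e3 : x ^ K • B K - B 0 = ∑ n ∈ Finset.range K, x ^ (n + 1) • B (n + 1) -
        ∑ n ∈ Finset.range K, x ^ n • B n := by
      rw [sub_eq_sub_iff_add_eq_add, add_comm, ← e1]
    rw [e3, ← add_sub_assoc, ← Finset.sum_add_distrib]
    congr 1
    refine Finset.sum_congr rfl fun n _ => ?_
    rw [← smul_add, sub_add_cancel]
  rw [e2]
  exact add_mem (sum_mem fun n _ => P.smul_mem _ (h n)) (sub_mem (P.smul_mem _ hK) h0)

end tele

section dg

variable {L V : Type*} [Field L] [AddCommGroup V] [Module L V] [FiniteDimensional L V]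
  {q : V →ₗ[L] V →ₗ[L] L}

/-- the adjoint -/
noncomputable def dg (hq : IsForm q) (T : End L V) : End L V :=
  (hq.exists_end (q.compl₂ T)).choose

theorem q_dg (hq : IsForm q) (T : End L V) (v w : V) : q (dg hq T v) w = q v (T w) :=
  (hq.exists_end (q.compl₂ T)).choose_spec v w

theorem q_dg' (hq : IsForm q) (T : End L V) (v w : V) : q v (dg hq T w) = q (T v) w := by
  rw [hq.symm, q_dg, hq.symm]

theorem dg_eq (hq : IsForm q) {T T' : End L V} (h : ∀ v w, q (T' v) w = q v (T w)) :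
    dg hq T = T' :=
  LinearMap.ext fun v => hq.ext fun w => by rw [q_dg, h]

theorem dg_zero (hq : IsForm q) : dg hq (0 : End L V) = 0 :=
  dg_eq hq fun v w => by simp

theorem dg_mem (hq : IsForm q) {T : End L V} {U : Submodule L V}
    (h : ∀ v, (∀ w ∈ U, q v w = 0) → T v = 0) (v : V) : dg hq T v ∈ U := by
  apply perp_perp_le hq U
  intro w hw
  rw [q_dg, h w hw, map_zero]

omit [FiniteDimensional L V] in
theorem q_right (hq : IsForm q) {v : V} (h : ∀ w, q w v = 0) : v = 0 :=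
  hq.nondeg _ fun w => by rw [hq.symm]; exact h w

/-- the adjoint kills the orthogonal complement of the range -/
theorem dg_kill (hq : IsForm q) {T : End L V} {U : Submodule L V} (h : ∀ v, T v ∈ U) (v : V)
    (hv : ∀ w ∈ U, q v w = 0) : dg hq T v = 0 :=
  hq.nondeg _ fun w => by rw [q_dg]; exact hv _ (h w)

theorem dg_sum (hq : IsForm q) {ι : Type*} (s : Finset ι) (c : ι → L) (T : ι → End L V) :
    dg hq (∑ n ∈ s, c n • T n) = ∑ n ∈ s, c n • dg hq (T n) :=
  dg_eq hq fun v w => by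
    simp only [LinearMap.sum_apply, LinearMap.smul_apply, map_sum, map_smul, q_dg]

end dg

section chain

variable {L V : Type*} [Field L] [AddCommGroup V] [Module L V] [FiniteDimensional L V]
  {q : V →ₗ[L] V →ₗ[L] L}

omit [FiniteDimensional L V] in
/-- **Formal chains** in `Ui ⊗ Uj`. -/
structure FChain (q : V →ₗ[L] V →ₗ[L] L) (S : Fin 3 → End L V) (W I Ui Uj : Submodule L V)
    (T : ℕ → Fin 3 → End L V) (M : ℕ) : Prop where
  mem : ∀ n a v, T n a v ∈ Ui
  kill : ∀ n a v, (∀ w ∈ Uj, q v w = 0) → T n a v = 0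
  top : ∀ n, M < n → T n = 0
  zero : ∀ v, ∑ a, T 0 a (S a v) = 0
  step : ∀ n v, ∑ a, S a (T n a v) = ∑ a, T (n + 1) a (S a v)
  comm0 : ∀ a, ∀ w ∈ W, T 0 a (S a w) ∈ I
  comm : ∀ n a, ∀ w ∈ W, S a (T n a w) - T (n + 1) a (S a w) ∈ I

/-- the value of the chain at `x` -/
def Tx (T : ℕ → Fin 3 → End L V) (M : ℕ) (x : L) (a : Fin 3) : End L V :=
  ∑ n ∈ Finset.range (M + 1), x ^ n • T n a

omit [FiniteDimensional L V] in
theorem Tx_apply (T : ℕ → Fin 3 → End L V) (M : ℕ) (x : L) (a : Fin 3) (v : V) :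
    Tx T M x a v = ∑ n ∈ Finset.range (M + 1), x ^ n • T n a v := by
  rw [Tx, LinearMap.sum_apply]
  rfl

variable {S : Fin 3 → End L V} {W I Ui Uj : Submodule L V} {T : ℕ → Fin 3 → End L V} {M : ℕ}

omit [FiniteDimensional L V] in
theorem FChain.Tx_mem (h : FChain q S W I Ui Uj T M) (x : L) (a : Fin 3) (v : V) :
    Tx T M x a v ∈ Ui := by
  rw [Tx_apply]
  exact sum_mem fun n _ => Ui.smul_mem _ (h.mem n a v)

omit [FiniteDimensional L V] in
theorem FChain.Tx_kill (h : FChain q S W I Ui Uj T M) (x : L) (a : Fin 3) (v : V)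
    (hv : ∀ w ∈ Uj, q v w = 0) : Tx T M x a v = 0 := by
  rw [Tx_apply]
  exact Finset.sum_eq_zero fun n _ => by rw [h.kill n a v hv, smul_zero]

omit [FiniteDimensional L V] in
theorem smul_Tx (T : ℕ → Fin 3 → End L V) (M : ℕ) (x : L) (a : Fin 3) (v : V) (f : End L V) :
    x • f (Tx T M x a v) = ∑ n ∈ Finset.range (M + 1), x ^ (n + 1) • f (T n a v) := by
  rw [Tx_apply, map_sum, Finset.smul_sum]
  refine Finset.sum_congr rfl fun n _ => ?_
  rw [map_smul, smul_smul, pow_succ']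

omit [FiniteDimensional L V] in
theorem FChain.Tx_sum (h : FChain q S W I Ui Uj T M) (x : L) (v : V) :
    ∑ a, (x • S a (Tx T M x a v) - Tx T M x a (S a v)) = 0 := by
  have h1 := tele_mem (⊥ : Submodule L V) (fun n => ∑ a, S a (T n a v))
    (fun n => ∑ a, T n a (S a v)) x (M + 1) (by rw [h.zero]; exact zero_mem _)
    (fun n => by rw [h.step, sub_self]; exact zero_mem _)
    (by
      rw [h.top (M + 1) (Nat.lt_succ_self M)]
      simp)
  rw [Submodule.mem_bot] at h1
  rw [← h1, Finset.sum_sub_distrib]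
  congr 1
  · rw [Finset.sum_congr rfl fun a _ => smul_Tx T M x a v (S a), Finset.sum_comm]
    exact Finset.sum_congr rfl fun n _ => by rw [Finset.smul_sum]
  · rw [Finset.sum_congr rfl fun a _ => Tx_apply T M x a (S a v), Finset.sum_comm]
    exact Finset.sum_congr rfl fun n _ => by rw [Finset.smul_sum]

omit [FiniteDimensional L V] in
theorem FChain.Tx_comm (h : FChain q S W I Ui Uj T M) (x : L) (a : Fin 3) {w : V} (hw : w ∈ W) :
    x • S a (Tx T M x a w) - Tx T M x a (S a w) ∈ I := by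
  have h1 := tele_mem I (fun n => S a (T n a w)) (fun n => T n a (S a w)) x (M + 1)
    (h.comm0 a w hw) (fun n => h.comm n a w hw) (by
      rw [h.top (M + 1) (Nat.lt_succ_self M)]
      exact zero_mem _)
  rwa [smul_Tx, Tx_apply]

/-- the operators `β` -/
noncomputable def bt (hq : IsForm q) (T : ℕ → Fin 3 → End L V) (M : ℕ) (x : L) (a : Fin 3) :
    End L V := Tx T M x a + dg hq (Tx T M x a)

theorem bt_SA (hq : IsForm q) (x : L) (a : Fin 3) : IsSA q (bt hq T M x a) := by
  intro v w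
  rw [bt, LinearMap.add_apply, LinearMap.add_apply, map_add, map_add, LinearMap.add_apply, q_dg,
    q_dg', add_comm]

theorem FChain.bt_mem (hq : IsForm q) (h : FChain q S W I Ui Uj T M) (hi : Ui ≤ W) (hj : Uj ≤ W)
    (x : L) (a : Fin 3) (v : V) : bt hq T M x a v ∈ W := by
  rw [bt, LinearMap.add_apply]
  exact add_mem (hi (h.Tx_mem x a v)) (hj (dg_mem hq (h.Tx_kill x a) v))

/-- the situation at a base point: `R a` is `x S a` on `Ui` and `S a` on `Uj` -/
structure AtBase (q : V →ₗ[L] V →ₗ[L] L) (S : Fin 3 → End L V) (Ui Uj : Submodule L V) (x : L)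
    (R : Fin 3 → End L V) : Prop where
  saS : ∀ a, IsSA q (S a)
  saR : ∀ a, IsSA q (R a)
  onI : ∀ a, ∀ w ∈ Ui, R a w = x • S a w
  onJ : ∀ a, ∀ w ∈ Uj, R a w = S a w

variable {R : Fin 3 → End L V} {x : L}

omit [FiniteDimensional L V] in
theorem AtBase.T_R (hq : IsForm q) (hB : AtBase q S Ui Uj x R) {A : End L V}
    (hA : ∀ v, (∀ w ∈ Uj, q v w = 0) → A v = 0) (a : Fin 3) (v : V) : A (R a v) = A (S a v) := by
  rw [← sub_eq_zero, ← map_sub]
  apply hA
  intro w hw
  rw [map_sub, LinearMap.sub_apply, hB.saR a, hB.saS a, hB.onJ a w hw, sub_self]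

omit [FiniteDimensional L V] in
theorem AtBase.T_R' (hq : IsForm q) (hB : AtBase q S Ui Uj x R) {A : End L V}
    (hA : ∀ v, (∀ w ∈ Ui, q v w = 0) → A v = 0) (a : Fin 3) (v : V) :
    A (R a v) = x • A (S a v) := by
  rw [← map_smul, ← sub_eq_zero, ← map_sub]
  apply hA
  intro w hw
  rw [map_sub, LinearMap.sub_apply, map_smul, LinearMap.smul_apply, hB.saR a, hB.saS a,
    hB.onI a w hw, map_smul, sub_self]

/-- the commutator of `T(x)` with `R` -/
theorem FChain.NT (hq : IsForm q) (h : FChain q S W I Ui Uj T M) (hB : AtBase q S Ui Uj x R)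
    (a : Fin 3) (v : V) : R a (Tx T M x a v) - Tx T M x a (R a v) =
      x • S a (Tx T M x a v) - Tx T M x a (S a v) := by
  rw [hB.onI a _ (h.Tx_mem x a v), hB.T_R hq (h.Tx_kill x a)]

theorem FChain.bt_sum (hq : IsForm q) (h : FChain q S W I Ui Uj T M)
    (hB : AtBase q S Ui Uj x R) :
    ∑ a, (R a * bt hq T M x a - bt hq T M x a * R a) = 0 := by
  refine LinearMap.ext fun v => hq.ext fun w => ?_
  rw [LinearMap.sum_apply, LinearMap.zero_apply, map_zero, LinearMap.zero_apply, map_sum,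
    LinearMap.sum_apply]
  have h1 : ∀ a, q ((R a * bt hq T M x a - bt hq T M x a * R a) v) w =
      q (x • S a (Tx T M x a v) - Tx T M x a (S a v)) w -
        q v (x • S a (Tx T M x a w) - Tx T M x a (S a w)) := by
    intro a
    rw [← h.NT hq hB, ← h.NT hq hB, LinearMap.sub_apply, Module.End.mul_apply,
      Module.End.mul_apply, bt, LinearMap.add_apply, LinearMap.add_apply]
    simp only [map_add, map_sub, LinearMap.add_apply, LinearMap.sub_apply]
    rw [q_dg, hB.saR a (dg hq _ v), q_dg, hB.saR a v]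
    ring
  rw [Finset.sum_congr rfl fun a _ => h1 a, Finset.sum_sub_distrib, ← LinearMap.sum_apply,
    ← map_sum, h.Tx_sum, map_zero, LinearMap.zero_apply, ← map_sum, h.Tx_sum, map_zero, sub_zero]

theorem FChain.bt_comm (hq : IsForm q) (h : FChain q S W I Ui Uj T M)
    (hB : AtBase q S Ui Uj x R) (hi : Ui ≤ W) (hj : Uj ≤ W) (hRW : ∀ a, ∀ w ∈ W, R a w ∈ W)
    (hI : ∀ v, v ∈ I ↔ v ∈ W ∧ ∀ w ∈ W, q v w = 0) (a : Fin 3) {v : V} (hv : v ∈ W) :
    R a (bt hq T M x a v) - bt hq T M x a (R a v) ∈ I := by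
  rw [hI]
  refine ⟨sub_mem (hRW a _ (h.bt_mem hq hi hj x a v)) (h.bt_mem hq hi hj x a _), fun w hw => ?_⟩
  have h1 : q (R a (bt hq T M x a v) - bt hq T M x a (R a v)) w =
      q (x • S a (Tx T M x a v) - Tx T M x a (S a v)) w -
        q v (x • S a (Tx T M x a w) - Tx T M x a (S a w)) := by
    rw [← h.NT hq hB, ← h.NT hq hB, bt, LinearMap.add_apply, LinearMap.add_apply]
    simp only [map_add, map_sub, LinearMap.add_apply, LinearMap.sub_apply]
    rw [q_dg, hB.saR a (dg hq _ v), q_dg, hB.saR a v]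
    ring
  rw [h1, ((hI _).1 (h.Tx_comm x a hv)).2 w hw, hq.symm,
    ((hI _).1 (h.Tx_comm x a hw)).2 v hv, sub_zero]

end chain

end Vale.Agent.P182.H96.OE
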