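import Vale.Agent.P182.H96.OffB

/-!
# Blocks, bases and the location of the errors
-/

namespace Vale.Agent.P182.H96.OE

open Module Matrix Vale.Agent.P182.H533 Vale.Agent.P182.H922 Vale.Agent.P182.B1
  Vale.Agent.P182.H578 Vale.Agent.P182.H588 Vale.Agent.P182.H96.Tl Vale.Agent.P182.H250

section up

variable {L U X ι : Type*} [Field L] [AddCommGroup U] [Module L U] [AddCommGroup X] [Module L X]

/-- exactness from below, parity by parity -/
theorem exact_up {A : ι → U →ₗ[L] U} {B : ι → X →ₗ[L] X} {M : ℕ}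
    (hA : ⨆ a, LinearMap.range (A a) = ⊤) (ε : ℕ → U →ₗ[L] X) (f : ℕ → ι → U →ₗ[L] X)
    {R : Set L} (hR : R.Infinite)
    (h : ∀ ρ ∈ R, ∀ a u, ∑ m ∈ Finset.range M, ρ ^ m • ε m (A a u) =
      ∑ m ∈ Finset.range M, ρ ^ (m + 2) • B a (ε m u) + ∑ m ∈ Finset.range (M + 2), ρ ^ m • f m a u)
    {c : ℕ} (hf : ∀ m, m < M → m % 2 = c → ∀ a, f m a = 0) :
    ∀ m, m < M → m % 2 = c → ε m = 0 := by
  have rec1 : ∀ m, m < M → ∀ a u, ε m (A a u) =
      (if 2 ≤ m then B a (ε (m - 2) u) else 0) + f m a u := by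
    intro m hm a u
    have h1 := vcoeff_zero (n := M + 2)
      (fun k => (if k < M then ε k (A a u) else 0) - (if 2 ≤ k then B a (ε (k - 2) u) else 0)
        - f k a u) hR (fun ρ hρ => by
        have h2 := h ρ hρ a u
        have h3 : ∑ k ∈ Finset.range (M + 2), ρ ^ k • (if 2 ≤ k then B a (ε (k - 2) u) else 0) =
            ∑ m ∈ Finset.range M, ρ ^ (m + 2) • B a (ε m u) := by
          rw [Finset.sum_range_succ', Finset.sum_range_succ']
          simp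
        have h4 : ∑ k ∈ Finset.range (M + 2), ρ ^ k • (if k < M then ε k (A a u) else 0) =
            ∑ m ∈ Finset.range M, ρ ^ m • ε m (A a u) := by
          rw [Finset.sum_range_succ, Finset.sum_range_succ]
          rw [if_neg (by omega), if_neg (by omega), smul_zero, smul_zero, add_zero, add_zero]
          exact Finset.sum_congr rfl fun k hk => by rw [if_pos (Finset.mem_range.1 hk)]
        simp only [smul_sub, Finset.sum_sub_distrib]
        rw [h3, h4, h2]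
        abel) m (by omega)
    rw [if_pos hm, sub_sub, sub_eq_zero] at h1
    exact h1
  intro m
  induction m using Nat.strong_induction_on with
  | _ m ih =>
    intro hm hc
    have h5 : ∀ a u, ε m (A a u) = 0 := by
      intro a u
      rw [rec1 m hm, hf m hm hc a, LinearMap.zero_apply, add_zero]
      split_ifs with h6
      · rw [ih (m - 2) (by omega) (by omega) (by omega), LinearMap.zero_apply, map_zero]
      · rfl
    have h6 : (⊤ : Submodule L U) ≤ LinearMap.ker (ε m) := by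
      rw [← hA]
      refine iSup_le fun a => ?_
      rintro _ ⟨u, rfl⟩
      exact h5 a u
    exact LinearMap.ext fun u => h6 (Submodule.mem_top (x := u))

theorem sum_two {Y : Type*} [AddCommMonoid Y] (g : ℕ → Y) (K : ℕ) :
    ∑ m ∈ Finset.range (2 * K), g m = ∑ n ∈ Finset.range K, (g (2 * n) + g (2 * n + 1)) := by
  induction K with
  | zero => simp
  | succ K ih =>
    rw [show 2 * (K + 1) = 2 * K + 1 + 1 by ring, Finset.sum_range_succ, Finset.sum_range_succ, ih,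
      Finset.sum_range_succ, add_assoc]

end up

section blocks

variable {L V J κ : Type*} [Field L] [AddCommGroup V] [Module L V] [FiniteDimensional L V]
  [Fintype J] [DecidableEq J]

/-- block data -/
structure Bks (𝒟 : Cfg L V J) (u : J → L) (t : J → V) (W I : Submodule L V)
    (U : κ → Submodule L V) : Prop where
  hG : 𝒟.Good
  hk : KRel 𝒟.arm 𝒟.q 𝒟.Ω (Tt L '' (Ku 𝒟 u : Set (J → V)))
  ht : t ∈ Ku 𝒟 u
  le : ∀ k, U k ≤ W
  S : ∀ k a, ∀ v ∈ U k, Res 𝒟 t a v ∈ U k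
  span : ∀ k, U k ≤ ⨆ a, (U k).map (Res 𝒟 t a)
  orth : ∀ k k', k ≠ k' → ∀ v ∈ U k, ∀ w ∈ U k', 𝒟.q v w = 0
  hI : ∀ v, v ∈ I ↔ v ∈ W ∧ ∀ w ∈ W, 𝒟.q v w = 0

/-- a base point -/
structure Bas (𝒟 : Cfg L V J) (u : J → L) (t : J → V) (W I : Submodule L V)
    (U : κ → Submodule L V) (τ : J → V) (e : κ → L) : Prop where
  hτ : τ ∈ Ku 𝒟 u
  ev : ∀ k, ∀ w ∈ U k, rs 𝒟 τ w = e k • rs 𝒟 t w
  ne : ∀ k, e k ≠ 0
  W : ∀ a, ∀ w ∈ W, Res 𝒟 τ a w ∈ W
  nil : ∃ N, itI (Res 𝒟 τ) I N = ⊥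

variable {𝒟 : Cfg L V J} {u : J → L} {t : J → V} {W I : Submodule L V} {U : κ → Submodule L V}
  {τ : J → V} {e : κ → L}

theorem Bks.Resx (h : Bks 𝒟 u t W I U) (hb : Bas 𝒟 u t W I U τ e) (k : κ) (a : Fin 3) {w : V}
    (hw : w ∈ U k) : Res 𝒟 τ a w = e k ^ 2 • Res 𝒟 t a w :=
  eig_Res h.hG h.hk h.ht hb.hτ (hb.ev k w hw) a

theorem Bks.saRes (h : Bks 𝒟 u t W I U) (τ : J → V) (a : Fin 3) : IsSA 𝒟.q (Res 𝒟 τ a) :=
  Sop_SA 𝒟.arm h.hG.form (Tt L τ) h.hG.skew a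

theorem Bks.atBase (h : Bks 𝒟 u t W I U) (hb : Bas 𝒟 u t W I U τ e) {i j : κ} (hj : e j = 1) :
    AtBase 𝒟.q (Res 𝒟 t) (U i) (U j) (e i ^ 2) (Res 𝒟 τ) where
  saS a := h.saRes t a
  saR a := h.saRes τ a
  onI a w hw := h.Resx hb i a hw
  onJ a w hw := by rw [h.Resx hb j a hw, hj, one_pow, one_smul]

/-- **The location of the errors.** -/
theorem Bks.err (h : Bks 𝒟 u t W I U) (hb : Bas 𝒟 u t W I U τ e) {β : Fin 3 → End L V}
    {r : J → V} (hr : RelB 𝒟 τ β r) {k : κ} {c : L}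
    (hop : ∀ a, ∀ v ∈ U k,
      opr 𝒟.q (Tt L r) (Gm 𝒟.arm 𝒟.Ω a) (Tt L t) v - c • Res 𝒟 t a v ∈ I)
    {Y : Submodule L V} (hY : ∀ a, ∀ v ∈ Y, Res 𝒟 τ a v ∈ Y)
    (hN : ∀ a, ∀ v ∈ U k, Res 𝒟 τ a (β a v) - β a (Res 𝒟 τ a v) ∈ Y) :
    ∀ v ∈ U k, ∃ y ∈ Y, rs 𝒟 r v = c • rs 𝒟 t v + rs 𝒟 τ y := by
  have hne := hb.ne k
  have hne2 : e k ^ 2 ≠ 0 := pow_ne_zero _ hne
  have hspan : U k ≤ ⨆ a, (U k).map (Res 𝒟 τ a) := by
    refine (h.span k).trans (iSup_mono fun a => ?_)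
    rintro _ ⟨w, hw, rfl⟩
    refine ⟨(e k ^ 2)⁻¹ • w, (U k).smul_mem _ hw, ?_⟩
    rw [map_smul, h.Resx hb k a hw, smul_smul, inv_mul_cancel₀ hne2, one_smul]
  have hRU : ∀ a, ∀ w ∈ U k, Res 𝒟 τ a w ∈ U k := fun a w hw => by
    rw [h.Resx hb k a hw]
    exact (U k).smul_mem _ (h.S k a w hw)
  obtain ⟨N, hNil⟩ := hb.nil
  let Z : Fin 3 → End L V := fun a =>
    opr 𝒟.q (Tt L r) (Gm 𝒟.arm 𝒟.Ω a) (Tt L τ) - (c / e k) • Res 𝒟 τ a
  have hZ : ∀ a, ∀ w ∈ U k, Z a w ∈ I := by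
    intro a w hw
    have h1 : Z a w = e k • (opr 𝒟.q (Tt L r) (Gm 𝒟.arm 𝒟.Ω a) (Tt L t) w -
        c • Res 𝒟 t a w) := by
      show opr 𝒟.q (Tt L r) (Gm 𝒟.arm 𝒟.Ω a) (Tt L τ) w - (c / e k) • Res 𝒟 τ a w = _
      rw [opr_eig (hb.ev k w hw), h.Resx hb k a hw, smul_sub, smul_smul, smul_smul]
      congr 2
      field_simp
    rw [h1]
    exact I.smul_mem _ (hop a w hw)
  have hcomm : ∀ a b, ∀ w ∈ U k, Z a (Res 𝒟 τ b w) - Res 𝒟 τ a (Z b w) ∈ Y := by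
    intro a b w hw
    have h1 : Z a (Res 𝒟 τ b w) - Res 𝒟 τ a (Z b w) =
        -(Res 𝒟 τ a (β a (Res 𝒟 τ b w)) - β a (Res 𝒟 τ a (Res 𝒟 τ b w))) := by
      show opr 𝒟.q (Tt L r) (Gm 𝒟.arm 𝒟.Ω a) (Tt L τ) (Res 𝒟 τ b w) -
        (c / e k) • Res 𝒟 τ a (Res 𝒟 τ b w) -
        Res 𝒟 τ a (opr 𝒟.q (Tt L r) (Gm 𝒟.arm 𝒟.Ω b) (Tt L τ) w - (c / e k) • Res 𝒟 τ b w) = _
      rw [hr.opr_eq a, hr.opr_Res a b, map_sub, map_smul]
      abel
    rw [h1]
    exact Y.neg_mem (hN a _ (hRU b w hw))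
  have hR : ∀ b, ∀ w ∈ U k, rs 𝒟 r (Res 𝒟 τ b w) - (c / e k) • rs 𝒟 τ (Res 𝒟 τ b w) =
      rs 𝒟 τ (Z b w) := by
    intro b w _
    show _ = rs 𝒟 τ (opr 𝒟.q (Tt L r) (Gm 𝒟.arm 𝒟.Ω b) (Tt L τ) w - (c / e k) • Res 𝒟 τ b w)
    rw [hr.rs_Res, map_sub, map_smul]
  intro v hv
  obtain ⟨y, hy, hyv⟩ := err_map hspan hNil hY hZ hcomm hR v hv
  refine ⟨y, hy, ?_⟩
  rw [hyv, hb.ev k v hv, smul_smul, div_mul_cancel₀ _ hne]
  abel

/-- families with located errors -/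
structure RIJ (𝒟 : Cfg L V J) (t : J → V) (I : Submodule L V) (U : κ → Submodule L V) (i j : κ)
    (r : J → V) (c : κ → L) : Prop where
  op : ∀ k a, ∀ v ∈ U k,
    opr 𝒟.q (Tt L r) (Gm 𝒟.arm 𝒟.Ω a) (Tt L t) v - c k • Res 𝒟 t a v ∈ I
  th : ∀ k, k ≠ i → k ≠ j → ∀ v ∈ U k, rs 𝒟 r v = c k • rs 𝒟 t v
  ii : ∀ v ∈ U i, ∃ y ∈ U j ⊓ I, rs 𝒟 r v = c i • rs 𝒟 t v + rs 𝒟 t y
  jj : ∀ v ∈ U j, ∃ y ∈ U i ⊓ I, rs 𝒟 r v = c j • rs 𝒟 t v + rs 𝒟 t y

omit [FiniteDimensional L V] in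
theorem RIJ.zero {i j : κ} : RIJ 𝒟 t I U i j (0 : J → V) 0 where
  op k a v _ := by
    have : Tt L (0 : J → V) = 0 := LinearMap.ext fun x => by simp [Tt_apply]
    rw [this, opr_apply, LinearMap.zero_apply, Pi.zero_apply, zero_smul, sub_zero]
    exact zero_mem _
  th k _ _ v _ := by rw [rs_zero, LinearMap.zero_apply, Pi.zero_apply, zero_smul]
  ii v _ := ⟨0, zero_mem _, by rw [rs_zero, LinearMap.zero_apply, Pi.zero_apply, zero_smul,
    map_zero, add_zero]⟩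
  jj v _ := ⟨0, zero_mem _, by rw [rs_zero, LinearMap.zero_apply, Pi.zero_apply, zero_smul,
    map_zero, add_zero]⟩

omit [FiniteDimensional L V] in
theorem RIJ.add {i j : κ} {r r' : J → V} {c c' : κ → L} (h : RIJ 𝒟 t I U i j r c)
    (h' : RIJ 𝒟 t I U i j r' c') : RIJ 𝒟 t I U i j (r + r') (c + c') where
  op k a v hv := by
    have h1 := add_mem (h.op k a v hv) (h'.op k a v hv)
    convert h1 using 1
    rw [Tt_add, opr_add_left, LinearMap.add_apply, Pi.add_apply, add_smul]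
    abel
  th k h1 h2 v hv := by
    rw [rs_add, LinearMap.add_apply, h.th k h1 h2 v hv, h'.th k h1 h2 v hv, Pi.add_apply, add_smul]
  ii v hv := by
    obtain ⟨y, hy, e1⟩ := h.ii v hv
    obtain ⟨y', hy', e2⟩ := h'.ii v hv
    refine ⟨y + y', add_mem hy hy', ?_⟩
    rw [rs_add, LinearMap.add_apply, e1, e2, Pi.add_apply, add_smul, map_add]
    abel
  jj v hv := by
    obtain ⟨y, hy, e1⟩ := h.jj v hv
    obtain ⟨y', hy', e2⟩ := h'.jj v hv
    refine ⟨y + y', add_mem hy hy', ?_⟩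
    rw [rs_add, LinearMap.add_apply, e1, e2, Pi.add_apply, add_smul, map_add]
    abel

omit [FiniteDimensional L V] in
theorem RIJ.smul {i j : κ} {r : J → V} {c : κ → L} (h : RIJ 𝒟 t I U i j r c) (b : L) :
    RIJ 𝒟 t I U i j (b • r) (b • c) where
  op k a v hv := by
    have h1 := I.smul_mem b (h.op k a v hv)
    convert h1 using 1
    rw [Tt_smul, opr_smul_left, LinearMap.smul_apply, Pi.smul_apply, smul_eq_mul, mul_smul,
      smul_sub]
  th k h1 h2 v hv := by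
    rw [rs_smul, LinearMap.smul_apply, h.th k h1 h2 v hv, Pi.smul_apply, smul_eq_mul, mul_smul]
  ii v hv := by
    obtain ⟨y, hy, e1⟩ := h.ii v hv
    refine ⟨b • y, Submodule.smul_mem _ b hy, ?_⟩
    rw [rs_smul, LinearMap.smul_apply, e1, Pi.smul_apply, smul_eq_mul, mul_smul, map_smul,
      smul_add]
  jj v hv := by
    obtain ⟨y, hy, e1⟩ := h.jj v hv
    refine ⟨b • y, Submodule.smul_mem _ b hy, ?_⟩
    rw [rs_smul, LinearMap.smul_apply, e1, Pi.smul_apply, smul_eq_mul, mul_smul, map_smul,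
      smul_add]

/-- the conditions at the columns -/
def Cc (𝒟 : Cfg L V J) (y : (J → V) × (J → V)) (r : J → V) : Prop :=
  ∀ l, y.1 l - r l ∈ 𝒟.C l ∧ y.2 l - 𝒟.om r l ∈ perp 𝒟.q (𝒟.C l)

omit [FiniteDimensional L V] [DecidableEq J] in
theorem Cc.zero : Cc 𝒟 0 0 := fun l => by
  have : 𝒟.om (0 : J → V) l = 0 := by simp [Cfg.om]
  rw [this]
  simp

omit [FiniteDimensional L V] [DecidableEq J] in
theorem Cc.add {y y' : (J → V) × (J → V)} {r r' : J → V} (h : Cc 𝒟 y r) (h' : Cc 𝒟 y' r') :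
    Cc 𝒟 (y + y') (r + r') := fun l => by
  constructor
  · have := add_mem (h l).1 (h' l).1
    convert this using 1
    rw [Prod.fst_add, Pi.add_apply, Pi.add_apply]
    abel
  · have := add_mem (h l).2 (h' l).2
    convert this using 1
    rw [Prod.snd_add, Pi.add_apply, om_add]
    abel

omit [FiniteDimensional L V] [DecidableEq J] in
theorem Cc.smul {y : (J → V) × (J → V)} {r : J → V} (h : Cc 𝒟 y r) (b : L) :
    Cc 𝒟 (b • y) (b • r) := fun l => by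
  constructor
  · have := Submodule.smul_mem _ b (h l).1
    convert this using 1
    rw [Prod.smul_fst, Pi.smul_apply, Pi.smul_apply, smul_sub]
  · have := Submodule.smul_mem _ b (h l).2
    convert this using 1
    rw [Prod.smul_snd, Pi.smul_apply, om_smul, smul_sub]

omit [FiniteDimensional L V] [DecidableEq J] in
theorem Cc.sum {ι : Type*} (s : Finset ι) (b : ι → L) (y : ι → (J → V) × (J → V))
    (r : ι → J → V) (h : ∀ m ∈ s, Cc 𝒟 (y m) (r m)) :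
    Cc 𝒟 (∑ m ∈ s, b m • y m) (∑ m ∈ s, b m • r m) := by
  classical
  induction s using Finset.induction_on with
  | empty => exact Cc.zero
  | insert a s ha ih =>
    rw [Finset.sum_insert ha, Finset.sum_insert ha]
    exact ((h a (Finset.mem_insert_self a s)).smul (b a)).add
      (ih fun m hm => h m (Finset.mem_insert_of_mem hm))

omit [FiniteDimensional L V] [DecidableEq J] in
theorem Cc.sub_mem_Ku {RR : Submodule L (J → V)} {u : J → L} (hRR : RR ≤ Uu V u)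
    {y : (J → V) × (J → V)} {r r' : J → V} (hr : r ∈ RR) (hr' : r' ∈ RR) (h : Cc 𝒟 y r)
    (h' : Cc 𝒟 y r') : r' - r ∈ Ku 𝒟 u := by
  refine ⟨⟨fun l => ?_, fun l => ?_⟩, hRR (sub_mem hr' hr)⟩
  · have := sub_mem (h l).1 (h' l).1
    convert this using 1
    rw [Pi.sub_apply]
    abel
  · have := sub_mem (h l).2 (h' l).2
    convert this using 1
    have e1 : 𝒟.om (r' - r) l = 𝒟.om r' l - 𝒟.om r l := by
      have : r' - r = r' + (-1 : L) • r := by rw [neg_one_smul, sub_eq_add_neg]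
      rw [this, om_add, om_smul, neg_one_smul, sub_eq_add_neg]
    rw [e1]
    abel

/-- the families of `A` at `τ` -/
def fam (𝒟 : Cfg L V J) (τ : J → V) (A : Fin 3 → End L V) : (J → V) × (J → V) :=
  (fun l => A (𝒟.arm l) (τ l), fun l => A (𝒟.arm l) (𝒟.om τ l))

/-- the submodule of families which are good up to `n` -/
def WIJ (𝒟 : Cfg L V J) (t : J → V) (I : Submodule L V) (U : κ → Submodule L V)
    (RR : Submodule L (J → V)) (i j : κ) : Submodule L ((J → V) × (J → V)) where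
  carrier := {y | ∃ r ∈ RR, ∃ c, RIJ 𝒟 t I U i j r c ∧ Cc 𝒟 y r}
  zero_mem' := ⟨0, zero_mem _, 0, RIJ.zero, Cc.zero⟩
  add_mem' := by
    rintro y y' ⟨r, h1, c, h2, h3⟩ ⟨r', h1', c', h2', h3'⟩
    exact ⟨r + r', add_mem h1 h1', c + c', h2.add h2', h3.add h3'⟩
  smul_mem' := by
    rintro b y ⟨r, h1, c, h2, h3⟩
    exact ⟨b • r, RR.smul_mem b h1, b • c, h2.smul b, h3.smul b⟩

end blocks

end Vale.Agent.P182.H96.OE
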