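import Vale.Agent.P182.H96.OffC

/-!
# Extraction of the coefficients and exactness of the tails
-/

namespace Vale.Agent.P182.H96.OE

open Module Matrix Vale.Agent.P182.H533 Vale.Agent.P182.H922 Vale.Agent.P182.B1
  Vale.Agent.P182.H578 Vale.Agent.P182.H588 Vale.Agent.P182.H96.Tl Vale.Agent.P182.H250

variable {L V J κ : Type*} [Field L] [AddCommGroup V] [Module L V] [FiniteDimensional L V]
  [Fintype J] [DecidableEq J]
  {𝒟 : Cfg L V J} {u : J → L} {t : J → V} {W I : Submodule L V} {U : κ → Submodule L V}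

/-- a tensor which kills `(U k)^⊥`, at a base point -/
theorem kill_base (hG : 𝒟.Good) {τ : J → V} {k : κ} {e : L}
    (hev : ∀ w ∈ U k, rs 𝒟 τ w = e • rs 𝒟 t w) {A : End L V}
    (hA : ∀ v, (∀ w ∈ U k, 𝒟.q v w = 0) → A v = 0) (l : J) :
    A (τ l) = e • A (t l) ∧ A (𝒟.om τ l) = e • A (𝒟.om t l) := by
  have h1 : ∀ l, ∀ w ∈ U k, 𝒟.q (τ l) w = e * 𝒟.q (t l) w := fun l w hw =>
    congrFun (hev w hw) l
  constructor
  · rw [← map_smul, ← sub_eq_zero, ← map_sub]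
    apply hA
    intro w hw
    rw [map_sub, LinearMap.sub_apply, h1 l w hw, map_smul, LinearMap.smul_apply, smul_eq_mul,
      sub_self]
  · rw [← map_smul, ← sub_eq_zero, ← map_sub]
    apply hA
    intro w hw
    rw [map_sub, LinearMap.sub_apply, map_smul, LinearMap.smul_apply, Cfg.om, Cfg.om, map_sum,
      map_sum, LinearMap.sum_apply, LinearMap.sum_apply, smul_eq_mul, Finset.mul_sum,
      ← Finset.sum_sub_distrib]
    refine Finset.sum_eq_zero fun m _ => ?_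
    rw [map_smul, map_smul, LinearMap.smul_apply, LinearMap.smul_apply, h1 m w hw, smul_eq_mul,
      smul_eq_mul]
    ring

section main

variable {i j : κ} {T : ℕ → Fin 3 → End L V} {M : ℕ}

/-- the vector coefficients -/
noncomputable def yc (𝒟 : Cfg L V J) (hq : IsForm 𝒟.q) (t : J → V) (T : ℕ → Fin 3 → End L V)
    (m : ℕ) : (J → V) × (J → V) :=
  if m % 2 = 0 then fam 𝒟 t (T (m / 2)) else fam 𝒟 t (fun a => dg hq (T (m / 2) a))

theorem yc_even (hq : IsForm 𝒟.q) (n : ℕ) : yc 𝒟 hq t T (2 * n) = fam 𝒟 t (T n) := by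
  rw [yc, if_pos (by omega), show 2 * n / 2 = n by omega]

theorem yc_odd (hq : IsForm 𝒟.q) (n : ℕ) :
    yc 𝒟 hq t T (2 * n + 1) = fam 𝒟 t (fun a => dg hq (T n a)) := by
  rw [yc, if_neg (by omega), show (2 * n + 1) / 2 = n by omega]

variable (hB : Bks 𝒟 u t W I U)

include hB

/-- the family of `β` is a polynomial in `ρ` -/
theorem fam_bt (hc : FChain 𝒟.q (Res 𝒟 t) W I (U i) (U j) T M) {τ : J → V} {ρ : L}
    (hei : ∀ w ∈ U i, rs 𝒟 τ w = ρ • rs 𝒟 t w) (hej : ∀ w ∈ U j, rs 𝒟 τ w = (1 : L) • rs 𝒟 t w) :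
    fam 𝒟 τ (bt hB.hG.form T M (ρ ^ 2)) =
      ∑ m ∈ Finset.range (2 * (M + 1)), ρ ^ m • yc 𝒟 hB.hG.form t T m := by
  have hq := hB.hG.form
  rw [sum_two]
  have hT : ∀ n a v, (∀ w ∈ U j, 𝒟.q v w = 0) → T n a v = 0 := hc.kill
  have hD : ∀ n a v, (∀ w ∈ U i, 𝒟.q v w = 0) → dg hq (T n a) v = 0 := fun n a v hv =>
    dg_kill hq (hc.mem n a) v hv
  have hbt : ∀ a v, bt hq T M (ρ ^ 2) a v = ∑ n ∈ Finset.range (M + 1),
      ((ρ ^ 2) ^ n • T n a v + (ρ ^ 2) ^ n • dg hq (T n a) v) := by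
    intro a v
    rw [bt, LinearMap.add_apply, Tx_apply, Finset.sum_add_distrib]
    congr 1
    rw [Tx, dg_sum, LinearMap.sum_apply]
    rfl
  have hstep : ∀ n, ρ ^ (2 * n) • yc 𝒟 hq t T (2 * n) + ρ ^ (2 * n + 1) •
      yc 𝒟 hq t T (2 * n + 1) = ((ρ ^ 2) ^ n • fam 𝒟 t (T n) +
        ((ρ ^ 2) ^ n * ρ) • fam 𝒟 t (fun a => dg hq (T n a))) := fun n => by
    rw [yc_even, yc_odd, ← pow_mul, ← pow_succ]
  rw [Finset.sum_congr rfl fun n _ => hstep n]
  refine Prod.ext (funext fun l => ?_) (funext fun l => ?_)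
  · show bt hq T M (ρ ^ 2) (𝒟.arm l) (τ l) = _
    rw [hbt, Prod.fst_sum, Finset.sum_apply]
    refine Finset.sum_congr rfl fun n _ => ?_
    rw [(kill_base hB.hG hej (hT n _) l).1, (kill_base hB.hG hei (hD n _) l).1, one_smul,
      smul_smul]
    rfl
  · show bt hq T M (ρ ^ 2) (𝒟.arm l) (𝒟.om τ l) = _
    rw [hbt, Prod.snd_sum, Finset.sum_apply]
    refine Finset.sum_congr rfl fun n _ => ?_
    rw [(kill_base hB.hG hej (hT n _) l).2, (kill_base hB.hG hei (hD n _) l).2, one_smul,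
      smul_smul]
    rfl

/-- the witness at a base point has located errors -/
theorem rij_base (hij : i ≠ j) (hc : FChain 𝒟.q (Res 𝒟 t) W I (U i) (U j) T M) {τ : J → V}
    {e : κ → L} (hb : Bas 𝒟 u t W I U τ e) (hej : e j = 1) {r : J → V}
    (hr : RelB 𝒟 τ (bt hB.hG.form T M (e i ^ 2)) r) {c : κ → L}
    (hop : ∀ k a, ∀ v ∈ U k,
      opr 𝒟.q (Tt L r) (Gm 𝒟.arm 𝒟.Ω a) (Tt L t) v - c k • Res 𝒟 t a v ∈ I) :
    RIJ 𝒟 t I U i j r c := by
  have hq := hB.hG.form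
  have hbase := hB.atBase hb (i := i) hej
  have hRU : ∀ k a, ∀ w ∈ U k, Res 𝒟 τ a w ∈ U k := fun k a w hw => by
    rw [hB.Resx hb k a hw]
    exact (U k).smul_mem _ (hB.S k a w hw)
  have hTz : ∀ k, k ≠ j → ∀ v ∈ U k, ∀ a, Tx T M (e i ^ 2) a v = 0 := fun k hk v hv a =>
    hc.Tx_kill _ a v fun w hw => hB.orth k j hk v hv w hw
  have hDz : ∀ k, k ≠ i → ∀ v ∈ U k, ∀ a, dg hq (Tx T M (e i ^ 2) a) v = 0 := fun k hk v hv a =>
    dg_kill hq (hc.Tx_mem _ a) v fun w hw => hB.orth k i hk v hv w hw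
  have hcomm : ∀ a, ∀ v ∈ W, Res 𝒟 τ a (bt hq T M (e i ^ 2) a v) -
      bt hq T M (e i ^ 2) a (Res 𝒟 τ a v) ∈ I := fun a v hv =>
    hc.bt_comm hq hbase (hB.le i) (hB.le j) hb.W hB.hI a hv
  have hIR : ∀ a, ∀ v ∈ I, Res 𝒟 τ a v ∈ I := fun a v hv => by
    rw [hB.hI] at hv ⊢
    exact ⟨hb.W a v hv.1, fun w hw => by rw [hB.saRes τ a]; exact hv.2 _ (hb.W a w hw)⟩
  refine ⟨hop, ?_, ?_, ?_⟩
  · intro k hki hkj v hv
    obtain ⟨y, hy, e1⟩ := hB.err hb hr (hop k) (Y := ⊥)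
      (fun a v hv => by rw [(Submodule.mem_bot L).1 hv, map_zero]; exact zero_mem _)
      (fun a v hv => by
        rw [bt, LinearMap.add_apply, LinearMap.add_apply, hTz k hkj v hv, hDz k hki v hv,
          hTz k hkj _ (hRU k a v hv), hDz k hki _ (hRU k a v hv), add_zero, map_zero, sub_zero]
        exact zero_mem _) v hv
    rw [e1, (Submodule.mem_bot L).1 hy, map_zero, add_zero]
  · intro v hv
    obtain ⟨y, hy, e1⟩ := hB.err hb hr (hop i) (Y := U j ⊓ I)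
      (fun a v hv => ⟨hRU j a v hv.1, hIR a v hv.2⟩)
      (fun a v hv => by
        refine ⟨?_, hcomm a v (hB.le i hv)⟩
        rw [bt, LinearMap.add_apply, LinearMap.add_apply, hTz i hij v hv,
          hTz i hij _ (hRU i a v hv), zero_add, zero_add]
        exact sub_mem (hRU j a _ (dg_mem hq (hc.Tx_kill _ a) v))
          (dg_mem hq (hc.Tx_kill _ a) _)) v hv
    refine ⟨y, hy, ?_⟩
    rw [e1, hb.ev j y hy.1, hej, one_smul]
  · intro v hv
    obtain ⟨y, hy, e1⟩ := hB.err hb hr (hop j) (Y := U i ⊓ I)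
      (fun a v hv => ⟨hRU i a v hv.1, hIR a v hv.2⟩)
      (fun a v hv => by
        refine ⟨?_, hcomm a v (hB.le j hv)⟩
        rw [bt, LinearMap.add_apply, LinearMap.add_apply, hDz j (Ne.symm hij) v hv,
          hDz j (Ne.symm hij) _ (hRU j a v hv), add_zero, add_zero]
        exact sub_mem (hRU i a _ (hc.Tx_mem _ a v)) (hc.Tx_mem _ a _)) v hv
    refine ⟨e i • y, Submodule.smul_mem _ _ hy, ?_⟩
    rw [e1, hb.ev i y hy.1, map_smul]

end main

end Vale.Agent.P182.H96.OE
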