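import Vale.Agent.P182.H96.OffD

/-!
# Extraction of the coefficients and exactness of the tails
-/

namespace Vale.Agent.P182.H96.OE

open Module Matrix Vale.Agent.P182.H533 Vale.Agent.P182.H922 Vale.Agent.P182.B1
  Vale.Agent.P182.H578 Vale.Agent.P182.H588 Vale.Agent.P182.H96.Tl Vale.Agent.P182.H250

variable {L V J κ : Type*} [Field L] [AddCommGroup V] [Module L V] [FiniteDimensional L V]
  [Fintype J] [DecidableEq J]
  {𝒟 : Cfg L V J} {u : J → L} {t : J → V} {W I : Submodule L V} {U : κ → Submodule L V}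

/-- the operator `τ^* τ G_a` -/
def Ph (𝒟 : Cfg L V J) (τ : J → V) (a : Fin 3) : (J → L) →ₗ[L] (J → L) :=
  rs 𝒟 τ ∘ₗ Tt L τ ∘ₗ (Gm 𝒟.arm 𝒟.Ω a).mulVecLin

omit [FiniteDimensional L V] in
theorem Ph_apply (τ : J → V) (a : Fin 3) (x : J → L) :
    Ph 𝒟 τ a x = rs 𝒟 τ (Tt L τ (Gm 𝒟.arm 𝒟.Ω a *ᵥ x)) := rfl

omit [FiniteDimensional L V] in
theorem Ph_rs (τ : J → V) (a : Fin 3) (v : V) :
    Ph 𝒟 τ a (rs 𝒟 τ v) = rs 𝒟 τ (Res 𝒟 τ a v) := by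
  rw [Ph_apply, ← opr_rs]
  rfl

theorem Bks.Ph_eig (h : Bks 𝒟 u t W I U) {τ : J → V} {e : κ → L}
    (hb : Bas 𝒟 u t W I U τ e) {k : κ} {y : V} (hy : y ∈ U k) (a : Fin 3) :
    Ph 𝒟 τ a (rs 𝒟 t y) = e k ^ 2 • Ph 𝒟 t a (rs 𝒟 t y) := by
  rw [Ph_apply, eig_Tt h.hG h.hk h.ht hb.hτ (hb.ev k y hy), map_smul,
    hb.ev k _ (h.S k a y hy), smul_smul, Ph_rs, pow_two]

/-- the identity -/
theorem Bks.ident (h : Bks 𝒟 u t W I U) {τ : J → V} {e : κ → L}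
    (hb : Bas 𝒟 u t W I U τ e) {β : Fin 3 → End L V} {K : ℕ} {r : ℕ → J → V} {c : ℕ → κ → L}
    {ρ : L} (hr : RelB 𝒟 τ β (∑ m ∈ Finset.range K, ρ ^ m • r m)) {k k' : κ}
    (hU : ∀ m < K, ∀ v ∈ U k, ∃ y ∈ U k', rs 𝒟 (r m) v = c m k • rs 𝒟 t v + rs 𝒟 t y)
    (a : Fin 3) {v : V} (hv : v ∈ U k) :
    e k ^ 2 • ∑ m ∈ Finset.range K, ρ ^ m •
        (rs 𝒟 (r m) - c m k • rs 𝒟 t) (Res 𝒟 t a v) =
      e k' ^ 2 • ∑ m ∈ Finset.range K, ρ ^ m •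
        Ph 𝒟 t a ((rs 𝒟 (r m) - c m k • rs 𝒟 t) v) -
      rs 𝒟 τ (Res 𝒟 τ a (β a v) - β a (Res 𝒟 τ a v)) := by
  have e1 := hr.rs_Res a v
  rw [hr.opr_eq a v, opr_rs, map_sub, h.Resx hb k a hv, map_smul, rs_sum] at e1
  rw [LinearMap.sum_apply, LinearMap.sum_apply, ← Ph_apply, map_sum] at e1
  have e2 : ∀ m ∈ Finset.range K, ρ ^ m • rs 𝒟 (r m) (Res 𝒟 t a v) =
      (ρ ^ m * c m k) • rs 𝒟 t (Res 𝒟 t a v) +
        ρ ^ m • (rs 𝒟 (r m) - c m k • rs 𝒟 t) (Res 𝒟 t a v) := by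
    intro m _
    rw [LinearMap.sub_apply, LinearMap.smul_apply, smul_sub, smul_smul]
    abel
  have e3 : ∀ m ∈ Finset.range K, Ph 𝒟 τ a (ρ ^ m • rs 𝒟 (r m) v) =
      e k ^ 2 • ((ρ ^ m * c m k) • rs 𝒟 t (Res 𝒟 t a v)) +
        e k' ^ 2 • (ρ ^ m • Ph 𝒟 t a ((rs 𝒟 (r m) - c m k • rs 𝒟 t) v)) := by
    intro m hm
    obtain ⟨y, hy, hym⟩ := hU m (Finset.mem_range.1 hm) v hv
    have h1 : (rs 𝒟 (r m) - c m k • rs 𝒟 t) v = rs 𝒟 t y := by
      rw [LinearMap.sub_apply, LinearMap.smul_apply, hym]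
      abel
    rw [h1, hym, map_smul, map_add, map_smul, h.Ph_eig hb hv, h.Ph_eig hb hy, Ph_rs]
    module
  have e4 : ∀ m, (ρ ^ m • rs 𝒟 (r m)) (Res 𝒟 t a v) = ρ ^ m • rs 𝒟 (r m) (Res 𝒟 t a v) :=
    fun m => rfl
  have e5 : ∀ m, (ρ ^ m • rs 𝒟 (r m)) v = ρ ^ m • rs 𝒟 (r m) v := fun m => rfl
  rw [Finset.sum_congr rfl fun m hm => (e4 m).trans (e2 m hm), Finset.sum_add_distrib,
    Finset.sum_congr rfl fun m hm => (congrArg (Ph 𝒟 τ a) (e5 m)).trans (e3 m hm),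
    Finset.sum_add_distrib, ← Finset.smul_sum, ← Finset.smul_sum, smul_add, add_sub_assoc] at e1
  rw [h.Resx hb k a hv]
  exact add_left_cancel e1

section sf

variable {L X : Type*} [Field L] [AddCommGroup X] [Module L X]

/-- the sources -/
def sf (c : ℕ) (g h : ℕ → X) (K m : ℕ) : X :=
  if m % 2 = c then (if m < 2 * K then g (m / 2) else 0) + (if 2 ≤ m then h (m / 2 - 1) else 0)
  else 0

theorem sf_sum {c : ℕ} (hc : c < 2) (g h : ℕ → X) (K : ℕ) (ρ : L) :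
    ∑ m ∈ Finset.range (2 * K + 2), ρ ^ m • sf c g h K m =
      ρ ^ c • (∑ n ∈ Finset.range K, (ρ ^ 2) ^ n • g n +
        ρ ^ 2 • ∑ n ∈ Finset.range K, (ρ ^ 2) ^ n • h n) := by
  have h1 : ∑ n ∈ Finset.range (K + 1), (ρ ^ 2) ^ n • (if n < K then g n else 0) =
      ∑ n ∈ Finset.range K, (ρ ^ 2) ^ n • g n := by
    rw [Finset.sum_range_succ, if_neg (lt_irrefl K), smul_zero, add_zero]
    exact Finset.sum_congr rfl fun n hn => by rw [if_pos (Finset.mem_range.1 hn)]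
  have h2 : ∑ n ∈ Finset.range (K + 1), (ρ ^ 2) ^ n • (if 1 ≤ n then h (n - 1) else 0) =
      ρ ^ 2 • ∑ n ∈ Finset.range K, (ρ ^ 2) ^ n • h n := by
    rw [Finset.sum_range_succ', if_neg (by omega), smul_zero, add_zero, Finset.smul_sum]
    refine Finset.sum_congr rfl fun n hn => ?_
    rw [if_pos (by omega), smul_smul, pow_succ', Nat.add_sub_cancel]
  rw [← h1, ← h2, ← Finset.sum_add_distrib, Finset.smul_sum, show 2 * K + 2 = 2 * (K + 1) by ring,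
    sum_two]
  refine Finset.sum_congr rfl fun n _ => ?_
  have e5 : 2 * n / 2 = n := by omega
  have e6 : (2 * n + 1) / 2 = n := by omega
  have s0 : sf 0 g h K (2 * n) = (if n < K then g n else 0) +
      (if 1 ≤ n then h (n - 1) else 0) := by
    unfold sf
    rw [e5]
    split_ifs <;> first | rfl | (exfalso; omega)
  have s1 : sf 0 g h K (2 * n + 1) = 0 := by
    unfold sf
    split_ifs <;> first | rfl | (exfalso; omega)
  have s2 : sf 1 g h K (2 * n) = 0 := by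
    unfold sf
    split_ifs <;> first | rfl | (exfalso; omega)
  have s3 : sf 1 g h K (2 * n + 1) = (if n < K then g n else 0) +
      (if 1 ≤ n then h (n - 1) else 0) := by
    unfold sf
    rw [e6]
    split_ifs <;> first | rfl | (exfalso; omega)
  rcases (by omega : c = 0 ∨ c = 1) with rfl | rfl
  · rw [s0, s1, smul_zero, add_zero, pow_zero, one_smul, ← pow_mul, smul_add]
  · rw [s2, s3, smul_zero, zero_add, pow_one, pow_succ', ← pow_mul, mul_smul, smul_add]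

variable {U : Type*} [AddCommGroup U] [Module L U]

theorem sf_apply (c : ℕ) (g h : ℕ → U →ₗ[L] X) (K m : ℕ) (v : U) :
    sf c g h K m v = sf c (fun n => g n v) (fun n => h n v) K m := by
  unfold sf
  split_ifs <;> simp

end sf

section main

variable {i j : κ} {T : ℕ → Fin 3 → End L V} {M : ℕ}

/-- witnesses at infinitely many base points -/
def Wt (𝒟 : Cfg L V J) (u : J → L) (t : J → V) (W I : Submodule L V) (U : κ → Submodule L V)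
    (hq : IsForm 𝒟.q) (RR : Submodule L (J → V)) (i j : κ) (T : ℕ → Fin 3 → End L V) (M : ℕ)
    (ρ : L) : Prop :=
  ∃ τ e r c, Bas 𝒟 u t W I U τ e ∧ e i = ρ ∧ e j = 1 ∧ r ∈ RR ∧
    RelB 𝒟 τ (bt hq T M (ρ ^ 2)) r ∧ Cc 𝒟 (fam 𝒟 τ (bt hq T M (ρ ^ 2))) r ∧
    ∀ k a, ∀ v ∈ U k,
      opr 𝒟.q (Tt L r) (Gm 𝒟.arm 𝒟.Ω a) (Tt L t) v - (c : κ → L) k • Res 𝒟 t a v ∈ I

variable (hB : Bks 𝒟 u t W I U)

include hB

/-- **Extraction.** -/
theorem yc_mem (hij : i ≠ j) (hc : FChain 𝒟.q (Res 𝒟 t) W I (U i) (U j) T M)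
    {RR : Submodule L (J → V)} {R : Set L} (hR : R.Infinite)
    (hw : ∀ ρ ∈ R, Wt 𝒟 u t W I U hB.hG.form RR i j T M ρ) :
    ∀ m < 2 * (M + 1), yc 𝒟 hB.hG.form t T m ∈ WIJ 𝒟 t I U RR i j := by
  refine vcoeff_mem _ _ hR fun ρ hρ => ?_
  obtain ⟨τ, e, r, c, hb, hei, hej, hr, hrel, hcc, hop⟩ := hw ρ hρ
  subst hei
  rw [← fam_bt hB hc (hb.ev i) (fun w hw => by rw [← hej]; exact hb.ev j w hw)]
  exact ⟨r, hr, c, rij_base hB hij hc hb hej hrel hop, hcc⟩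

/-- **Exactness of the tails.** -/
theorem exact_tail (hij : i ≠ j) (hc : FChain 𝒟.q (Res 𝒟 t) W I (U i) (U j) T M)
    {RR : Submodule L (J → V)} (hRR : RR ≤ Uu V u) {R : Set L} (hR : R.Infinite)
    (hw : ∀ ρ ∈ R, Wt 𝒟 u t W I U hB.hG.form RR i j T M ρ) {n0 : ℕ}
    (ht : ∀ n, n0 ≤ n → ∀ a v, T n a v ∈ I) :
    ∀ n, n0 ≤ n → n ≤ M → ∃ r ∈ RR, ∃ c : κ → L,
      (∀ k, ∀ v ∈ U k, rs 𝒟 r v = c k • rs 𝒟 t v) ∧ Cc 𝒟 (fam 𝒟 t (T n)) r := by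
  have hq := hB.hG.form
  have hx := yc_mem hB hij hc hR hw
  choose! r hr c hrij hcc using hx
  -- the relations of the sum
  have hrel : ∀ ρ ∈ R, ∃ τ e, Bas 𝒟 u t W I U τ e ∧ e i = ρ ∧ e j = 1 ∧
      RelB 𝒟 τ (bt hB.hG.form T M (ρ ^ 2)) (∑ m ∈ Finset.range (2 * (M + 1)), ρ ^ m • r m) := by
    intro ρ hρ
    obtain ⟨τ, e, r0, c0, hb, hei, hej, hr0, hrel0, hcc0, -⟩ := hw ρ hρ
    refine ⟨τ, e, hb, hei, hej, ?_⟩
    have h1 : Cc 𝒟 (∑ m ∈ Finset.range (2 * (M + 1)), ρ ^ m • yc 𝒟 hB.hG.form t T m)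
        (∑ m ∈ Finset.range (2 * (M + 1)), ρ ^ m • r m) :=
      Cc.sum _ _ _ _ fun m hm => hcc m (Finset.mem_range.1 hm)
    rw [← fam_bt hB hc (fun w hw => by rw [← hei]; exact hb.ev i w hw)
      (fun w hw => by rw [← hej]; exact hb.ev j w hw)] at h1
    have h2 := Cc.sub_mem_Ku hRR hr0
      (sum_mem fun m hm => RR.smul_mem _ (hr m (Finset.mem_range.1 hm))) hcc0 h1
    have h3 := hrel0.add_K hB.hG hB.hk hb.hτ h2
    rwa [add_sub_cancel] at h3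
  have hspan : ∀ k, ⨆ a, LinearMap.range ((Res 𝒟 t a).restrict (hB.S k a)) = ⊤ := by
    intro k
    have h1 : ((⊤ : Submodule L (U k)).map (U k).subtype) ≤
        (⨆ a, LinearMap.range ((Res 𝒟 t a).restrict (hB.S k a))).map (U k).subtype := by
      rw [Submodule.map_subtype_top, Submodule.map_iSup]
      refine (hB.span k).trans (iSup_mono fun a => ?_)
      rintro _ ⟨w, hw, rfl⟩
      exact ⟨(Res 𝒟 t a).restrict (hB.S k a) ⟨w, hw⟩, ⟨⟨w, hw⟩, rfl⟩, rfl⟩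
    refine top_le_iff.1 fun x _ => ?_
    obtain ⟨y, hy, hyx⟩ := h1 ⟨x, Submodule.mem_top, rfl⟩
    rwa [← Subtype.coe_injective hyx]
  have hTz : ∀ k, k ≠ j → ∀ v ∈ U k, ∀ x a, Tx T M x a v = 0 := fun k hk v hv x a =>
    hc.Tx_kill _ a v fun w hw => hB.orth k j hk v hv w hw
  have hDz : ∀ k, k ≠ i → ∀ v ∈ U k, ∀ x a, dg hq (Tx T M x a) v = 0 := fun k hk v hv x a =>
    dg_kill hq (hc.Tx_mem _ a) v fun w hw => hB.orth k i hk v hv w hw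
  have hDx : ∀ x a v, dg hq (Tx T M x a) v =
      ∑ n ∈ Finset.range (M + 1), x ^ n • dg hq (T n a) v := fun x a v => by
    rw [Tx, dg_sum, LinearMap.sum_apply]
    rfl
  -- exactness on the block `i`
  have hI : ∀ m, 2 * n0 ≤ m → m < 2 * (M + 1) → m % 2 = 0 →
      (rs 𝒟 (r m) - c m i • rs 𝒟 t) ∘ₗ (U i).subtype = 0 := by
    refine exact_of_identity (A := fun a => (Res 𝒟 t a).restrict (hB.S i a)) (B := Ph 𝒟 t)
      (hspan i) (fun m => (rs 𝒟 (r m) - c m i • rs 𝒟 t) ∘ₗ (U i).subtype)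
      (fun m a => sf 0 (fun n => -(rs 𝒟 t ∘ₗ Res 𝒟 t a ∘ₗ dg hq (T n a)) ∘ₗ (U i).subtype)
        (fun n => (rs 𝒟 t ∘ₗ dg hq (T n a) ∘ₗ Res 𝒟 t a) ∘ₗ (U i).subtype) (M + 1) m) hR ?_ ?_
    · intro ρ hρ a v
      obtain ⟨τ, e, hb, hei, hej, hrl⟩ := hrel ρ hρ
      have h1 := hB.ident hb hrl (k := i) (k' := j) (fun m hm v hv => by
        obtain ⟨y, hy, e1⟩ := (hrij m hm).ii v hv
        exact ⟨y, hy.1, e1⟩) a v.2
      have h2 : ∀ w ∈ U i, bt hq T M (ρ ^ 2) a w = dg hq (Tx T M (ρ ^ 2) a) w := fun w hw => by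
        rw [bt, LinearMap.add_apply, hTz i hij w hw, zero_add]
      have h3 : ∀ w, dg hq (Tx T M (ρ ^ 2) a) w ∈ U j := fun w => dg_mem hq (hc.Tx_kill _ a) w
      rw [hB.Resx hb i a v.2, map_smul (bt _ _ _ _ _), h2 _ v.2, h2 _ (hB.S i a _ v.2),
        hB.Resx hb j a (h3 _), hei, hej, one_pow, one_smul, one_smul,
        hb.ev j _ (sub_mem (hB.S j a _ (h3 _)) ((U j).smul_mem _ (h3 _))), hej, one_smul,
        map_sub, map_smul, hDx, hDx] at h1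
      have h4 : ∀ m, m ∈ Finset.range (2 * (M + 1) + 2) →
          ρ ^ m • (sf 0 (fun n => -(rs 𝒟 t ∘ₗ Res 𝒟 t a ∘ₗ dg hq (T n a)) ∘ₗ (U i).subtype)
        (fun n => (rs 𝒟 t ∘ₗ dg hq (T n a) ∘ₗ Res 𝒟 t a) ∘ₗ (U i).subtype) (M + 1) m) v =
          ρ ^ m • sf 0 (fun n => -(rs 𝒟 t (Res 𝒟 t a (dg hq (T n a) v))))
            (fun n => rs 𝒟 t (dg hq (T n a) (Res 𝒟 t a v))) (M + 1) m := fun m _ => by
        rw [sf_apply]
        rfl
      rw [Finset.sum_congr rfl h4, sf_sum (by omega), pow_zero, one_smul]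
      have h5 : ∀ m, ρ ^ (m + 2) • ((rs 𝒟 (r m) - c m i • rs 𝒟 t) ∘ₗ (U i).subtype)
          ((Res 𝒟 t a).restrict (hB.S i a) v) = ρ ^ 2 • (ρ ^ m •
            (rs 𝒟 (r m) - c m i • rs 𝒟 t) (Res 𝒟 t a v)) := fun m => by
        rw [smul_smul, ← pow_add, add_comm 2]
        rfl
      rw [Finset.sum_congr rfl fun m _ => h5 m, ← Finset.smul_sum, h1, sub_eq_add_neg]
      congr 1
      simp only [map_sum, map_smul, smul_neg, Finset.sum_neg_distrib]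
      abel
    · intro m hm hm2 hpar a
      have h1 : ∀ n, n0 ≤ n → ∀ a, ∀ v ∈ U i, dg hq (T n a) v = 0 := fun n hn a v hv =>
        dg_kill hq (ht n hn a) v fun w hw => by
          rw [hq.symm]
          exact ((hB.hI w).1 hw).2 v (hB.le i hv)
      refine LinearMap.ext fun v => ?_
      have e1 : (m + 2) / 2 - 1 = m / 2 := by omega
      have e2 : (m + 2) / 2 = m / 2 + 1 := by omega
      rw [sf_apply]
      unfold sf
      rw [e1, e2]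
      have h2 : ((rs 𝒟 t ∘ₗ dg hq (T (m / 2) a) ∘ₗ Res 𝒟 t a) ∘ₗ (U i).subtype) v = 0 := by
        show rs 𝒟 t (dg hq (T (m / 2) a) (Res 𝒟 t a v)) = 0
        rw [h1 _ (by omega) a _ (hB.S i a _ v.2), map_zero]
      have h3 : (-(rs 𝒟 t ∘ₗ Res 𝒟 t a ∘ₗ dg hq (T (m / 2 + 1) a)) ∘ₗ (U i).subtype) v = 0 := by
        show -(rs 𝒟 t (Res 𝒟 t a (dg hq (T (m / 2 + 1) a) v))) = 0
        rw [h1 _ (by omega) a _ v.2, map_zero, map_zero, neg_zero]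
      beta_reduce
      rw [h2, h3, LinearMap.zero_apply]
      split_ifs <;> simp
  -- exactness on the block `j`
  have hJ : ∀ m, m < 2 * (M + 1) → m % 2 = 0 →
      (rs 𝒟 (r m) - c m j • rs 𝒟 t) ∘ₗ (U j).subtype = 0 := by
    refine exact_up (A := fun a => (Res 𝒟 t a).restrict (hB.S j a)) (B := Ph 𝒟 t)
      (hspan j) (fun m => (rs 𝒟 (r m) - c m j • rs 𝒟 t) ∘ₗ (U j).subtype)
      (fun m a => sf 1 (fun n => (rs 𝒟 t ∘ₗ T n a ∘ₗ Res 𝒟 t a) ∘ₗ (U j).subtype)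
        (fun n => -(rs 𝒟 t ∘ₗ Res 𝒟 t a ∘ₗ T n a) ∘ₗ (U j).subtype) (M + 1) m) hR ?_ ?_
    · intro ρ hρ a v
      obtain ⟨τ, e, hb, hei, hej, hrl⟩ := hrel ρ hρ
      have h1 := hB.ident hb hrl (k := j) (k' := i) (fun m hm v hv => by
        obtain ⟨y, hy, e1⟩ := (hrij m hm).jj v hv
        exact ⟨y, hy.1, e1⟩) a v.2
      have h2 : ∀ w ∈ U j, bt hq T M (ρ ^ 2) a w = Tx T M (ρ ^ 2) a w := fun w hw => by
        rw [bt, LinearMap.add_apply, hDz j (Ne.symm hij) w hw, add_zero]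
      have h3 : ∀ w, Tx T M (ρ ^ 2) a w ∈ U i := fun w => hc.Tx_mem _ a w
      rw [hB.Resx hb j a v.2, hej, one_pow, one_smul, one_smul, h2 _ v.2, h2 _ (hB.S j a _ v.2),
        hB.Resx hb i a (h3 _), hei,
        hb.ev i _ (sub_mem ((U i).smul_mem _ (hB.S i a _ (h3 _))) (h3 _)), hei,
        map_sub, map_smul, Tx_apply, Tx_apply] at h1
      have h4 : ∀ m, m ∈ Finset.range (2 * (M + 1) + 2) →
          ρ ^ m • (sf 1 (fun n => (rs 𝒟 t ∘ₗ T n a ∘ₗ Res 𝒟 t a) ∘ₗ (U j).subtype)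
            (fun n => -(rs 𝒟 t ∘ₗ Res 𝒟 t a ∘ₗ T n a) ∘ₗ (U j).subtype) (M + 1) m) v =
          ρ ^ m • sf 1 (fun n => rs 𝒟 t (T n a (Res 𝒟 t a v)))
            (fun n => -(rs 𝒟 t (Res 𝒟 t a (T n a v)))) (M + 1) m := fun m _ => by
        rw [sf_apply]
        rfl
      rw [Finset.sum_congr rfl h4, sf_sum (by omega), pow_one]
      have h5 : ∀ m, ρ ^ m • ((rs 𝒟 (r m) - c m j • rs 𝒟 t) ∘ₗ (U j).subtype)
          ((Res 𝒟 t a).restrict (hB.S j a) v) = ρ ^ m •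
            (rs 𝒟 (r m) - c m j • rs 𝒟 t) (Res 𝒟 t a v) := fun m => rfl
      have h6 : ∀ m, ρ ^ (m + 2) • Ph 𝒟 t a (((rs 𝒟 (r m) - c m j • rs 𝒟 t) ∘ₗ
          (U j).subtype) v) = ρ ^ 2 • (ρ ^ m • Ph 𝒟 t a
            ((rs 𝒟 (r m) - c m j • rs 𝒟 t) v)) := fun m => by
        rw [smul_smul, ← pow_add, add_comm 2]
        rfl
      rw [Finset.sum_congr rfl fun m _ => h5 m, h1, Finset.sum_congr rfl fun m _ => h6 m,
        ← Finset.smul_sum, sub_eq_add_neg]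
      congr 1
      simp only [map_sum, map_smul, smul_neg, Finset.sum_neg_distrib]
      simp only [smul_sub, smul_add, smul_neg]
      abel
    · intro m hm hpar a
      rw [sf, if_neg (by omega)]
  intro n hn hnM
  have hm : 2 * n < 2 * (M + 1) := by omega
  refine ⟨r (2 * n), hr _ hm, c (2 * n), fun k v hv => ?_, by
    have := hcc _ hm
    rwa [yc_even] at this⟩
  by_cases hki : k = i
  · subst hki
    have h1 := LinearMap.congr_fun (hI (2 * n) (by omega) hm (by omega)) ⟨v, hv⟩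
    exact sub_eq_zero.1 h1
  · by_cases hkj : k = j
    · subst hkj
      have h1 := LinearMap.congr_fun (hJ (2 * n) hm (by omega)) ⟨v, hv⟩
      exact sub_eq_zero.1 h1
    · exact (hrij _ hm).th k hki hkj v hv

end main

end Vale.Agent.P182.H96.OE
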