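import Mathlib.LinearAlgebra.BilinearForm.Orthogonal
import Mathlib.LinearAlgebra.Dual.Lemmas
import Mathlib.Tactic

/-!
# Orthogonality inside a subspace for a skew form
-/

namespace Vale.Agent.P182.H96

open Module

section perp

variable {L X : Type*} [Field L] [AddCommGroup X] [Module L X]
  (M : X →ₗ[L] X →ₗ[L] L) (E : Submodule L X)

/-- the orthogonal of `W` in `E` -/
def po (W : Submodule L X) : Submodule L X where
  carrier := {t | t ∈ E ∧ ∀ w ∈ W, M w t = 0}
  add_mem' := by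
    rintro u v ⟨h1, h2⟩ ⟨h3, h4⟩
    exact ⟨E.add_mem h1 h3, fun w hw => by rw [map_add, h2 w hw, h4 w hw, add_zero]⟩
  zero_mem' := ⟨E.zero_mem, fun w _ => map_zero _⟩
  smul_mem' := by
    rintro c v ⟨h1, h2⟩
    exact ⟨E.smul_mem c h1, fun w hw => by rw [map_smul, h2 w hw, smul_zero]⟩

variable {M E}

theorem mem_po {W : Submodule L X} {t : X} : t ∈ po M E W ↔ t ∈ E ∧ ∀ w ∈ W, M w t = 0 := Iff.rfl

theorem po_le (W : Submodule L X) : po M E W ≤ E := fun _ h => h.1

theorem po_anti {W W' : Submodule L X} (h : W ≤ W') : po M E W' ≤ po M E W :=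
  fun _ ht => ⟨ht.1, fun w hw => ht.2 w (h hw)⟩

theorem po_sup (W W' : Submodule L X) : po M E (W ⊔ W') = po M E W ⊓ po M E W' := by
  apply le_antisymm
  · exact le_inf (po_anti le_sup_left) (po_anti le_sup_right)
  · rintro t ⟨h1, h2⟩
    refine ⟨h1.1, fun w hw => ?_⟩
    obtain ⟨a, ha, b, hb, rfl⟩ := Submodule.mem_sup.mp hw
    rw [map_add, LinearMap.add_apply, h1.2 a ha, h2.2 b hb, add_zero]

theorem le_po_po (hM : ∀ x y, M x y = - M y x) {W : Submodule L X} (hW : W ≤ E) :
    W ≤ po M E (po M E W) := fun w hw => ⟨hW hw, fun t ht => by rw [hM, ht.2 w hw, neg_zero]⟩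

theorem po_E_le (W : Submodule L X) (hW : W ≤ E) : po M E E ≤ po M E W := po_anti hW

variable [FiniteDimensional L X]

theorem finrank_po (hM : ∀ x y, M x y = - M y x) {W : Submodule L X} (hW : W ≤ E) :
    finrank L W + finrank L (po M E W) = finrank L E + finrank L (W ⊓ po M E E : Submodule L X) := by
  let B : LinearMap.BilinForm L E := M.domRestrict₁₂ E E
  have hB : ∀ x y : E, B x y = M x y := fun x y => rfl
  have hr : B.IsRefl := by
    intro x y h
    rw [hB] at h ⊢
    rw [hM, h, neg_zero]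
  have h := LinearMap.BilinForm.finrank_add_finrank_orthogonal hr (W.comap E.subtype)
  have e1 : finrank L (W.comap E.subtype) = finrank L W := by
    rw [← Submodule.finrank_map_subtype_eq, Submodule.map_comap_subtype, inf_eq_right.mpr hW]
  have e2 : finrank L (B.orthogonal (W.comap E.subtype)) = finrank L (po M E W) := by
    have e0 : (B.orthogonal (W.comap E.subtype)).map E.subtype = po M E W := by
      ext t
      rw [Submodule.mem_map]
      constructor
      · rintro ⟨t, ht, rfl⟩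
        exact ⟨t.2, fun w hw => ht ⟨w, hW hw⟩ hw⟩
      · rintro ⟨h1, h2⟩
        exact ⟨⟨t, h1⟩, fun w hw => h2 w hw, rfl⟩
    rw [← Submodule.finrank_map_subtype_eq, e0]
  have e3 : finrank L (W.comap E.subtype ⊓ B.orthogonal ⊤ : Submodule L E) =
      finrank L (W ⊓ po M E E : Submodule L X) := by
    have e0 : (W.comap E.subtype ⊓ B.orthogonal ⊤).map E.subtype = W ⊓ po M E E := by
      ext t
      rw [Submodule.mem_map]
      constructor
      · rintro ⟨t, ⟨ht1, ht2⟩, rfl⟩
        exact ⟨ht1, t.2, fun w hw => ht2 ⟨w, hw⟩ trivial⟩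
      · rintro ⟨h1, h2, h3⟩
        exact ⟨⟨t, h2⟩, ⟨h1, fun w _ => h3 w w.2⟩, rfl⟩
    rw [← Submodule.finrank_map_subtype_eq, e0]
  rw [e1, e2, e3] at h
  exact h

theorem po_po (hM : ∀ x y, M x y = - M y x) {W : Submodule L X} (hW : W ≤ E) :
    po M E (po M E W) = W ⊔ po M E E := by
  symm
  apply Submodule.eq_of_le_of_finrank_eq
  · exact sup_le (le_po_po hM hW) (po_anti (po_le W))
  · have h1 := finrank_po hM hW
    have h2 := finrank_po hM (po_le (M := M) (E := E) W)
    have h3 : po M E W ⊓ po M E E = po M E E := inf_eq_right.mpr (po_anti hW)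
    rw [h3] at h2
    have h4 := Submodule.finrank_sup_add_finrank_inf_eq W (po M E E)
    omega

/-- **Lemma G.** -/
theorem lemmaG (hM : ∀ x y, M x y = - M y x) {S S' A' : Submodule L X}
    (hSS' : S ≤ S') (hS'A' : S' ≤ A') (hA'E : A' ≤ E) (hS : ∀ x ∈ S, ∀ y ∈ S', M x y = 0)
    (hK : po M E E ≤ A')
    (hdim : finrank L (A' ⊓ po M E A' : Submodule L X) + finrank L A' ≤
      finrank L S + finrank L S') :
    A' ⊓ po M E A' ≤ S ∧ A' ⊓ po M E S = S' ∧ po M E S' = S ⊔ po M E A' := by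
  -- the form restricted to `A'`
  have hrad : po M A' A' = A' ⊓ po M E A' := by
    ext t
    exact ⟨fun h => ⟨h.1, hA'E h.1, h.2⟩, fun h => ⟨h.1, h.2.2⟩⟩
  have h1 := finrank_po (E := A') hM (hSS'.trans hS'A')
  have h2 : S' ≤ po M A' S := fun t ht => ⟨hS'A' ht, fun w hw => hS w hw t ht⟩
  have h3 := Submodule.finrank_mono h2
  have h4 : finrank L (S ⊓ po M A' A' : Submodule L X) ≤ finrank L (po M A' A') :=
    Submodule.finrank_mono inf_le_right
  rw [hrad] at h1 h4
  have h5 : S ⊓ (A' ⊓ po M E A') = A' ⊓ po M E A' :=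
    Submodule.eq_of_le_of_finrank_le inf_le_right (by omega)
  have h6 : S' = po M A' S := Submodule.eq_of_le_of_finrank_le h2 (by omega)
  have h7 : A' ⊓ po M E S = S' := by
    rw [h6]
    ext t
    exact ⟨fun h => ⟨h.1, h.2.2⟩, fun h => ⟨h.1, hA'E h.1, h.2⟩⟩
  refine ⟨inf_eq_right.mp h5, h7, ?_⟩
  have h8 : A' = po M E (po M E A') := by
    rw [po_po hM hA'E, sup_eq_left.mpr hK]
  have h9 : S' = po M E (S ⊔ po M E A') := by
    rw [po_sup, ← h8, inf_comm, h7]
  have h10 : S ⊔ po M E A' ≤ E := sup_le ((hSS'.trans hS'A').trans hA'E) (po_le _)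
  conv_lhs => rw [h9]
  rw [po_po hM h10, sup_assoc, sup_eq_left.mpr (po_anti hA'E)]

end perp

end Vale.Agent.P182.H96
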