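import Vale.Agent.P182.H96.Rel

/-!
# The reduction `R^⊥/R`
-/

namespace Vale.Agent.P182.H96

open Module Matrix Vale.Agent.P182.H533

section rd

variable {L V : Type*} [Field L] [AddCommGroup V] [Module L V]

/-- a model of `R^⊥/R`: a complement `P` of `R` in `R^⊥` with the orthogonal projection -/
structure Rd (q : V →ₗ[L] V →ₗ[L] L) (R : Submodule L V) where
  P : Submodule L V
  le : P ≤ pp q R
  disj : ∀ v ∈ P, v ∈ R → v = 0
  π : V →ₗ[L] P
  π_q : ∀ (v : V) (p : P), q (π v : V) p = q v p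
  π_P : ∀ p : P, π (p : V) = p
  π_R : ∀ r ∈ R, π r = 0
  π_sub : ∀ v ∈ pp q R, v - π v ∈ R

theorem exists_rd [FiniteDimensional L V] {q : V →ₗ[L] V →ₗ[L] L} (hq : IsForm q)
    {R : Submodule L V} (hR : R ≤ pp q R) : Nonempty (Rd q R) := by
  obtain ⟨P, h1, h2⟩ := IsModularLattice.exists_disjoint_and_sup_eq hR
  have hP : P ≤ pp q R := h2 ▸ le_sup_right
  have hdisj : ∀ v ∈ P, v ∈ R → v = 0 := fun v h3 h4 => by
    have := disjoint_iff.mp h1
    exact (Submodule.mem_bot L).mp (this ▸ ⟨h4, h3⟩)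
  let qP : P →ₗ[L] P →ₗ[L] L := q.domRestrict₁₂ P P
  have hqP : IsForm qP := by
    refine ⟨fun u v => hq.symm _ _, fun u hu => ?_⟩
    apply Subtype.ext
    apply hdisj _ u.2
    rw [← pp_pp hq R]
    intro v hv
    rw [← h2] at hv
    obtain ⟨r, hr, p, hp, rfl⟩ := Submodule.mem_sup.mp hv
    rw [map_add, LinearMap.add_apply, hP u.2 r hr, zero_add, hq.symm]
    exact hu ⟨p, hp⟩
  let f : V →ₗ[L] Dual L P :=
    { toFun := fun v => q v ∘ₗ P.subtype
      map_add' := fun u v => by ext p; simp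
      map_smul' := fun c v => by ext p; simp }
  let π : V →ₗ[L] P := hqP.eqv.symm.toLinearMap ∘ₗ f
  have hπ : ∀ (v : V) (p : P), q (π v : V) p = q v p := fun v p => hqP.eqv_symm_apply (f v) p
  have hπP : ∀ p : P, π (p : V) = p := fun p => hqP.ext fun w => hπ p w
  have hπR : ∀ r ∈ R, π r = 0 := fun r hr => hqP.ext fun w => by
    rw [map_zero, LinearMap.zero_apply]
    exact (hπ r w).trans (hP w.2 r hr)
  refine ⟨⟨P, hP, hdisj, π, hπ, hπP, hπR, fun v hv => ?_⟩⟩
  rw [← h2] at hv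
  obtain ⟨r, hr, p, hp, rfl⟩ := Submodule.mem_sup.mp hv
  rw [map_add, hπR r hr, zero_add, hπP ⟨p, hp⟩]
  simpa using hr

variable {q : V →ₗ[L] V →ₗ[L] L} {R : Submodule L V} (D : Rd q R)

namespace Rd

theorem q_π (hq : IsForm q) {u v : V} (hu : u ∈ pp q R) (hv : v ∈ pp q R) :
    q (D.π u : V) (D.π v : V) = q u v := by
  have h1 := D.π_q u (D.π v)
  rw [h1]
  have h2 : q u (v - D.π v) = 0 := by
    rw [hq.symm]; exact hu _ (D.π_sub v hv)
  rw [map_sub, sub_eq_zero] at h2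
  exact h2.symm

theorem isForm (hq : IsForm q) [FiniteDimensional L V] :
    IsForm (q.domRestrict₁₂ D.P D.P) := by
  refine ⟨fun u v => hq.symm _ _, fun u hu => ?_⟩
  apply Subtype.ext
  apply D.disj _ u.2
  refine (pp_pp hq R).le ?_
  intro v hv
  have h1 : q (v - D.π v) u = 0 := D.le u.2 _ (D.π_sub v hv)
  rw [map_sub, LinearMap.sub_apply, sub_eq_zero] at h1
  rw [h1, hq.symm]
  exact hu (D.π v)

/-- subspaces of `P` and subspaces of `V` between `R` and `R^⊥` -/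
def up (S : Submodule L D.P) : Submodule L V := pp q R ⊓ S.comap D.π

theorem mem_up {S : Submodule L D.P} {v : V} : v ∈ D.up S ↔ v ∈ pp q R ∧ D.π v ∈ S := Iff.rfl

theorem up_le (S : Submodule L D.P) : D.up S ≤ pp q R := inf_le_left

theorem R_le_up (hR : R ≤ pp q R) (S : Submodule L D.P) : R ≤ D.up S := fun r hr =>
  ⟨hR hr, by show D.π r ∈ S; rw [D.π_R r hr]; exact S.zero_mem⟩

theorem up_top : D.up ⊤ = pp q R := by
  ext v; exact ⟨fun h => h.1, fun h => ⟨h, trivial⟩⟩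

theorem up_bot (hR : R ≤ pp q R) : D.up ⊥ = R := by
  refine le_antisymm (fun v hv => ?_) (D.R_le_up hR ⊥)
  have h1 := D.π_sub v hv.1
  have h2 : D.π v = 0 := (Submodule.mem_bot L).mp hv.2
  rwa [h2, Submodule.coe_zero, sub_zero] at h1

theorem pp_up (hq : IsForm q) (hR : R ≤ pp q R) (S : Submodule L D.P) :
    pp q (D.up S) = D.up (pp (q.domRestrict₁₂ D.P D.P) S) := by
  ext v
  constructor
  · intro hv
    have h1 : v ∈ pp q R := pp_anti (D.R_le_up hR S) hv
    refine ⟨h1, fun s hs => ?_⟩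
    have h2 : (s : V) ∈ D.up S := ⟨D.le s.2, by
      show D.π s ∈ S
      rw [D.π_P]; exact hs⟩
    show q (s : V) (D.π v) = 0
    rw [hq.symm, D.π_q, hq.symm]
    exact hv _ h2
  · rintro ⟨h1, h2⟩ u ⟨h3, h4⟩
    rw [← D.q_π hq h3 h1]
    exact h2 _ h4

end Rd

end rd

section finrank

variable {L V W : Type*} [Field L] [AddCommGroup V] [Module L V] [AddCommGroup W] [Module L W]
  [FiniteDimensional L V]

theorem finrank_map_ker (f : V →ₗ[L] W) (A : Submodule L V) :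
    finrank L (A.map f) + finrank L (A ⊓ LinearMap.ker f : Submodule L V) = finrank L A := by
  have h := LinearMap.finrank_range_add_finrank_ker (f.domRestrict A)
  rw [LinearMap.range_domRestrict] at h
  have h1 : finrank L (LinearMap.ker (f.domRestrict A)) =
      finrank L (A ⊓ LinearMap.ker f : Submodule L V) := by
    have h2 : (LinearMap.ker (f.domRestrict A)).map A.subtype = A ⊓ LinearMap.ker f := by
      ext v
      rw [Submodule.mem_map]
      constructor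
      · rintro ⟨v, hv, rfl⟩
        exact ⟨v.2, hv⟩
      · rintro ⟨h3, h4⟩
        exact ⟨⟨v, h3⟩, h4, rfl⟩
    rw [← h2, Submodule.finrank_map_subtype_eq]
  rw [h1] at h
  exact h

end finrank

section theta

variable {L V J ι : Type*} [Field L] [AddCommGroup V] [Module L V] [Fintype J]

/-- `θ` -/
noncomputable def Cf.θ (a : Cf L V J ι) (S : Submodule L V) : ℤ :=
  ∑ l, ((finrank L (a.C l ⊓ S : Submodule L V) : ℤ) +
    finrank L (a.C l ⊓ pp a.q S : Submodule L V) - finrank L (a.C l))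

omit [Fintype J] in
theorem Cf.E_equiv (a : Cf L V J ι) (S : Submodule L V) :
    Nonempty (a.E S ≃ₗ[L] ∀ l, (a.C l ⊓ S : Submodule L V)) :=
  ⟨{ toFun := fun t l => ⟨t.1 l, mem_E.mp t.2 l⟩
     map_add' := fun _ _ => rfl
     map_smul' := fun _ _ => rfl
     invFun := fun t => ⟨fun l => t l, mem_E.mpr fun l => (t l).2⟩
     left_inv := fun _ => rfl
     right_inv := fun _ => rfl }⟩

variable [FiniteDimensional L V]

theorem Cf.finrank_E (a : Cf L V J ι) (S : Submodule L V) :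
    finrank L (a.E S) = ∑ l, finrank L (a.C l ⊓ S : Submodule L V) := by
  obtain ⟨e⟩ := a.E_equiv S
  rw [e.finrank_eq, Module.finrank_pi_fintype]

theorem Cf.θ_eq (a : Cf L V J ι) (S : Submodule L V) :
    a.θ S = (finrank L (a.E S) : ℤ) + finrank L (a.E (pp a.q S)) - finrank L (a.E ⊤) := by
  have h1 : finrank L (a.E ⊤) = ∑ l, finrank L (a.C l) := by
    rw [a.finrank_E]
    exact Finset.sum_congr rfl fun l _ => by rw [inf_top_eq]
  rw [a.finrank_E, a.finrank_E, h1, Cf.θ]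
  push_cast
  rw [← Finset.sum_add_distrib, ← Finset.sum_sub_distrib]

end theta

section red

variable {L V J ι : Type*} [Field L] [AddCommGroup V] [Module L V]
  (a : Cf L V J ι) {R : Submodule L V} (D : Rd a.q R)

/-- the reduced configuration -/
def Cf.red : Cf L D.P J ι where
  q := a.q.domRestrict₁₂ D.P D.P
  F s i := (a.F s i ⊓ pp a.q R).map D.π
  arm := a.arm
  c := a.c
  Ω := a.Ω

theorem Cf.red_C (l : J) : (a.red D).C l = (a.C l ⊓ pp a.q R).map D.π := rfl

variable {a}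

theorem finrank_inf_step [FiniteDimensional L V] {A B W : Submodule L V} (hAB : A ≤ B)
    (h : finrank L B ≤ finrank L A + 1) :
    finrank L (B ⊓ W : Submodule L V) ≤ finrank L (A ⊓ W : Submodule L V) + 1 := by
  have h1 := Submodule.finrank_sup_add_finrank_inf_eq A (B ⊓ W)
  have h2 : A ⊓ (B ⊓ W) = A ⊓ W := by
    rw [← inf_assoc, inf_eq_left.mpr hAB]
  have h3 : finrank L (A ⊔ B ⊓ W : Submodule L V) ≤ finrank L B :=
    Submodule.finrank_mono (sup_le hAB inf_le_left)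
  rw [h2] at h1
  omega

theorem Cf.finrank_red [FiniteDimensional L V] (hR : R ≤ pp a.q R) (A : Submodule L V)
    (S : Submodule L D.P) :
    finrank L ((A ⊓ pp a.q R).map D.π ⊓ S : Submodule L D.P) +
      finrank L (A ⊓ R : Submodule L V) = finrank L (A ⊓ D.up S : Submodule L V) := by
  have h1 : (A ⊓ D.up S).map D.π = (A ⊓ pp a.q R).map D.π ⊓ S := by
    ext v
    constructor
    · rintro ⟨u, ⟨h1, h2, h3⟩, rfl⟩
      exact ⟨⟨u, ⟨h1, h2⟩, rfl⟩, h3⟩
    · rintro ⟨⟨u, ⟨h1, h2⟩, rfl⟩, h3⟩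
      exact ⟨u, ⟨h1, h2, h3⟩, rfl⟩
  have h2 : A ⊓ D.up S ⊓ LinearMap.ker D.π = A ⊓ R := by
    ext v
    constructor
    · rintro ⟨⟨h1, h2, h3⟩, h4⟩
      refine ⟨h1, ?_⟩
      have h5 := D.π_sub v h2
      rw [LinearMap.mem_ker.mp h4, Submodule.coe_zero, sub_zero] at h5
      exact h5
    · rintro ⟨h1, h2⟩
      exact ⟨⟨h1, D.R_le_up hR S h2⟩, D.π_R v h2⟩
  rw [← h1, ← h2]
  exact finrank_map_ker D.π _

theorem Cf.Good.red [FiniteDimensional L V] (h : a.Good) : (a.red D).Good where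
  form := D.isForm h.form
  skew := h.skew
  zero s := by
    show (a.F s 0 ⊓ pp a.q R).map D.π = ⊥
    rw [h.zero, bot_inf_eq, Submodule.map_bot]
  mono s i j hij := Submodule.map_mono (inf_le_inf_right _ (h.mono s hij))
  step s i := by
    show finrank L ((a.F s (i + 1) ⊓ pp a.q R).map D.π) ≤
      finrank L ((a.F s i ⊓ pp a.q R).map D.π) + 1
    have h1 := finrank_map_ker D.π (a.F s (i + 1) ⊓ pp a.q R)
    have h2 := finrank_map_ker D.π (a.F s i ⊓ pp a.q R)
    have h3 : finrank L (a.F s (i + 1) ⊓ pp a.q R : Submodule L V) ≤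
        finrank L (a.F s i ⊓ pp a.q R : Submodule L V) + 1 :=
      finrank_inf_step (h.mono s (Nat.le_succ i)) (h.step s i)
    have h4 : finrank L (a.F s i ⊓ pp a.q R ⊓ LinearMap.ker D.π : Submodule L V) ≤
        finrank L (a.F s (i + 1) ⊓ pp a.q R ⊓ LinearMap.ker D.π : Submodule L V) :=
      Submodule.finrank_mono (inf_le_inf_right _ (inf_le_inf_right _ (h.mono s (Nat.le_succ i))))
    omega
  isoF s i := by
    rintro _ ⟨u, ⟨h1, h2⟩, rfl⟩ _ ⟨v, ⟨h3, h4⟩, rfl⟩
    show a.q (D.π v : V) (D.π u : V) = 0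
    rw [D.q_π h.form h4 h2]
    exact h.isoF s i h1 v h3

/-- `θ` of the reduction -/
theorem Cf.Good.θ_red [Fintype J] [FiniteDimensional L V] (h : a.Good) (hR : R ≤ pp a.q R)
    (S : Submodule L D.P) : (a.red D).θ S = a.θ (D.up S) - a.θ R := by
  rw [Cf.θ, Cf.θ, Cf.θ, ← Finset.sum_sub_distrib]
  refine Finset.sum_congr rfl fun l _ => ?_
  have h1 := Cf.finrank_red D hR (a.C l) S
  have h2 := Cf.finrank_red D hR (a.C l) (pp (a.q.domRestrict₁₂ D.P D.P) S)
  have h3 := Cf.finrank_red D hR (a.C l) ⊤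
  rw [inf_top_eq, D.up_top] at h3
  rw [← D.pp_up h.form hR] at h2
  show (finrank L ((a.C l ⊓ pp a.q R).map D.π ⊓ S : Submodule L D.P) : ℤ) +
    finrank L ((a.C l ⊓ pp a.q R).map D.π ⊓ pp (a.q.domRestrict₁₂ D.P D.P) S :
      Submodule L D.P) - finrank L ((a.C l ⊓ pp a.q R).map D.π) = _
  omega

variable [Fintype J]

theorem Cf.Good.M_red (h : a.Good) {t r : J → V} (ht : ∀ l, t l ∈ pp a.q R)
    (hr : ∀ l, r l ∈ pp a.q R) : (a.red D).M (fun l => D.π (t l)) (fun l => D.π (r l)) =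
      a.M t r := by
  rw [Cf.M_eq, Cf.M_eq]
  refine Finset.sum_congr rfl fun l _ => Finset.sum_congr rfl fun k _ => ?_
  show a.Ω l k * a.q (D.π (t l) : V) (D.π (r k) : V) = _
  rw [D.q_π h.form (ht l) (hr k)]

omit [Fintype J] in
theorem Cf.mem_red_C {l : J} {v : D.P} :
    v ∈ (a.red D).C l ↔ ∃ u ∈ a.C l, u ∈ pp a.q R ∧ D.π u = v := by
  constructor
  · rintro ⟨u, ⟨h1, h2⟩, h3⟩
    exact ⟨u, h1, h2, h3⟩
  · rintro ⟨u, h1, h2, h3⟩
    exact ⟨u, ⟨h1, h2⟩, h3⟩

/-- the radical of `E_{R^⊥}` maps to the kernel of the reduction -/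
theorem Cf.Good.finrank_rad_le [FiniteDimensional L V] (h : a.Good) :
    finrank L (a.E (pp a.q R) ⊓ a.perp (a.E (pp a.q R)) : Submodule L (J → V)) ≤
      finrank L (a.red D).K + finrank L (a.E R) := by
  let Pm : (J → V) →ₗ[L] (J → D.P) :=
    { toFun := fun t l => D.π (t l)
      map_add' := fun t r => by funext l; exact map_add _ _ _
      map_smul' := fun c t => by funext l; exact map_smul _ _ _ }
  have h1 := finrank_map_ker Pm (a.E (pp a.q R) ⊓ a.perp (a.E (pp a.q R)))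
  have h2 : (a.E (pp a.q R) ⊓ a.perp (a.E (pp a.q R))).map Pm ≤ (a.red D).K := by
    rintro _ ⟨t, ⟨ht1, ht2⟩, rfl⟩
    have ht1' := mem_E.mp ht1
    refine mem_K'.mpr ⟨fun l => (Cf.mem_red_C D).mpr ⟨t l, (ht1' l).1, (ht1' l).2, rfl⟩,
      fun w hw => ?_⟩
    choose r hr1 hr2 hr3 using fun l => (Cf.mem_red_C D).mp (hw l)
    have h3 : w = fun l => D.π (r l) := funext fun l => (hr3 l).symm
    rw [h3]
    show (a.red D).M (fun l => D.π (r l)) (fun l => D.π (t l)) = 0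
    rw [h.M_red D hr2 (fun l => (ht1' l).2)]
    exact (mem_perp.mp ht2).2 r (mem_E.mpr fun l => ⟨hr1 l, hr2 l⟩)
  have h3 : (a.E (pp a.q R) ⊓ a.perp (a.E (pp a.q R))) ⊓ LinearMap.ker Pm ≤ a.E R := by
    rintro t ⟨⟨ht1, -⟩, ht3⟩
    have ht1' := mem_E.mp ht1
    refine mem_E.mpr fun l => ⟨(ht1' l).1, ?_⟩
    have h4 : D.π (t l) = 0 := congrFun ht3 l
    have h5 := D.π_sub _ (ht1' l).2
    rwa [h4, Submodule.coe_zero, sub_zero] at h5
  have h4 := Submodule.finrank_mono h2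
  have h5 := Submodule.finrank_mono h3
  omega

/-- **The data (g)** from the inequality for the reduction. -/
theorem Cf.Good.data_g [FiniteDimensional L V] (h : a.Good) (hR : R ≤ pp a.q R)
    (hK : a.K ≤ a.E (pp a.q R))
    (hT : ∃ S : Submodule L D.P, S ≤ pp (a.red D).q S ∧
      (finrank L (a.red D).K : ℤ) ≤ (a.red D).θ S) :
    ∃ S : Submodule L V, R ≤ S ∧ S ≤ pp a.q S ∧
      a.E (pp a.q R) ⊓ a.perp (a.E (pp a.q R)) ≤ a.E S ∧
      a.perp (a.E (pp a.q S)) = a.E S ⊔ a.perp (a.E (pp a.q R)) := by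
  obtain ⟨S', hS1, hS2⟩ := hT
  have hRS := D.R_le_up hR S'
  have hSS : D.up S' ≤ pp a.q (D.up S') := by
    rw [D.pp_up h.form hR]
    exact inf_le_inf_left _ (Submodule.comap_mono hS1)
  rw [h.θ_red D hR, a.θ_eq, a.θ_eq] at hS2
  have h1 := h.finrank_rad_le D
  have h2 := lemmaG (M := a.M) (E := a.E ⊤) (S := a.E (D.up S')) (S' := a.E (pp a.q (D.up S')))
    (A' := a.E (pp a.q R)) h.M_skew (E_mono hSS) (E_mono (pp_anti hRS)) (E_le_top _) (by
      intro x hx y hy
      rw [Cf.M_apply]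
      exact Finset.sum_eq_zero fun l _ =>
        om_mem (R := pp a.q (D.up S')) (fun k => (mem_E.mp hy k).2) l _ (mem_E.mp hx l).2) hK (by
      have h3 : finrank L (a.E (pp a.q R) ⊓ po a.M (a.E ⊤) (a.E (pp a.q R)) :
        Submodule L (J → V)) ≤ finrank L (a.red D).K + finrank L (a.E R) := h1
      omega)
  exact ⟨D.up S', hRS, hSS, h2.1, h2.2.2⟩

end red

end Vale.Agent.P182.H96
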