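import Vale.Agent.P182.H96.Key

/-!
# The relations F1, F2, F4 and isotropic elements of the kernel
-/

namespace Vale.Agent.P182.H96

open Module Matrix Vale.Agent.P182.H533

namespace Cf

section rel

variable {L V J ι : Type*} [Field L] [AddCommGroup V] [Module L V] [Fintype J]
  {a : Cf L V J ι} [DecidableEq J]

omit [DecidableEq J] in
/-- the derivative of `M x y` -/
theorem Good.first_order (h : a.Good) {x y : J → V} (hx : x ∈ a.K) (hy : y ∈ a.K)
    {Y : ι → End L V} (c : Conn a.q) (h1 : ∀ s i, ∀ v ∈ a.F s i, c.δ v - Y s v ∈ a.F s i) :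
    ∑ l, ∑ k, c.d (a.Ω l k) * a.q (x l) (y k) +
      (∑ l, a.q (Y (a.arm l) (x l)) (om a.Ω y l) -
        ∑ l, a.q (Y (a.arm l) (y l)) (om a.Ω x l)) = 0 := by
  have e0 : a.M x y = 0 := (mem_K'.mp hy).2 x (mem_K'.mp hx).1
  have e1 : c.d (a.M x y) = ∑ l, ∑ k, c.d (a.Ω l k) * a.q (x l) (y k) +
      (a.M (fun l => c.δ (x l)) y + a.M x (fun l => c.δ (y l))) := by
    rw [M_eq, M_eq, M_eq, map_sum, ← Finset.sum_add_distrib, ← Finset.sum_add_distrib]
    refine Finset.sum_congr rfl fun l _ => ?_
    rw [map_sum, ← Finset.sum_add_distrib, ← Finset.sum_add_distrib]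
    refine Finset.sum_congr rfl fun k _ => ?_
    rw [c.leib, c.metric]
    ring
  have e2 : ∀ {x y : J → V}, x ∈ a.K → y ∈ a.K → a.M (fun l => c.δ (x l)) y =
      ∑ l, a.q (Y (a.arm l) (x l)) (om a.Ω y l) := by
    intro x y hx hy
    have h3 : a.M (fun l => c.δ (x l) - Y (a.arm l) (x l)) y = 0 :=
      (mem_K'.mp hy).2 _ fun l => h1 _ _ _ ((mem_K'.mp hx).1 l)
    have h4 : (fun l => c.δ (x l)) =
        (fun l => c.δ (x l) - Y (a.arm l) (x l)) + fun l => Y (a.arm l) (x l) := by
      funext l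
      show _ = c.δ (x l) - Y (a.arm l) (x l) + Y (a.arm l) (x l)
      rw [sub_add_cancel]
    rw [h4, map_add, LinearMap.add_apply, h3, zero_add, M_apply]
  rw [e0, map_zero, e2 hx hy, h.M_skew x, e2 hy hx] at e1
  rw [sub_eq_add_neg]
  exact e1.symm

/-- **F1.** -/
theorem Good.F1 (h : a.Good) (hV : a.Versal) {x y : J → V} (hx : x ∈ a.K) (hy : y ∈ a.K)
    (l k : J) : a.q (x l) (y k) = a.q (x k) (y l) := by
  apply sym_of_skew (g := fun l k => a.q (x l) (y k))
  intro η hη
  obtain ⟨c, hc1, hc2⟩ := hV (fun _ => 0) (fun s u v => by simp) η hη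
  have h1 := h.first_order (Y := fun _ => 0) hx hy c hc1
  simp only [LinearMap.zero_apply, map_zero, Finset.sum_const_zero, sub_zero, add_zero] at h1
  rw [← h1]
  exact Finset.sum_congr rfl fun l _ => Finset.sum_congr rfl fun k _ => by rw [hc2]

/-- **F2.** -/
theorem Good.F2 [DecidableEq ι] (h : a.Good) (hV : a.Versal) {x y : J → V} (hx : x ∈ a.K)
    (hy : y ∈ a.K) (s : ι) (v : V) : a.tau s x y v = a.tau s y x v := by
  rw [← sub_eq_zero]
  apply h.form.nondeg
  intro g
  obtain ⟨c, hc1, hc2⟩ := hV (fun s' => if s' = s then wd a.q g v else 0) (fun s' => by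
    split_ifs
    · exact wd_sk h.form g v
    · intro u v; simp) (fun _ _ => 0) (fun _ _ => by simp)
  have h1 := h.first_order (Y := fun s' => if s' = s then wd a.q g v else 0) hx hy c hc1
  simp only [hc2, zero_mul, Finset.sum_const_zero, zero_add] at h1
  have h2 : ∀ x y : J → V, ∑ l, a.q ((if a.arm l = s then wd a.q g v else 0 : End L V) (x l))
      (om a.Ω y l) = ∑ l with a.arm l = s,
        (a.q g (x l) * a.q v (om a.Ω y l) - a.q v (x l) * a.q g (om a.Ω y l)) := by
    intro x y
    rw [Finset.sum_filter]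
    refine Finset.sum_congr rfl fun l _ => ?_
    by_cases hl : a.arm l = s
    · rw [if_pos hl, if_pos hl, wd_apply, map_sub, map_smul, map_smul, LinearMap.sub_apply,
        LinearMap.smul_apply, LinearMap.smul_apply, smul_eq_mul, smul_eq_mul]
    · rw [if_neg hl, if_neg hl, LinearMap.zero_apply, map_zero, LinearMap.zero_apply]
  rw [h2, h2, ← Finset.sum_sub_distrib] at h1
  rw [h.form.symm, map_sub, tau, tau, map_sum, map_sum, ← Finset.sum_sub_distrib, ← neg_eq_zero,
    ← Finset.sum_neg_distrib, ← h1]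
  refine Finset.sum_congr rfl fun l _ => ?_
  rw [map_add, map_add, map_smul, map_smul, map_smul, map_smul, h.form.symm (x l) v,
    h.form.symm (y l) v, h.form.symm (om a.Ω x l) v, h.form.symm (om a.Ω y l) v]
  simp only [smul_eq_mul]
  ring

/-- isotropic elements of the kernel are orthogonal to the kernel -/
theorem Good.N1K [DecidableEq ι] (h : a.Good) (hV : a.Versal) (hN : a.N1sq) {x y : J → V}
    (hx : x ∈ a.K) (hy : y ∈ a.K) (hxx : ∀ l k, a.q (x l) (x k) = 0) (l k : J) :
    a.q (y l) (x k) = 0 := by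
  have hox : ∀ l k, a.q (om a.Ω x l) (x k) = 0 := by
    intro l k
    rw [om, map_sum, LinearMap.sum_apply]
    exact Finset.sum_eq_zero fun j _ => by rw [map_smul, LinearMap.smul_apply, hxx, smul_zero]
  refine h.gram_zero hN hx (mem_K'.mp hy).1 (h.F1 hV hy hx) (fun s i j => ?_) l k
  have h1 := congrArg (a.q (y j)) (h.F2 hV hy hx s (x i))
  have h2 : a.tau s x y (x i) = 0 := by
    rw [tau]
    exact Finset.sum_eq_zero fun l _ => by rw [hxx, hox, zero_smul, zero_smul, add_zero]
  rw [h2, map_zero, tau, map_sum] at h1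
  rw [← h1]
  refine Finset.sum_congr rfl fun l _ => ?_
  rw [map_add, map_smul, map_smul, smul_eq_mul, smul_eq_mul, h.form.symm (x i) (y l),
    h.form.symm (x i) (om a.Ω y l)]

/-- infinitesimal movements of `R` realised in every arm -/
structure Eps (a : Cf L V J ι) (R : Submodule L V) (b : ι → End L V) : Prop where
  sk : ∀ s, IsSk a.q (b s)
  presF : ∀ s i, ∀ v ∈ a.F s i, b s v ∈ a.F s i
  comp : ∀ s s', ∀ r ∈ R, b s r - b s' r ∈ R

omit [Fintype J] [DecidableEq J] in
theorem Eps.pres {R : Submodule L V} {b : ι → End L V} (h : a.Eps R b) (l : J) :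
    ∀ v ∈ a.C l, b (a.arm l) v ∈ a.C l := h.presF _ _

omit [Fintype J] [DecidableEq J] in
theorem Eps.add {R : Submodule L V} {b b' : ι → End L V} (h : a.Eps R b) (h' : a.Eps R b') :
    a.Eps R (b + b') where
  sk s u v := by
    simp only [Pi.add_apply, LinearMap.add_apply, map_add, h.sk s u v, h'.sk s u v]
    ring
  presF s i v hv := (a.F s i).add_mem (h.presF s i v hv) (h'.presF s i v hv)
  comp s s' r hr := by
    have := R.add_mem (h.comp s s' r hr) (h'.comp s s' r hr)
    simp only [Pi.add_apply, LinearMap.add_apply]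
    convert this using 1
    abel

omit [Fintype J] [DecidableEq J] in
theorem Eps.smul {R : Submodule L V} {b : ι → End L V} (h : a.Eps R b) (c : L) :
    a.Eps R (c • b) where
  sk s u v := by
    simp only [Pi.smul_apply, LinearMap.smul_apply, map_smul, h.sk s u v, smul_eq_mul]
    ring
  presF s i v hv := (a.F s i).smul_mem c (h.presF s i v hv)
  comp s s' r hr := by
    simp only [Pi.smul_apply, LinearMap.smul_apply]
    rw [← smul_sub]
    exact R.smul_mem c (h.comp s s' r hr)

omit [Fintype J] [DecidableEq J] in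
theorem Eps.zero {R : Submodule L V} : a.Eps R 0 where
  sk s u v := by simp
  presF s i v _ := (a.F s i).zero_mem
  comp s s' r _ := by simp

/-- the space of the vectors `ε x` -/
def TT (a : Cf L V J ι) (R : Submodule L V) (x : J → V) : Submodule L (J → V) where
  carrier := {t | ∃ b : ι → End L V, a.Eps R b ∧ ∀ l, t l = b (a.arm l) (x l)}
  add_mem' := by
    rintro t t' ⟨b, h1, h2⟩ ⟨b', h1', h2'⟩
    exact ⟨b + b', h1.add h1', fun l => by rw [Pi.add_apply, h2, h2']; rfl⟩
  zero_mem' := ⟨0, Eps.zero, fun l => rfl⟩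
  smul_mem' := by
    rintro c t ⟨b, h1, h2⟩
    exact ⟨c • b, h1.smul c, fun l => by rw [Pi.smul_apply, h2]; rfl⟩

variable [DecidableEq ι] [Fintype ι] [FiniteDimensional L V]

/-- **F4.** -/
theorem Good.F4 (h : a.Good) (h2 : (2 : L) ≠ 0) (hV : a.Versal) (hN : a.N1sq) {x : J → V}
    (hx : x ∈ a.K) {R : Submodule L V} (hRx : R = Submodule.span L (Set.range x))
    (hR : R ≤ pp a.q R) : a.perp (a.E (pp a.q R)) ≤ a.K ⊔ a.E R ⊔ a.TT R x := by
  have hxR : ∀ l, x l ∈ R := fun l => by rw [hRx]; exact Submodule.subset_span ⟨l, rfl⟩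
  have hx' := mem_K.mp hx
  set W := a.K ⊔ a.E R ⊔ a.TT R x with hW
  have hWE : W ≤ a.E ⊤ := by
    refine sup_le (sup_le (po_le _) (E_le_top R)) ?_
    rintro t ⟨b, h1, h3⟩
    refine mem_E_top.mpr fun l => ?_
    rw [h3]
    exact h1.pres l _ (hx'.1 l)
  have hKW : a.K ≤ W := le_sup_left.trans le_sup_left
  have hWW : a.perp (a.perp W) = W := by
    rw [perp, perp, po_po h.M_skew hWE]
    exact sup_eq_left.mpr hKW
  have hle : a.perp W ≤ a.E (pp a.q R) := by
    intro z hz
    obtain ⟨hz1, hz2⟩ := mem_perp.mp hz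
    have hzR : ∀ t ∈ a.E R, a.M t z = 0 := fun t ht =>
      hz2 t ((le_sup_right.trans le_sup_left : a.E R ≤ W) ht)
    have hT : ∀ B : ι → End L V, (∀ s, IsSk a.q (B s)) → (∀ s, ∀ r ∈ R, B s r ∈ R) →
        a.Tt z x B = 0 := by
      intro B hB hBR
      obtain ⟨c, hc1, hc2⟩ := hV (fun s => - B s) (fun s u v => by
        rw [LinearMap.neg_apply, LinearMap.neg_apply, map_neg, map_neg, LinearMap.neg_apply,
          hB s u v]) (fun _ _ => 0) (fun _ _ => by simp)
      obtain ⟨cs, h3, h4, h5⟩ := h.exists_cs h2 c hR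
      have hkey := h.key c hx hz1 hxR hzR cs h3 (fun l => h4 _ _) h5
      simp only [hc2, zero_mul, Finset.sum_const_zero, zero_add] at hkey
      have hb : a.Eps R ((fun s => dif c (cs s) (h3 s)) - B) := by
        refine ⟨fun s u v => ?_, fun s i v hv => ?_, fun s s' r hr => ?_⟩
        · have e1 := dif_sk c (cs s) (h3 s) u v
          simp only [Pi.sub_apply, LinearMap.sub_apply, map_sub, hB s u v, e1]
          ring
        · have e1 := (a.F s i).sub_mem (h4 s i v hv) (hc1 s i v hv)
          simp only [LinearMap.neg_apply, sub_neg_eq_add] at e1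
          simp only [Pi.sub_apply, LinearMap.sub_apply, dif_apply]
          convert e1 using 1
          abel
        · have e1 := R.sub_mem (R.sub_mem (h5 s r hr) (h5 s' r hr))
            (R.sub_mem (hBR s r hr) (hBR s' r hr))
          simp only [Pi.sub_apply, LinearMap.sub_apply, dif_apply]
          convert e1 using 1
          abel
      have hb0 : a.Tt z x ((fun s => dif c (cs s) (h3 s)) - B) = 0 := by
        have e1 : ∑ l, a.q (z l) (((fun s => dif c (cs s) (h3 s)) - B) (a.arm l)
            (om a.Ω x l)) = 0 := by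
          refine Finset.sum_eq_zero fun l _ => ?_
          have e2 := hb.sk (a.arm l) (z l) (om a.Ω x l)
          rw [hx'.2 l _ (hb.pres l _ (hz1 l))] at e2
          exact neg_eq_zero.mp e2.symm
        rw [Tt, Finset.sum_add_distrib, e1, add_zero]
        have e3 := hz2 (fun l => ((fun s => dif c (cs s) (h3 s)) - B) (a.arm l) (x l))
          ((le_sup_right : a.TT R x ≤ W) ⟨_, hb, fun l => rfl⟩)
        rw [h.M_skew, h.M_apply', neg_neg] at e3
        exact e3
      rw [Tt_sub, hkey, zero_sub, neg_eq_zero] at hb0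
      exact hb0
    have hZ := h.lemmaZ h2 hV hN hx hxR hR hz1 hzR (tau_eq_zero_of_Tt h hxR hR
      fun B hB hBR => hT B hB fun s r hr => hBR s r (hR hr))
    refine mem_E.mpr fun l => ⟨hz1 l, fun r hr => ?_⟩
    rw [hRx] at hr
    induction hr using Submodule.span_induction with
    | mem r hr =>
      obtain ⟨k, rfl⟩ := hr
      rw [h.form.symm]
      exact hZ l k
    | zero => rw [map_zero, LinearMap.zero_apply]
    | add u v _ _ hu hv => rw [map_add, LinearMap.add_apply, hu, hv, add_zero]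
    | smul c u _ hu => rw [map_smul, LinearMap.smul_apply, hu, smul_zero]
  exact (po_anti hle).trans hWW.le

/-- **F4'.** -/
theorem Good.F4' (h : a.Good) (h2 : (2 : L) ≠ 0) (hV : a.Versal) (hN : a.N1sq) {x : J → V}
    (hx : x ∈ a.K) {R : Submodule L V} (hRx : R = Submodule.span L (Set.range x))
    (hR : R ≤ pp a.q R) {v : J → V} (hv : v ∈ a.perp (a.E (pp a.q R))) (l k : J) :
    a.q (v l) (x k) = - a.q (v k) (x l) := by
  have hxR : ∀ l, x l ∈ R := fun l => by rw [hRx]; exact Submodule.subset_span ⟨l, rfl⟩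
  have hxx : ∀ l k, a.q (x l) (x k) = 0 := fun l k => hR (hxR k) (x l) (hxR l)
  let Sk : Submodule L (J → V) :=
    { carrier := {v | ∀ l k, a.q (v l) (x k) = - a.q (v k) (x l)}
      add_mem' := by
        intro u v hu hv l k
        simp only [Pi.add_apply, map_add, LinearMap.add_apply, hu l k, hv l k]
        ring
      zero_mem' := by intro l k; simp
      smul_mem' := by
        intro c v hv l k
        simp only [Pi.smul_apply, map_smul, LinearMap.smul_apply, hv l k, smul_neg] }
  have hle : a.K ⊔ a.E R ⊔ a.TT R x ≤ Sk := by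
    refine sup_le (sup_le ?_ ?_) ?_
    · intro y hy l k
      rw [h.N1K hV hN hx hy hxx, h.N1K hV hN hx hy hxx, neg_zero]
    · intro t ht l k
      rw [hR (hxR k) _ (mem_E.mp ht l).2, hR (hxR l) _ (mem_E.mp ht k).2, neg_zero]
    · rintro t ⟨b, hb, hb'⟩ l k
      rw [hb', hb', hb.sk, neg_inj, h.form.symm (b (a.arm k) (x k))]
      have h3 := hR (hb.comp (a.arm l) (a.arm k) (x k) (hxR k)) (x l) (hxR l)
      rw [map_sub, sub_eq_zero] at h3
      exact h3
  exact hle (h.F4 h2 hV hN hx hRx hR hv) l k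

/-- **Type (i).** -/
theorem Good.typeI (h : a.Good) (h2 : (2 : L) ≠ 0) (hV : a.Versal) (hN : a.N1sq) {x y : J → V}
    (hx : x ∈ a.K) (hy : y ∈ a.K) {R : Submodule L V}
    (hRx : R = Submodule.span L (Set.range x)) (hR : R ≤ pp a.q R) {b : ι → End L V}
    (hb : a.Eps R b) (hyb : ∀ l, y l - b (a.arm l) (x l) ∈ R) (l k : J) :
    a.q (y l) (y k) = 0 := by
  have hxR : ∀ l, x l ∈ R := fun l => by rw [hRx]; exact Submodule.subset_span ⟨l, rfl⟩
  have hxx : ∀ l k, a.q (x l) (x k) = 0 := fun l k => hR (hxR k) (x l) (hxR l)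
  have hyR : ∀ l, ∀ r ∈ R, a.q (y l) r = 0 := by
    intro l r hr
    rw [hRx] at hr
    induction hr using Submodule.span_induction with
    | mem r hr =>
      obtain ⟨k, rfl⟩ := hr
      exact h.N1K hV hN hx hy hxx l k
    | zero => rw [map_zero]
    | add u v _ _ hu hv => rw [map_add, hu, hv, add_zero]
    | smul c u _ hu => rw [map_smul, hu, smul_zero]
  -- independence of the arm
  have hind : ∀ l s s', ∀ r ∈ R, a.q (y l) (b s r) = a.q (y l) (b s' r) := by
    intro l s s' r hr
    have := hyR l _ (hb.comp s s' r hr)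
    rwa [map_sub, sub_eq_zero] at this
  have hy' := mem_K.mp hy
  let z : J → V := fun l => - b (a.arm l) (y l)
  have hz : ∀ l, z l ∈ a.C l := fun l => (a.C l).neg_mem (hb.pres l _ (hy'.1 l))
  have hzr : ∀ l s, ∀ r ∈ R, a.q (z l) r = a.q (y l) (b s r) := by
    intro l s r hr
    show a.q (- b (a.arm l) (y l)) r = _
    rw [map_neg, LinearMap.neg_apply, hb.sk, neg_neg]
    exact hind l _ _ r hr
  have hzR : ∀ t ∈ a.E R, a.M t z = 0 := by
    intro t ht
    have ht' := mem_E.mp ht
    rw [h.M_skew, M_apply, neg_eq_zero]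
    have e1 : ∀ l, a.q (z l) (om a.Ω t l) =
        ∑ k, a.Ω l k * a.q (y l) (b (a.arm k) (t k)) := by
      intro l
      rw [om, map_sum]
      exact Finset.sum_congr rfl fun k _ => by
        rw [map_smul, smul_eq_mul, hzr l (a.arm k) _ (ht' k).2]
    simp only [e1]
    have e2 : a.M (fun k => b (a.arm k) (t k)) y = 0 :=
      (mem_K'.mp hy).2 _ fun k => hb.pres k _ (ht' k).1
    rw [h.M_skew, M_eq, neg_eq_zero] at e2
    exact e2
  have hox : ∀ l s, ∀ r ∈ R, a.q (x l) (b s r) = 0 := by
    intro l s r hr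
    have e1 := hb.sk s (x l) r
    have e2 := hR hr _ (hb.comp s (a.arm l) (x l) (hxR l))
    have e3 := hR hr _ (hyb l)
    rw [map_sub, LinearMap.sub_apply] at e2 e3
    rw [hyR l r hr] at e3
    linear_combination e1 - e2 + e3
  have hτ : ∀ s, ∀ r ∈ R, a.tau s z x r = 0 := by
    intro s r hr
    have e1 : ∀ l, a.q (om a.Ω z l) r = a.q (om a.Ω y l) (b s r) := by
      intro l
      rw [om, om, map_sum, map_sum, LinearMap.sum_apply, LinearMap.sum_apply]
      exact Finset.sum_congr rfl fun k _ => by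
        rw [map_smul, map_smul, LinearMap.smul_apply, LinearMap.smul_apply, hzr k s r hr]
    have e2 : a.tau s z x r = a.tau s y x (b s r) := by
      rw [tau, tau]
      exact Finset.sum_congr rfl fun l _ => by rw [e1, hzr l s r hr]
    rw [e2, h.F2 hV hy hx, tau]
    refine Finset.sum_eq_zero fun l _ => ?_
    have e3 : a.q (om a.Ω x l) (b s r) = 0 := by
      rw [om, map_sum, LinearMap.sum_apply]
      exact Finset.sum_eq_zero fun k _ => by
        rw [map_smul, LinearMap.smul_apply, hox k s r hr, smul_zero]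
    rw [hox l s r hr, e3, zero_smul, zero_smul, add_zero]
  have hZ := h.lemmaZ h2 hV hN hx hxR hR hz hzR hτ l k
  rw [hzr l (a.arm k) _ (hxR k)] at hZ
  have e4 := hyR l _ (hyb k)
  rw [map_sub, hZ, sub_zero] at e4
  exact e4

end rel

end Cf

end Vale.Agent.P182.H96
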