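import Vale.Agent.P182.H96.Zar
import Vale.Agent.P182.H96.Bridge
import Vale.Agent.P182.H664.Frame

/-!
# The pivot at a cross pair and tight elements of the kernel
-/

namespace Vale.Agent.P182.H96

open Module Matrix Vale.Agent.P182.H533 Vale.Agent.P182.B1

section swap

variable {L V J : Type*} [Field L] [AddCommGroup V] [Module L V] [Fintype J] [DecidableEq J]

omit [DecidableEq J] in
theorem om_mul (A B : Matrix J J L) (t : J → V) (l : J) : om (A * B) t l = om A (om B t) l := by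
  simp only [om, Finset.smul_sum, smul_smul, Matrix.mul_apply, Finset.sum_smul]
  exact Finset.sum_comm

theorem om_one (t : J → V) (l : J) : om (1 : Matrix J J L) t l = t l := by
  rw [om, Finset.sum_eq_single l]
  · rw [Matrix.one_apply_eq, one_smul]
  · intro k _ hk
    rw [Matrix.one_apply_ne (Ne.symm hk), zero_smul]
  · intro h; exact absurd (Finset.mem_univ _) h

/-- **The pivot.** -/
theorem exists_swap {Ω : Matrix J J L} (hΩ : Ωᵀ = -Ω) {p r : J} (hpr : Ω p r ≠ 0)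
    (h2 : (2 : L) ≠ 0) : ∃ Z : Matrix J J L, Zᵀ = -Z ∧ ∀ t' : J → V, ∃ t : J → V,
      (t = 0 → t' = 0) ∧ (∀ l, l ≠ p → l ≠ r → t l = t' l ∧ om Ω t l = om Z t' l) ∧
        om Ω t p = t' p ∧ t p = om Z t' p ∧ om Ω t r = t' r ∧ t r = om Z t' r := by
  have hsk : ∀ l k, Ω l k = -Ω k l := fun l k => by
    have := congrFun (congrFun hΩ k) l
    rwa [transpose_apply, Matrix.neg_apply] at this
  have hdiag : ∀ l, Ω l l = 0 := fun l => by
    have h1 := hsk l l
    have h3 : 2 * Ω l l = 0 := by linear_combination h1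
    exact (mul_eq_zero.mp h3).resolve_left h2
  let T : Matrix J J L := Matrix.of fun l k => if l = p ∨ l = r then Ω l k else (1 : Matrix J J L) l k
  let U : Matrix J J L := Matrix.of fun l k => if l = p ∨ l = r then (1 : Matrix J J L) l k else Ω l k
  have hT1 : ∀ (t : J → V) l, l = p ∨ l = r → om T t l = om Ω t l := fun t l hl => by
    simp only [om, T, Matrix.of_apply, if_pos hl]
  have hT2 : ∀ (t : J → V) l, ¬ (l = p ∨ l = r) → om T t l = t l := fun t l hl => by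
    conv_rhs => rw [← om_one (L := L) t l]
    simp only [om, T, Matrix.of_apply, if_neg hl]
  have hU1 : ∀ (t : J → V) l, l = p ∨ l = r → om U t l = t l := fun t l hl => by
    conv_rhs => rw [← om_one (L := L) t l]
    simp only [om, U, Matrix.of_apply, if_pos hl]
  have hU2 : ∀ (t : J → V) l, ¬ (l = p ∨ l = r) → om U t l = om Ω t l := fun t l hl => by
    simp only [om, U, Matrix.of_apply, if_neg hl]
  -- `T` is invertible
  have hdet : T.det ≠ 0 := by
    intro h0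
    obtain ⟨v, hv, hTv⟩ := Matrix.exists_mulVec_eq_zero_iff.mpr h0
    apply hv
    have e1 : ∀ l, ¬ (l = p ∨ l = r) → v l = 0 := by
      intro l hl
      have h1 := congrFun hTv l
      rw [Matrix.mulVec, dotProduct, Pi.zero_apply, Finset.sum_eq_single l] at h1
      · simpa [T, hl] using h1
      · intro k _ hk
        simp [T, hl, Ne.symm hk]
      · intro h; exact absurd (Finset.mem_univ _) h
    have e2 : ∀ l m, (l = p ∧ m = r ∨ l = r ∧ m = p) → v m = 0 := by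
      intro l m hlm
      have hl : l = p ∨ l = r := by rcases hlm with h | h <;> simp [h.1]
      have h1 := congrFun hTv l
      rw [Matrix.mulVec, dotProduct, Pi.zero_apply, Finset.sum_eq_single m] at h1
      · have h3 : Ω l m * v m = 0 := by simpa [T, hl] using h1
        refine (mul_eq_zero.mp h3).resolve_left ?_
        rcases hlm with ⟨rfl, rfl⟩ | ⟨rfl, rfl⟩
        · exact hpr
        · rw [hsk]; exact neg_ne_zero.mpr hpr
      · intro k _ hk
        by_cases hkl : k = l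
        · subst hkl
          simp [T, hl, hdiag]
        · have : ¬ (k = p ∨ k = r) := by
            rcases hlm with ⟨rfl, rfl⟩ | ⟨rfl, rfl⟩
            · rintro (h | h)
              · exact hkl h
              · exact hk h
            · rintro (h | h)
              · exact hk h
              · exact hkl h
          rw [e1 k this, mul_zero]
      · intro h; exact absurd (Finset.mem_univ _) h
    funext l
    by_cases hl : l = p ∨ l = r
    · rcases hl with rfl | rfl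
      · exact e2 r l (Or.inr ⟨rfl, rfl⟩)
      · exact e2 p l (Or.inl ⟨rfl, rfl⟩)
    · exact e1 l hl
  have hu : IsUnit T.det := isUnit_iff_ne_zero.mpr hdet
  have hTU : Tᵀ * U + Uᵀ * T = 0 := by
    ext k k'
    rw [Matrix.add_apply, Matrix.mul_apply, Matrix.mul_apply, Matrix.zero_apply,
      ← Finset.sum_add_distrib]
    have e1 : ∀ l, Tᵀ k l * U l k' + Uᵀ k l * T l k' =
        Ω l k * (1 : Matrix J J L) l k' + (1 : Matrix J J L) l k * Ω l k' := by
      intro l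
      simp only [Matrix.transpose_apply, T, U, Matrix.of_apply]
      split_ifs <;> ring
    rw [Finset.sum_congr rfl fun l _ => e1 l, Finset.sum_add_distrib,
      Finset.sum_eq_single k' (fun l _ hl => by rw [Matrix.one_apply_ne hl, mul_zero])
        (fun h => absurd (Finset.mem_univ _) h),
      Finset.sum_eq_single k (fun l _ hl => by rw [Matrix.one_apply_ne hl, zero_mul])
        (fun h => absurd (Finset.mem_univ _) h), Matrix.one_apply_eq, Matrix.one_apply_eq,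
      hsk k' k]
    ring
  refine ⟨U * T⁻¹, ?_, fun t' => ⟨om T⁻¹ t', ?_, ?_, ?_, ?_, ?_, ?_⟩⟩
  · have h1 : T * T⁻¹ = 1 := Matrix.mul_nonsing_inv T hu
    have h3 : (T⁻¹)ᵀ * (Tᵀ * U + Uᵀ * T) * T⁻¹ = 0 := by rw [hTU, Matrix.mul_zero, Matrix.zero_mul]
    have h4 : (T⁻¹)ᵀ * Tᵀ = 1 := by rw [← Matrix.transpose_mul, h1, Matrix.transpose_one]
    have h5 : (T⁻¹)ᵀ * (Tᵀ * U + Uᵀ * T) * T⁻¹ = U * T⁻¹ + (T⁻¹)ᵀ * Uᵀ := by
      rw [Matrix.mul_add, Matrix.add_mul, ← Matrix.mul_assoc, h4, Matrix.one_mul,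
        ← Matrix.mul_assoc, Matrix.mul_assoc ((T⁻¹)ᵀ * Uᵀ), h1, Matrix.mul_one]
    rw [Matrix.transpose_mul]
    rw [h3] at h5
    exact eq_neg_of_add_eq_zero_right h5.symm
  · intro h0
    have h1 : t' = om T (om T⁻¹ t') := by
      funext l
      rw [← om_mul, Matrix.mul_nonsing_inv T hu, om_one]
    rw [h1, h0]
    funext l
    simp [om]
  all_goals
    have h1 : ∀ l, om T (om T⁻¹ t') l = t' l := fun l => by
      rw [← om_mul, Matrix.mul_nonsing_inv T hu, om_one]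
    have h3 : ∀ l, om U (om T⁻¹ t') l = om (U * T⁻¹) t' l := fun l => by rw [om_mul]
  · intro l hl hl'
    have hl'' : ¬ (l = p ∨ l = r) := by tauto
    exact ⟨by rw [← h1 l, hT2 _ l hl''], by rw [← h3 l, hU2 _ l hl'']⟩
  · rw [← h1 p, hT1 _ p (Or.inl rfl)]
  · rw [← h3 p, hU1 _ p (Or.inl rfl)]
  · rw [← h1 r, hT1 _ r (Or.inr rfl)]
  · rw [← h3 r, hU1 _ r (Or.inr rfl)]

end swap

section tight

universe u v w

variable {L : Type u} {V : Type v} {J : Type w} [Field L] [AddCommGroup V] [Module L V]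
  [FiniteDimensional L V]

theorem mem_C_of_ortho {𝒟 : Cfg L V J} (g : 𝒟.Good) {l : J}
    (hl : finrank L V ≤ 2 * finrank L (𝒟.C l) + 1) {u v : V} (hu : u ∈ perp 𝒟.q (𝒟.C l))
    (hv : v ∈ perp 𝒟.q (𝒟.C l)) (huC : u ∉ 𝒟.C l) (huv : 𝒟.q v u = 0) : v ∈ 𝒟.C l := by
  have h1 : 𝒟.C l ⊔ Submodule.span L {u} = perp 𝒟.q (𝒟.C l) := by
    apply Submodule.eq_of_le_of_finrank_le
    · refine sup_le (g.iso _ _) ?_
      rw [Submodule.span_le, Set.singleton_subset_iff]
      exact hu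
    · have h2 : 𝒟.C l < 𝒟.C l ⊔ Submodule.span L {u} := by
        refine lt_of_le_of_ne le_sup_left fun h => huC ?_
        rw [h]
        exact (le_sup_right : Submodule.span L {u} ≤ _) (Submodule.mem_span_singleton_self u)
      have h3 := Submodule.finrank_lt_finrank_of_lt h2
      have h4 := H887.finrank_perp g.form (𝒟.C l)
      omega
  rw [← h1] at hv
  obtain ⟨c, hc, w, hw, rfl⟩ := Submodule.mem_sup.mp hv
  obtain ⟨b, rfl⟩ := Submodule.mem_span_singleton.mp hw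
  have h2 : 𝒟.q c u = 0 := by
    rw [g.form.symm]
    exact hu c hc
  rw [map_add, LinearMap.add_apply, h2, zero_add, map_smul, LinearMap.smul_apply,
    smul_eq_mul] at huv
  rcases mul_eq_zero.mp huv with h3 | h3
  · rw [h3, zero_smul, add_zero]
    exact hc
  · exact absurd (Cfg.mem_C_of_null g hl hu h3) huC

variable [Fintype J] [DecidableEq J]

/-- the pairing of two families -/
theorem pair_zero {𝒟 : Cfg L V J} (g : 𝒟.Good) (t s : J → V) :
    ∑ l, (𝒟.q (t l) (𝒟.om s l) + 𝒟.q (𝒟.om t l) (s l)) = 0 := by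
  have h1 := (good_ofCfg g).M_skew t s
  rw [Cf.M_apply, Cf.M_apply] at h1
  rw [Finset.sum_add_distrib]
  have h2 : ∑ l, 𝒟.q (𝒟.om t l) (s l) = ∑ l, 𝒟.q (s l) (𝒟.om t l) :=
    Finset.sum_congr rfl fun l _ => g.form.symm _ _
  rw [h2]
  have h3 : ∑ l, 𝒟.q (t l) (𝒟.om s l) = -∑ l, 𝒟.q (s l) (𝒟.om t l) := h1
  rw [h3, neg_add_cancel]

/-- **There are tight families for the exchanged cross columns.** -/
theorem exists_exchanged [CharZero L] {𝒟 : Cfg L V J} (g : 𝒟.Good) (hV : 𝒟.Versal)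
    (hK : 𝒟.K ≠ ⊥) {p r : J} (hpr : p ≠ r) : ∃ t : J → V, t ≠ 0 ∧
      (∀ l, l ≠ p → l ≠ r → t l ∈ 𝒟.C l ∧ 𝒟.om t l ∈ perp 𝒟.q (𝒟.C l)) ∧
      (t p ∈ perp 𝒟.q (𝒟.C p) ∧ 𝒟.om t p ∈ 𝒟.C p) ∧
      (t r ∈ perp 𝒟.q (𝒟.C r) ∧ 𝒟.om t r ∈ 𝒟.C r) := by
  obtain ⟨Z, hZ, hsw⟩ := exists_swap (V := V) g.skew (hV.Ω_ne hpr) two_ne_zero
  have hZ' : ∀ l k, Z l k = -Z k l := fun l k => by
    have := congrFun (congrFun hZ k) l
    rwa [transpose_apply, Matrix.neg_apply] at this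
  have h1 : ((ofCfg 𝒟).setΩ Z).K ≠ ⊥ :=
    (good_ofCfg g).zar (versal_ofCfg hV) (by rwa [K_ofCfg g]) hZ'
  obtain ⟨t', ht', ht0⟩ := (Submodule.ne_bot_iff _).mp h1
  obtain ⟨t, hs0, hs1, hs2, hs3, hs4, hs5⟩ := hsw t'
  obtain ⟨h2, h3⟩ := Cf.mem_K.mp ht'
  have h4 : ∀ l, om Z t' l ∈ perp 𝒟.q (𝒟.C l) := fun l => by
    rw [← pp_eq g.form]
    exact h3 l
  refine ⟨t, fun h => ht0 (hs0 h), fun l hp hr => ?_, ⟨?_, ?_⟩, ⟨?_, ?_⟩⟩
  · obtain ⟨h5, h6⟩ := hs1 l hp hr
    refine ⟨by rw [h5]; exact h2 l, ?_⟩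
    show om 𝒟.Ω t l ∈ _
    rw [h6]
    exact h4 l
  · rw [hs3]; exact h4 p
  · show om 𝒟.Ω t p ∈ _
    rw [hs2]; exact h2 p
  · rw [hs5]; exact h4 r
  · show om 𝒟.Ω t r ∈ _
    rw [hs4]; exact h2 r

/-- tight elements -/
def Tight (𝒟 : Cfg L V J) (σ : J → J) (y : J → V) : Prop :=
  ∀ l, 𝒟.arm (σ l) ≠ 𝒟.arm l → 𝒟.om y l ∈ 𝒟.C l

/-- **One of two orthogonal elements spanning the kernel is tight.** -/
theorem tight_or_tight [CharZero L] {𝒟 : Cfg L V J} (g : 𝒟.Good) (hV : 𝒟.Versal) {σ : J → J}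
    (hP : 𝒟.Pairing σ) {x y : J → V} (hx : x ∈ 𝒟.K) (hy : y ∈ 𝒟.K) (hx0 : x ≠ 0)
    (hxy : ∀ l k, 𝒟.q (x l) (y k) = 0) (hK : ∀ z ∈ 𝒟.K, ∃ α β : L, z = α • x + β • y) :
    Tight 𝒟 σ x ∨ Tight 𝒟 σ y := by
  by_contra hcon
  rw [not_or] at hcon
  obtain ⟨hcx, hcy⟩ := hcon
  unfold Tight at hcx hcy
  push Not at hcx hcy
  obtain ⟨p, hp, hxp⟩ := hcx
  obtain ⟨r, hr, hyr⟩ := hcy
  have hoo : ∀ l, 𝒟.q (𝒟.om x l) (𝒟.om y l) = 0 := by
    intro l
    simp only [Cfg.om, map_sum, map_smul, LinearMap.sum_apply, LinearMap.smul_apply, hxy,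
      smul_zero, Finset.sum_const_zero]
  have hyp : 𝒟.om y p ∈ 𝒟.C p := mem_C_of_ortho g (hP.cross p hp) (hx.2 p) (hy.2 p) hxp
    (by rw [g.form.symm]; exact hoo p)
  have hxr : 𝒟.om x r ∈ 𝒟.C r := mem_C_of_ortho g (hP.cross r hr) (hy.2 r) (hx.2 r) hyr (hoo r)
  have hpr : p ≠ r := by
    rintro rfl
    exact hyr hyp
  obtain ⟨t, ht0, ht1, ⟨ht2, ht3⟩, ⟨ht4, ht5⟩⟩ := exists_exchanged g hV
    ((Submodule.ne_bot_iff _).mpr ⟨x, hx, hx0⟩) hpr
  have key : ∀ s ∈ 𝒟.K, 𝒟.q (t p) (𝒟.om s p) + 𝒟.q (t r) (𝒟.om s r) = 0 := by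
    intro s hs
    rw [← pair_zero g t s]
    symm
    rw [Finset.sum_eq_add p r hpr]
    · have h1 : 𝒟.q (𝒟.om t p) (s p) = 0 := g.iso _ _ (hs.1 p) _ ht3 |> fun h => by
        rw [g.form.symm]; exact h
      have h2 : 𝒟.q (𝒟.om t r) (s r) = 0 := g.iso _ _ (hs.1 r) _ ht5 |> fun h => by
        rw [g.form.symm]; exact h
      rw [h1, h2, add_zero, add_zero]
    · rintro l _ ⟨hlp, hlr⟩
      obtain ⟨h1, h2⟩ := ht1 l hlp hlr
      have h3 : 𝒟.q (t l) (𝒟.om s l) = 0 := by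
        rw [g.form.symm]; exact hs.2 l _ h1
      have h4 : 𝒟.q (𝒟.om t l) (s l) = 0 := h2 _ (hs.1 l)
      rw [h3, h4, add_zero]
    · intro h; exact absurd (Finset.mem_univ _) h
    · intro h; exact absurd (Finset.mem_univ _) h
  have hCp : t p ∈ 𝒟.C p := by
    refine mem_C_of_ortho g (hP.cross p hp) (hx.2 p) ht2 hxp ?_
    have h1 := key x hx
    have h2 : 𝒟.q (t r) (𝒟.om x r) = 0 := ht4 _ hxr
    rwa [h2, add_zero] at h1
  have hCr : t r ∈ 𝒟.C r := by
    refine mem_C_of_ortho g (hP.cross r hr) (hy.2 r) ht4 hyr ?_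
    have h1 := key y hy
    have h2 : 𝒟.q (t p) (𝒟.om y p) = 0 := ht2 _ hyp
    rwa [h2, zero_add] at h1
  have htK : t ∈ 𝒟.K := by
    refine ⟨fun l => ?_, fun l => ?_⟩
    · by_cases h1 : l = p
      · rw [h1]; exact hCp
      · by_cases h2 : l = r
        · rw [h2]; exact hCr
        · exact (ht1 l h1 h2).1
    · by_cases h1 : l = p
      · rw [h1]; exact g.iso _ _ ht3
      · by_cases h2 : l = r
        · rw [h2]; exact g.iso _ _ ht5
        · exact (ht1 l h1 h2).2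
  obtain ⟨α, β, hαβ⟩ := hK t htK
  have hom : ∀ l, 𝒟.om t l = α • 𝒟.om x l + β • 𝒟.om y l := by
    intro l
    show om 𝒟.Ω t l = α • om 𝒟.Ω x l + β • om 𝒟.Ω y l
    rw [hαβ, om_add, om_smul, om_smul]
  have hα : α = 0 := by
    by_contra hα
    apply hxp
    rw [hom p] at ht3
    have h1 := (𝒟.C p).sub_mem ht3 ((𝒟.C p).smul_mem β hyp)
    rw [add_sub_cancel_right] at h1
    exact ((𝒟.C p).smul_mem_iff hα).mp h1
  have hβ : β = 0 := by
    by_contra hβ
    apply hyr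
    rw [hom r] at ht5
    have h1 := (𝒟.C r).sub_mem ht5 ((𝒟.C r).smul_mem α hxr)
    rw [add_sub_cancel_left] at h1
    exact ((𝒟.C r).smul_mem_iff hβ).mp h1
  rw [hα, hβ, zero_smul, zero_smul, add_zero] at hαβ
  exact ht0 hαβ

end tight

end Vale.Agent.P182.H96
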