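import Vale.Agent.P182.H96.Cfg
import Mathlib.Algebra.DualNumber
import Mathlib.Algebra.MvPolynomial.PDeriv
import Mathlib.LinearAlgebra.Matrix.ToLinearEquiv

/-!
# The kernel of a versal configuration does not vanish for special `Ω`

If the kernel of a versal configuration is nonzero, then it is nonzero for every skew matrix
in the place of `Ω`.
-/

namespace Vale.Agent.P182.H96

open Module Matrix Vale.Agent.P182.H533

section dual

variable {R : Type*} [CommRing R]

/-- the ring homomorphism into the dual numbers given by a derivation -/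
def derHom (D : R →+ R) (hD : ∀ a b, D (a * b) = D a * b + a * D b) : R →+* DualNumber R where
  toFun a := (a, D a)
  map_one' := by
    have h : D 1 = 0 := by
      have := hD 1 1
      simp only [mul_one, one_mul] at this
      exact left_eq_add.mp this
    ext
    · rfl
    · exact h
  map_mul' a b := by
    ext
    · rfl
    · show D (a * b) = a • D b + MulOpposite.op b • D a
      rw [hD, smul_eq_mul, op_smul_eq_mul, add_comm]
  map_zero' := by
    ext
    · rfl
    · exact map_zero D
  map_add' a b := by
    ext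
    · rfl
    · exact map_add D a b

/-- the derivative of a determinant -/
theorem der_det {I : Type*} [Fintype I] [DecidableEq I] (D : R →+ R)
    (hD : ∀ a b, D (a * b) = D a * b + a * D b) (M a : Matrix I I R)
    (h : ∀ i j, D (M i j) = (aᵀ * M + M * a) i j) : ∃ c, D M.det = c * M.det := by
  let φ := derHom D hD
  let ε : R → DualNumber R := fun r => (0, r)
  let u : R → DualNumber R := fun r => (r, 0)
  let X : Matrix I I (DualNumber R) := Matrix.of fun i j => ((1 : Matrix I I R) i j, aᵀ i j)
  let Y : Matrix I I (DualNumber R) := Matrix.of fun i j => ((1 : Matrix I I R) i j, a i j)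
  let N : Matrix I I (DualNumber R) := (TrivSqZeroExt.inlHom R R).mapMatrix M
  have h1 : φ.mapMatrix M = X * N * Y := by
    ext i j
    · have e1 : TrivSqZeroExt.fst ((X * N * Y) i j) =
          ((1 : Matrix I I R) * M * (1 : Matrix I I R) : Matrix I I R) i j := by
        simp only [Matrix.mul_apply, TrivSqZeroExt.fst_sum, TrivSqZeroExt.fst_mul]
        rfl
      rw [e1, Matrix.one_mul, Matrix.mul_one]
      rfl
    · have e1 : TrivSqZeroExt.snd ((X * N * Y) i j) =
          (aᵀ * M * (1 : Matrix I I R) + ((1 : Matrix I I R) * M) * a : Matrix I I R) i j := by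
        rw [Matrix.mul_apply, TrivSqZeroExt.snd_sum, Matrix.add_apply, Matrix.mul_apply,
          Matrix.mul_apply, ← Finset.sum_add_distrib]
        refine Finset.sum_congr rfl fun k _ => ?_
        have e2 : TrivSqZeroExt.fst ((X * N) i k) = ((1 : Matrix I I R) * M : Matrix I I R) i k := by
          simp only [Matrix.mul_apply, TrivSqZeroExt.fst_sum, TrivSqZeroExt.fst_mul]
          rfl
        have e3 : TrivSqZeroExt.snd ((X * N) i k) = (aᵀ * M : Matrix I I R) i k := by
          rw [Matrix.mul_apply, TrivSqZeroExt.snd_sum, Matrix.mul_apply]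
          refine Finset.sum_congr rfl fun k' _ => ?_
          rw [TrivSqZeroExt.snd_mul]
          show (1 : Matrix I I R) i k' • (0 : R) + MulOpposite.op (M k' k) • aᵀ i k' = _
          rw [smul_zero, zero_add, op_smul_eq_mul]
        rw [TrivSqZeroExt.snd_mul, e2, e3]
        show _ • a k j + MulOpposite.op ((1 : Matrix I I R) k j) • _ = _
        rw [smul_eq_mul, op_smul_eq_mul]
        ring
      rw [e1, Matrix.mul_one, Matrix.one_mul, ← h]
      rfl
  have h2 : φ M.det = X.det * Y.det * (TrivSqZeroExt.inl M.det : DualNumber R) := by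
    rw [RingHom.map_det, h1, Matrix.det_mul, Matrix.det_mul, ← RingHom.map_det]
    show X.det * TrivSqZeroExt.inl M.det * Y.det = _
    ring
  refine ⟨TrivSqZeroExt.snd (X.det * Y.det), ?_⟩
  have h3 : TrivSqZeroExt.snd (φ M.det) = D M.det := rfl
  rw [← h3, h2, TrivSqZeroExt.snd_mul, TrivSqZeroExt.snd_inl, smul_zero, zero_add,
    TrivSqZeroExt.fst_inl, op_smul_eq_mul]

end dual

section poly

open MvPolynomial

variable {L σ : Type*} [Field L]

/-- the derivation of the coefficients -/
noncomputable def dC (d : L →+ L) : MvPolynomial σ L →+ MvPolynomial σ L where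
  toFun p := ∑ m ∈ p.support, monomial m (d (coeff m p))
  map_zero' := by simp
  map_add' p q := by
    classical
    have key : ∀ (p : MvPolynomial σ L) (n : σ →₀ ℕ),
        coeff n (∑ m ∈ p.support, monomial m (d (coeff m p))) = d (coeff n p) := by
      intro p n
      rw [coeff_sum, Finset.sum_eq_single n]
      · rw [coeff_monomial, if_pos rfl]
      · intro m _ hm
        rw [coeff_monomial, if_neg hm]
      · intro hn
        rw [coeff_monomial, if_pos rfl, notMem_support_iff.mp hn, map_zero]
    ext n
    rw [coeff_add, key, key, key, coeff_add, map_add]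

theorem coeff_dC (d : L →+ L) (p : MvPolynomial σ L) (n : σ →₀ ℕ) :
    coeff n (dC d p) = d (coeff n p) := by
  classical
  show coeff n (∑ m ∈ p.support, monomial m (d (coeff m p))) = _
  rw [coeff_sum, Finset.sum_eq_single n]
  · rw [coeff_monomial, if_pos rfl]
  · intro m _ hm
    rw [coeff_monomial, if_neg hm]
  · intro hn
    rw [coeff_monomial, if_pos rfl, notMem_support_iff.mp hn, map_zero]

theorem dC_mul {d : L →+ L} (hd : ∀ a b, d (a * b) = d a * b + a * d b) (p q : MvPolynomial σ L) :
    dC d (p * q) = dC d p * q + p * dC d q := by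
  classical
  ext n
  rw [coeff_dC, coeff_add, coeff_mul, coeff_mul, coeff_mul, map_sum, ← Finset.sum_add_distrib]
  refine Finset.sum_congr rfl fun x _ => ?_
  rw [hd, coeff_dC, coeff_dC]

theorem dC_C (d : L →+ L) (x : L) : dC d (C x : MvPolynomial σ L) = C (d x) := by
  classical
  ext n
  rw [coeff_dC, coeff_C, coeff_C]
  split_ifs
  · rfl
  · exact map_zero d

theorem dC_X {d : L →+ L} (hd : ∀ a b, d (a * b) = d a * b + a * d b) (i : σ) :
    dC d (X i : MvPolynomial σ L) = 0 := by
  classical
  ext n
  rw [coeff_dC, coeff_X, coeff_zero]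
  split_ifs
  · have := hd 1 1
    simp only [mul_one, one_mul] at this
    exact left_eq_add.mp this
  · exact map_zero d

/-- **Zariski density.** -/
theorem poly_zero [CharZero L] (F : MvPolynomial σ L) (h0 : coeff 0 F = 0)
    (h : ∀ i : σ, ∃ (d : L →+ L) (c : MvPolynomial σ L), dC d F - pderiv i F = c * F) : F = 0 := by
  classical
  have key : ∀ n : ℕ, ∀ s : σ →₀ ℕ, s.degree = n → coeff s F = 0 := by
    intro n
    induction n using Nat.strong_induction_on with
    | _ n ih =>
    intro s hs
    by_cases hs0 : s = 0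
    · rw [hs0, h0]
    obtain ⟨i, hi⟩ : ∃ i, s i ≠ 0 := by
      by_contra hcon
      push Not at hcon
      exact hs0 (Finsupp.ext hcon)
    obtain ⟨d, c, hc⟩ := h i
    let m : σ →₀ ℕ := s - Finsupp.single i 1
    have hm : m + Finsupp.single i 1 = s := by
      ext j
      by_cases hj : j = i
      · subst hj
        simp only [m, Finsupp.add_apply, Finsupp.tsub_apply, Finsupp.single_eq_same]
        omega
      · simp only [m, Finsupp.add_apply, Finsupp.tsub_apply]
        rw [Finsupp.single_eq_of_ne hj]
        omega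
    have hdeg : m.degree + 1 = n := by
      rw [← hs, ← hm, map_add, Finsupp.degree_single]
    have h1 := congrArg (coeff m) hc
    rw [coeff_sub, coeff_dC, coeff_pderiv, coeff_mul, hm, ih m.degree (by omega) m rfl, map_zero,
      zero_sub] at h1
    have h2 : ∑ x ∈ Finset.antidiagonal m, coeff x.1 c * coeff x.2 F = 0 := by
      refine Finset.sum_eq_zero fun x hx => ?_
      have h3 : x.1 + x.2 = m := Finset.mem_antidiagonal.mp hx
      have h4 : x.1.degree + x.2.degree = m.degree := by rw [← h3, map_add]
      rw [ih x.2.degree (by omega) x.2 rfl, mul_zero]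
    rw [h2, neg_eq_zero] at h1
    rcases mul_eq_zero.mp h1 with h3 | h3
    · exact h3
    · exact absurd h3 (by
        have : ((m i : L) + 1) = ((m i + 1 : ℕ) : L) := by push_cast; rfl
        rw [this]
        exact Nat.cast_ne_zero.mpr (Nat.succ_ne_zero _))
  ext s
  rw [key _ s rfl, coeff_zero]

end poly


namespace Cf

section zar

variable {L V J ι : Type*} [Field L] [AddCommGroup V] [Module L V] [Fintype J]
  {a : Cf L V J ι}

/-- the configuration with another matrix -/
def setΩ (a : Cf L V J ι) (Z : Matrix J J L) : Cf L V J ι := { a with Ω := Z }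

theorem mem_K_basis {n : ℕ} (β : Basis (Fin n) L (a.E ⊤)) (Z : Matrix J J L) (v : Fin n → L) :
    ((∑ j, v j • β j : a.E ⊤) : J → V) ∈ (a.setΩ Z).K ↔
      (Matrix.of fun i j => (a.setΩ Z).M (β i : J → V) (β j : J → V)) *ᵥ v = 0 := by
  have e1 : ∀ w : J → V, (a.setΩ Z).M w ((∑ j, v j • β j : a.E ⊤) : J → V) =
      ∑ j, v j * (a.setΩ Z).M w (β j : J → V) := by
    intro w
    rw [Submodule.coe_sum, map_sum]
    exact Finset.sum_congr rfl fun j _ => by rw [Submodule.coe_smul, map_smul, smul_eq_mul]
  rw [mem_K']
  constructor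
  · rintro ⟨-, h⟩
    funext i
    rw [Matrix.mulVec, dotProduct]
    have h1 := h (β i : J → V) (mem_E_top.mp (β i).2)
    rw [e1] at h1
    refine Eq.trans ?_ h1
    exact Finset.sum_congr rfl fun j _ => by rw [Matrix.of_apply, mul_comm]
  · intro h
    refine ⟨mem_E_top.mp (∑ j, v j • β j : a.E ⊤).2, fun w hw => ?_⟩
    have h1 : (∑ i, β.repr ⟨w, mem_E_top.mpr hw⟩ i • β i : a.E ⊤) = ⟨w, mem_E_top.mpr hw⟩ :=
      β.sum_repr _
    have h2 : w = ((∑ i, β.repr ⟨w, mem_E_top.mpr hw⟩ i • β i : a.E ⊤) : J → V) := by rw [h1]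
    rw [h2, Submodule.coe_sum, map_sum, LinearMap.sum_apply]
    refine Finset.sum_eq_zero fun i _ => ?_
    rw [Submodule.coe_smul, map_smul, LinearMap.smul_apply, e1]
    have h3 := congrFun h i
    rw [Matrix.mulVec, dotProduct] at h3
    have h4 : ∑ j, v j * (a.setΩ Z).M (β i : J → V) (β j : J → V) = 0 := by
      rw [← Pi.zero_apply (M := fun _ => L) i, ← h3]
      exact Finset.sum_congr rfl fun j _ => by rw [Matrix.of_apply, mul_comm]
    rw [h4, smul_zero]

theorem K_ne_bot_iff {n : ℕ} (β : Basis (Fin n) L (a.E ⊤)) (Z : Matrix J J L) :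
    (a.setΩ Z).K ≠ ⊥ ↔
      (Matrix.of fun i j => (a.setΩ Z).M (β i : J → V) (β j : J → V)).det = 0 := by
  rw [← Matrix.exists_mulVec_eq_zero_iff]
  constructor
  · intro h
    obtain ⟨t, ht, ht0⟩ := (Submodule.ne_bot_iff _).mp h
    have htE : t ∈ a.E ⊤ := mem_E_top.mpr (mem_K'.mp ht).1
    have h1 : (∑ i, β.repr ⟨t, htE⟩ i • β i : a.E ⊤) = ⟨t, htE⟩ := β.sum_repr _
    refine ⟨fun i => β.repr ⟨t, htE⟩ i, fun h2 => ht0 ?_, (mem_K_basis β Z _).mp (by
      rw [h1]; exact ht)⟩
    have h3 : t = ((∑ i, β.repr ⟨t, htE⟩ i • β i : a.E ⊤) : J → V) := by rw [h1]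
    rw [h3, Finset.sum_eq_zero fun i _ => by rw [congrFun h2 i, Pi.zero_apply, zero_smul],
      Submodule.coe_zero]
  · rintro ⟨v, hv, h⟩
    refine (Submodule.ne_bot_iff _).mpr ⟨_, (mem_K_basis β Z v).mpr h, fun h1 => hv ?_⟩
    have h2 : (∑ j, v j • β j : a.E ⊤) = 0 := Subtype.ext h1
    exact funext fun i => Fintype.linearIndependent_iff.mp β.linearIndependent v h2 i

open MvPolynomial in
/-- **Zariski density.** If the kernel of a versal configuration is nonzero, then it is nonzero
for every skew matrix. -/
theorem Good.zar [FiniteDimensional L V] [CharZero L] (h : a.Good) (hV : a.Versal)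
    (hK : a.K ≠ ⊥) {Z : Matrix J J L} (hZ : ∀ l k, Z l k = - Z k l) : (a.setΩ Z).K ≠ ⊥ := by
  classical
  let n := finrank L (a.E ⊤)
  let β : Basis (Fin n) L (a.E ⊤) := Module.finBasis L (a.E ⊤)
  let P : Fin n → Fin n → J → J → L := fun i j l k => a.q ((β i : J → V) l) ((β j : J → V) k)
  let A : Matrix (Fin n) (Fin n) (MvPolynomial (J × J) L) := Matrix.of fun i j =>
    ∑ l, ∑ k, MvPolynomial.C (P i j l k) * (MvPolynomial.C (a.Ω l k) + X (l, k) - X (k, l))
  have hA : ∀ i j, A i j = ∑ l, ∑ k, MvPolynomial.C (P i j l k) *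
      (MvPolynomial.C (a.Ω l k) + X (l, k) - X (k, l)) := fun i j => rfl
  -- evaluation
  have hev : ∀ z : J × J → L, eval z A.det = (Matrix.of fun i j =>
      (a.setΩ (Matrix.of fun l k => a.Ω l k + z (l, k) - z (k, l))).M
        (β i : J → V) (β j : J → V)).det := by
    intro z
    rw [RingHom.map_det]
    congr 1
    ext i j
    show eval z (∑ l, ∑ k, MvPolynomial.C (P i j l k) *
      (MvPolynomial.C (a.Ω l k) + X (l, k) - X (k, l))) = (a.setΩ _).M _ _
    rw [map_sum, M_eq]
    refine Finset.sum_congr rfl fun l _ => ?_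
    rw [map_sum]
    refine Finset.sum_congr rfl fun k _ => ?_
    rw [map_mul, map_sub, map_add, eval_C, eval_C, eval_X, eval_X, mul_comm]
    rfl
  -- the polynomial vanishes
  have hF : A.det = 0 := by
    apply poly_zero
    · have h1 := hev 0
      rw [← constantCoeff_eq, ← eval_zero, h1]
      have h2 : (Matrix.of fun l k => a.Ω l k + (0 : J × J → L) (l, k) -
          (0 : J × J → L) (k, l) : Matrix J J L) = a.Ω := by
        ext l k
        simp
      rw [h2]
      exact (K_ne_bot_iff β a.Ω).mp hK
    · rintro ⟨l0, k0⟩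
      let η : J → J → L := fun l k =>
        (if (l, k) = (l0, k0) then 1 else 0) - (if (k, l) = (l0, k0) then 1 else 0)
      obtain ⟨c, hc1, hc2⟩ := hV (fun _ => 0) (fun s u v => by simp) η (fun l k => by
        show _ - _ = -(_ - _)
        ring)
      -- the action on `E`
      have hcE : ∀ t : a.E ⊤, (fun l => c.δ ((t : J → V) l)) ∈ a.E ⊤ := fun t =>
        mem_E_top.mpr fun l => by
          have h1 := hc1 (a.arm l) (a.c l) _ (mem_E_top.mp t.2 l)
          rwa [LinearMap.zero_apply, sub_zero] at h1
      let B : Matrix (Fin n) (Fin n) L := Matrix.of fun i j => β.repr ⟨_, hcE (β j)⟩ i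
      have hB : ∀ j l, c.δ ((β j : J → V) l) = ∑ i, B i j • (β i : J → V) l := by
        intro j l
        have h1 : (∑ i, β.repr ⟨_, hcE (β j)⟩ i • β i : a.E ⊤) = ⟨_, hcE (β j)⟩ := β.sum_repr _
        have h2 := congrFun (congrArg (Subtype.val) h1) l
        rw [Submodule.coe_sum, Finset.sum_apply] at h2
        exact h2.symm
      let D : MvPolynomial (J × J) L →+ MvPolynomial (J × J) L :=
        dC c.d - (pderiv (l0, k0)).toLinearMap.toAddMonoidHom
      have hDa : ∀ p, D p = dC c.d p - pderiv (l0, k0) p := fun p => rfl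
      have hD : ∀ p r, D (p * r) = D p * r + p * D r := by
        intro p r
        rw [hDa, hDa, hDa, dC_mul c.leib, Derivation.leibniz, smul_eq_mul, smul_eq_mul]
        ring
      obtain ⟨g, hg⟩ := der_det D hD A (B.map MvPolynomial.C) (by
        intro i j
        have e1 : ∀ l k, D (MvPolynomial.C (a.Ω l k) + X (l, k) - X (k, l)) = 0 := by
          intro l k
          rw [map_sub, map_add, hDa, hDa, hDa, dC_C, dC_X c.leib, dC_X c.leib, pderiv_C,
            pderiv_X, pderiv_X, hc2]
          show MvPolynomial.C (_ - _) - 0 + (0 - _) - (0 - _) = _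
          rw [map_sub]
          by_cases h1 : (l, k) = (l0, k0)
          · by_cases h2 : (k, l) = (l0, k0)
            · rw [if_pos h1, if_pos h2, h1, h2]
              simp
            · rw [if_pos h1, if_neg h2, h1, Pi.single_eq_same, Pi.single_eq_of_ne h2]
              simp
          · by_cases h2 : (k, l) = (l0, k0)
            · rw [if_neg h1, if_pos h2, h2, Pi.single_eq_same, Pi.single_eq_of_ne h1]
              simp
            · rw [if_neg h1, if_neg h2, Pi.single_eq_of_ne h1, Pi.single_eq_of_ne h2]
              simp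
        have e2 : ∀ l k, D (MvPolynomial.C (P i j l k)) = ∑ i', MvPolynomial.C (B i' i) * MvPolynomial.C (P i' j l k) +
            ∑ j', MvPolynomial.C (B j' j) * MvPolynomial.C (P i j' l k) := by
          intro l k
          rw [hDa, dC_C, pderiv_C, sub_zero]
          show MvPolynomial.C (c.d (a.q _ _)) = _
          rw [c.metric, hB, hB, map_sum, map_sum, LinearMap.sum_apply, map_add, map_sum, map_sum]
          congr 1
          · refine Finset.sum_congr rfl fun i' _ => ?_
            rw [map_smul, LinearMap.smul_apply, smul_eq_mul, map_mul]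
          · refine Finset.sum_congr rfl fun i' _ => ?_
            rw [map_smul, smul_eq_mul, map_mul]
        have e3 : D (A i j) = ∑ l, ∑ k, (∑ i', MvPolynomial.C (B i' i) * MvPolynomial.C (P i' j l k) +
            ∑ j', MvPolynomial.C (B j' j) * MvPolynomial.C (P i j' l k)) * (MvPolynomial.C (a.Ω l k) + X (l, k) - X (k, l)) := by
          rw [hA, map_sum]
          refine Finset.sum_congr rfl fun l _ => ?_
          rw [map_sum]
          refine Finset.sum_congr rfl fun k _ => ?_
          rw [hD, e1, e2, mul_zero, add_zero]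
        rw [e3, Matrix.add_apply, Matrix.mul_apply, Matrix.mul_apply]
        have e4 : ∀ i', (B.map (MvPolynomial.C : L → MvPolynomial (J × J) L))ᵀ i i' * A i' j =
            ∑ l, ∑ k, MvPolynomial.C (B i' i) * MvPolynomial.C (P i' j l k) * (MvPolynomial.C (a.Ω l k) + X (l, k) - X (k, l)) := by
          intro i'
          rw [Matrix.transpose_apply, Matrix.map_apply, hA, Finset.mul_sum]
          refine Finset.sum_congr rfl fun l _ => ?_
          rw [Finset.mul_sum]
          exact Finset.sum_congr rfl fun k _ => by rw [mul_assoc]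
        have e5 : ∀ j', A i j' * (B.map (MvPolynomial.C : L → MvPolynomial (J × J) L)) j' j =
            ∑ l, ∑ k, MvPolynomial.C (B j' j) * MvPolynomial.C (P i j' l k) * (MvPolynomial.C (a.Ω l k) + X (l, k) - X (k, l)) := by
          intro j'
          rw [Matrix.map_apply, hA, mul_comm, Finset.mul_sum]
          refine Finset.sum_congr rfl fun l _ => ?_
          rw [Finset.mul_sum]
          exact Finset.sum_congr rfl fun k _ => by rw [mul_assoc]
        have e6 : ∀ f : Fin n → J → J → MvPolynomial (J × J) L,
            ∑ i', ∑ l, ∑ k, f i' l k = ∑ l, ∑ k, ∑ i', f i' l k := fun f => by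
          rw [Finset.sum_comm]
          exact Finset.sum_congr rfl fun l _ => Finset.sum_comm
        rw [Finset.sum_congr rfl fun i' _ => e4 i', Finset.sum_congr rfl fun j' _ => e5 j',
          e6, e6, ← Finset.sum_add_distrib]
        refine Finset.sum_congr rfl fun l _ => ?_
        rw [← Finset.sum_add_distrib]
        refine Finset.sum_congr rfl fun k _ => ?_
        rw [add_mul, Finset.sum_mul, Finset.sum_mul])
      exact ⟨c.d, g, by rw [← hDa]; exact hg⟩
  rw [K_ne_bot_iff β Z]
  have h1 := hev (fun p => (Z p.1 p.2 - a.Ω p.1 p.2) / 2)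
  rw [hF, map_zero] at h1
  have h2 : (Matrix.of fun l k => a.Ω l k + (Z l k - a.Ω l k) / 2 - (Z k l - a.Ω k l) / 2 :
      Matrix J J L) = Z := by
    ext l k
    rw [Matrix.of_apply, hZ k l, h.skew k l]
    ring
  rw [← h2]
  exact h1.symm

end zar

end Cf

end Vale.Agent.P182.H96
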